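import Vale.Agent.P262.H654.Reopen
import Vale.Agent.P262.H395.Tree

/-!
# P262, FIELD: one level (used at every node of a label dependent flag)

`p : Lev E` is one level (label space, truncation height, killed labels), `u` the field below it.
`fl [p] u` is the field above. All estimates are pointwise in the label `x` of `p`.
-/

set_option linter.all false

open MeasureTheory ProbabilityTheory Set
open scoped ENNReal RealInnerProductSpace Classical

namespace Vale.Agent.P262.H654

open Vale.Agent.P262.H395 (mix)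
open Vale.Agent.P262.H847 (UI)

variable {E : Type*} [NormedAddCommGroup E] [InnerProductSpace ℝ E] [FiniteDimensional ℝ E]
  [MeasurableSpace E] [BorelSpace E]

variable {c0 : ℝ} {p : Lev E} {u u' g g' : E → ℝ} {W W' : Submodule ℝ E} {x y : E}

lemma good_one (hp : LevOK c0 p) : Good c0 [p] := ⟨hp, by simp, trivial⟩

lemma fl_one (p : Lev E) (u : E → ℝ) (x : E) :
    fl [p] u x = (1 - nk p x) + ph p (fr p.W u) x * u x := fl_cons'

lemma fl_one_UI (hp : LevOK c0 p) (hc : c0 ≤ 1 / 16) (hu : UI u) : UI (fl [p] u) :=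
  fl_UI (good_one hp) hc hu

/-- the local slope of a level: `0` if the label is killed or truncated -/
noncomputable def slp (p : Lev E) (F : E → ℝ) (x : E) : ℝ :=
  if x ∉ p.Z ∧ p.c x < F x then sg (p.c x) else 0

lemma slp_nonneg (hp : LevOK c0 p) (hc : c0 ≤ 1 / 16) (F : E → ℝ) (x : E) : 0 ≤ slp p F x := by
  unfold slp
  split_ifs with h
  · exact (sg_pos ((hp.le x h.1).trans hc)).le
  · exact le_rfl

lemma slp_le (hp : LevOK c0 p) (hc0 : 0 ≤ c0) (hc : c0 ≤ 1 / 16) (F : E → ℝ) (x : E) :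
    slp p F x ≤ sg c0 := by
  unfold slp
  split_ifs with h
  · exact sg_mono (hp.le x h.1) hc
  · exact (sg_pos hc).le

/-- the slope is `1 + 16 c` -/
lemma sg_le_one_add {c : ℝ} (h0 : 0 ≤ c) (h : c ≤ 1 / 16) : sg c ≤ 1 + 16 * c := by
  unfold sg
  rw [div_le_iff₀ (by linarith)]
  nlinarith

lemma slp_le_one_add (hp : LevOK c0 p) (hc : c0 ≤ 1 / 16) (F : E → ℝ) (x : E) :
    slp p F x ≤ 1 + 16 * (nk p x * p.c x) := by
  unfold slp nk
  by_cases h : x ∈ p.Z
  · rw [if_neg (fun h' => h'.1 h), if_pos h]; norm_num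
  · rw [if_neg h, one_mul]
    have h1 := hp.nonneg x
    have h2 := (hp.le x h).trans hc
    split_ifs
    · exact sg_le_one_add h1 h2
    · linarith

/-- the mean above a level -/
lemma fr_one (hp : LevOK c0 p) (hc : c0 ≤ 1 / 16) (hu : UI u) (x : E) :
    fr p.W (fl [p] u) x = if x ∈ p.Z then 1 else tr (p.c x) (fr p.W u x) := by
  have := fr_fl_cons (L := []) hp hc trivial hu x
  simpa using this

/-- **mass change across a level** -/
lemma one_mass (hp : LevOK c0 p) (hc : c0 ≤ 1 / 16) (hu : UI u) (hu' : UI u') (x : E) :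
    |fr p.W (fl [p] u') x - fr p.W (fl [p] u) x|
      ≤ slp p (fun z => max (fr p.W u z) (fr p.W u' z)) x * |fr p.W u' x - fr p.W u x| := by
  rw [fr_one hp hc hu, fr_one hp hc hu']
  by_cases hz : x ∈ p.Z
  · rw [if_pos hz, if_pos hz, sub_self, abs_zero]
    exact mul_nonneg (slp_nonneg hp hc _ x) (abs_nonneg _)
  rw [if_neg hz, if_neg hz]
  have h0 := hp.nonneg x
  have h1 := (hp.le x hz).trans hc
  have F0 := (UI.fr hu p.W).nonneg x
  have F0' := (UI.fr hu' p.W).nonneg x
  rcases le_total (fr p.W u x) (fr p.W u' x) with h | h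
  · have h2 := tr_slope h0 h1 F0 h
    have h3 := tr_mono h0 h1 h
    rw [abs_of_nonneg (by linarith), abs_of_nonneg (by linarith)]
    have : slp p (fun z => max (fr p.W u z) (fr p.W u' z)) x
        = if p.c x < fr p.W u' x then sg (p.c x) else 0 := by
      unfold slp
      simp only [max_eq_right h, hz, not_false_eq_true, true_and]
    rw [this]
    exact h2
  · have h2 := tr_slope h0 h1 F0' h
    have h3 := tr_mono h0 h1 h
    rw [abs_of_nonpos (by linarith), abs_of_nonpos (by linarith)]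
    have : slp p (fun z => max (fr p.W u z) (fr p.W u' z)) x
        = if p.c x < fr p.W u x then sg (p.c x) else 0 := by
      unfold slp
      simp only [max_eq_left h, hz, not_false_eq_true, true_and]
    rw [this]
    linarith

/-- **(ONE-STEP)** `L¹` change across a level -/
theorem one_step (hp : LevOK c0 p) (hc : c0 ≤ 1 / 16) (hu : UI u) (hu' : UI u') (x : E) :
    fr p.W (fun y => |fl [p] u' y - fl [p] u y|) x
      ≤ slp p (fr p.W fun z => max (u z) (u' z)) x * fr p.W (fun y => |u' y - u y|) x := by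
  set G : E → ℝ := fun z => max (u z) (u' z) with hG
  have hGU : UI G := UI.max hu hu'
  have hg := good_one hp
  have a1 : ∀ z, u z ≤ G z := fun z => le_max_left _ _
  have a2 : ∀ z, u' z ≤ G z := fun z => le_max_right _ _
  have v := fl_UI hg hc hu
  have v' := fl_UI hg hc hu'
  have V := fl_UI hg hc hGU
  have key : fr p.W (fun y => |fl [p] u' y - fl [p] u y|) x
      ≤ (fr p.W (fl [p] G) x - fr p.W (fl [p] u) x)
        + (fr p.W (fl [p] G) x - fr p.W (fl [p] u') x) := by
    rw [← fr_sub (Bd.of_UI V) (Bd.of_UI v), ← fr_sub (Bd.of_UI V) (Bd.of_UI v'),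
      ← fr_add ((Bd.of_UI V).sub (Bd.of_UI v)) ((Bd.of_UI V).sub (Bd.of_UI v'))]
    refine fr_mono ((Bd.of_UI v').sub (Bd.of_UI v)).abs
      (((Bd.of_UI V).sub (Bd.of_UI v)).add ((Bd.of_UI V).sub (Bd.of_UI v'))) (fun y => ?_) x
    have e1 := fl_mono hg hc hu hGU a1 y
    have e2 := fl_mono hg hc hu' hGU a2 y
    rw [abs_le]
    constructor <;> linarith
  refine key.trans ?_
  rw [fr_one hp hc hu, fr_one hp hc hu', fr_one hp hc hGU]
  have habs : fr p.W (fun y => |u' y - u y|) x
      = (fr p.W G x - fr p.W u x) + (fr p.W G x - fr p.W u' x) := by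
    rw [← fr_sub (Bd.of_UI hGU) (Bd.of_UI hu), ← fr_sub (Bd.of_UI hGU) (Bd.of_UI hu'),
      ← fr_add ((Bd.of_UI hGU).sub (Bd.of_UI hu)) ((Bd.of_UI hGU).sub (Bd.of_UI hu'))]
    congr 1
    funext y
    exact (max_sub_add (u y) (u' y)).symm
  rw [habs]
  by_cases hz : x ∈ p.Z
  · have h3 : slp p (fr p.W G) x = 0 := by
      unfold slp; rw [if_neg (fun h => h.1 hz)]
    rw [if_pos hz, if_pos hz, if_pos hz, h3]
    simp
  rw [if_neg hz, if_neg hz, if_neg hz]
  have h0 := hp.nonneg x
  have h1 := (hp.le x hz).trans hc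
  have m1 : fr p.W u x ≤ fr p.W G x := fr_mono (Bd.of_UI hu) (Bd.of_UI hGU) a1 x
  have m2 : fr p.W u' x ≤ fr p.W G x := fr_mono (Bd.of_UI hu') (Bd.of_UI hGU) a2 x
  have t1 := tr_slope h0 h1 ((UI.fr hu p.W).nonneg x) m1
  have t2 := tr_slope h0 h1 ((UI.fr hu' p.W).nonneg x) m2
  have e : slp p (fr p.W G) x = if p.c x < fr p.W G x then sg (p.c x) else 0 := by
    unfold slp
    simp only [hz, not_false_eq_true, true_and]
  rw [e]
  nlinarith

/-- the same with a function which is larger than both fields below -/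
lemma slp_mono (hp : LevOK c0 p) (hc : c0 ≤ 1 / 16) {F F' : E → ℝ} (h : F x ≤ F' x) :
    slp p F x ≤ slp p F' x := by
  unfold slp
  by_cases h1 : x ∉ p.Z ∧ p.c x < F x
  · rw [if_pos h1, if_pos ⟨h1.1, h1.2.trans_le h⟩]
  · rw [if_neg h1]
    split_ifs with h2
    · exact (sg_pos ((hp.le x h2.1).trans hc)).le
    · exact le_rfl

end Vale.Agent.P262.H654
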