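import Vale.Agent.P262.H713.CF1
import Vale.Agent.P262.H654.One

/-!
# P262, milestone 2: the cut-off field on trees of labels (part 2): hidden mass and jumps

`Cp k W c Z t`: below every non killed label of the parent level `(W, c, Z)` the caps and the
probability of the killed labels of the next level are at most `k * c` in the mean (and so on below).
* `close_le`: `E |pay - fl| ≤ 4 k c`, `hid_le`: `E hid ≤ 2 k c`, `killed_le`: `E (1 - al) ≤ 2 k c`
  at every non killed label of the parent level;
* `hid_le_alive`: `E hid ≤ 3 c0 E (al (1 - pay))` at every label (no factor of the depth);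
* `close_le_ex`: `E |pay - fl| ≤ E ex`, `ex` charges the first killed or truncated label only.
-/

set_option linter.all false

open MeasureTheory ProbabilityTheory Set
open scoped ENNReal RealInnerProductSpace Classical

namespace Vale.Agent.P262.CF2

open Vale.Agent.P262.H395 (mix)
open Vale.Agent.P262.H847 (UI)
open Vale.Agent.P262.H713 Vale.Agent.P262.H713.FT
open Vale.Agent.P262.H654 (tr phi sg Bd InvR fr sg_pos one_le_sg sg_mono tr_zero tr_nonneg tr_le
  tr_self phi_self sub_tr_le tr_mono tr_slope phi_zero phi_mul phi_nonneg phi_le_one phi_mono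
  measurable_phi measurable_tr invR_fr fr_mono fr_const fr_add fr_sub fr_const_mul fr_nonneg fr_mul
  fr_self abs_fr_le fr_tower ofReal_fr)

variable {E : Type*} [NormedAddCommGroup E] [InnerProductSpace ℝ E] [FiniteDimensional ℝ E]
  [MeasurableSpace E] [BorelSpace E] {ι : Type*}

/-- smallness of the caps and of the killed labels below the parent level `(W, c, Z)` -/
def Cp (k : ℝ) : Submodule ℝ E → (E → ℝ) → Set E → FT E ι → Prop
  | _, _, _, leaf _ => True
  | W, c, Z, node W' c' Z' _ T' =>
      (∀ x, x ∉ Z → fr W (fun y => if y ∈ Z' then 0 else c' y) x ≤ k * c x) ∧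
      (∀ x, x ∉ Z → fr W (fun y => if y ∈ Z' then 1 else 0) x ≤ k * c x) ∧
      ∀ n, Cp k W' c' Z' (T' n)

/-- `Cp` at all nodes of the tree -/
def CpI (k : ℝ) : FT E ι → Prop
  | leaf _ => True
  | node W c Z _ T => ∀ n, Cp k W c Z (T n)

lemma Cp.cpI {k : ℝ} {W : Submodule ℝ E} {c : E → ℝ} {Z : Set E} {t : FT E ι}
    (h : Cp k W c Z t) : CpI k t := by
  cases t with
  | leaf i => trivial
  | node W' c' Z' cls' T' => exact h.2.2

variable {c0 k : ℝ} {W V : Submodule ℝ E} {c : E → ℝ} {Z : Set E} {cls : E → ℕ} {T : ℕ → FT E ι}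
  {t t' : FT E ι} {g g' : ι → E → ℝ} {x y : E}

lemma CpI.sub (h : CpI k (node W c Z cls T)) (n : ℕ) : CpI k (T n) := (h n).cpI

lemma Bd_capN (hp : NodeOK c0 W c Z cls) : Bd fun y => if y ∈ Z then 0 else c y := by
  refine ⟨Measurable.ite hp.measZ measurable_const hp.meas, |c0|, fun y => ?_⟩
  split_ifs with h
  · simp
  · rw [abs_of_nonneg (hp.nonneg y)]
    exact (hp.le y h).trans (le_abs_self _)

lemma Bd_indN (hp : NodeOK c0 W c Z cls) : Bd fun y => if y ∈ Z then (1:ℝ) else 0 := by
  refine ⟨Measurable.ite hp.measZ measurable_const measurable_const, 1, fun y => ?_⟩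
  split_ifs <;> simp

lemma pay_child_UI (hp : NodeOK c0 W c Z cls) (hk : ∀ k, Good c0 (T k)) (hg : ∀ i, UI (g i)) :
    UI fun y => pay (T (cls y)) g y := UI_sel (F := fun n => pay (T n) g) (fun n => pay_UI (hk n) hg) hp.mcls

/-- one node: the distance to the payoff -/
lemma fr_close_node (hp : NodeOK c0 W c Z cls) (hk : ∀ k, Good c0 (T k)) (hc : c0 ≤ 1 / 16)
    (hg : ∀ i, UI (g i)) (hy : y ∉ Z) :
    fr W (fun z => |pay (node W c Z cls T) g z - fl (node W c Z cls T) g z|) y
      ≤ fr W (fun z => |pay (T (cls y)) g z - fl (T (cls y)) g z|) y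
        + (val W cls T g y - tr (c y) (val W cls T g y)) := by
  have u := flc_UI hp hk hc hg
  have v := pay_child_UI hp hk hg
  set F := val W cls T g y with hF
  have hF0 : 0 ≤ F := (val_UI hp hk hc hg).nonneg y
  have hph : phi (c y) F ≤ 1 := phi_le_one (hp.nonneg y) ((hp.le y hy).trans hc) hF0
  have hph0 : 0 ≤ phi (c y) F := phi_nonneg (hp.nonneg y) ((hp.le y hy).trans hc) hF0
  have e1 : fr W (fun z => |pay (node W c Z cls T) g z - fl (node W c Z cls T) g z|) y
      = fr W (fun z => |pay (T (cls z)) g z - phi (c y) F * fl (T (cls z)) g z|) y := by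
    apply fr_congr
    intro z hz
    rw [fl_node, if_neg (fun h => hy ((mem_iff_of hp.invZ hz).1 h)), hp.inv.eq_of hz,
      (invR_val W cls T g).eq_of hz, pay_node]
  have bd : Bd fun z => |pay (T (cls z)) g z - fl (T (cls z)) g z| :=
    ((Bd.of_UI v).sub (Bd.of_UI u)).abs
  have e2 : fr W (fun z => |pay (T (cls z)) g z - phi (c y) F * fl (T (cls z)) g z|) y
      ≤ fr W (fun z => |pay (T (cls z)) g z - fl (T (cls z)) g z|
        + (1 - phi (c y) F) * fl (T (cls z)) g z) y := by
    refine fr_mono ((Bd.of_UI v).sub ((Bd.of_UI u).const_mul _)).abs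
      (bd.add ((Bd.of_UI u).const_mul _)) (fun z => ?_) y
    have h1 : pay (T (cls z)) g z - phi (c y) F * fl (T (cls z)) g z
        = (pay (T (cls z)) g z - fl (T (cls z)) g z) + (1 - phi (c y) F) * fl (T (cls z)) g z := by
      ring
    rw [h1]
    refine (abs_add_le _ _).trans ?_
    rw [abs_of_nonneg (mul_nonneg (by linarith) (u.nonneg z))]
  rw [e1]
  refine e2.trans ?_
  rw [fr_add bd ((Bd.of_UI u).const_mul _), fr_const_mul]
  have e3 : fr W (fun z => |pay (T (cls z)) g z - fl (T (cls z)) g z|) y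
      = fr W (fun z => |pay (T (cls y)) g z - fl (T (cls y)) g z|) y :=
    fr_sel hp.icls (fun n z => |pay (T n) g z - fl (T n) g z|) y
  rw [e3]
  have h1 := phi_mul (hp.nonneg y) hF0
  have h2 : fr W (fun y => fl (T (cls y)) g y) y = F := rfl
  rw [h2, ← h1]
  apply le_of_eq
  ring

lemma fr_ite_le (hp : NodeOK c0 W c Z cls) (hV : V ≤ W) {f : E → ℝ} (hf : Bd f) {a b : ℝ}
    (h1 : ∀ y, y ∈ Z → fr W f y ≤ a) (h2 : ∀ y, y ∉ Z → fr W f y ≤ b * c y) (x : E) :
    fr V f x ≤ a * fr V (fun y => if y ∈ Z then (1:ℝ) else 0) x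
      + b * fr V (fun y => if y ∈ Z then 0 else c y) x := by
  rw [← fr_tower hV hf, ← fr_const_mul, ← fr_const_mul,
    ← fr_add ((Bd_indN hp).const_mul _) ((Bd_capN hp).const_mul _)]
  refine fr_mono (hf.fr _) (((Bd_indN hp).const_mul _).add ((Bd_capN hp).const_mul _))
    (fun y => ?_) x
  by_cases hy : y ∈ Z
  · simp only [if_pos hy, mul_one, mul_zero, add_zero]; exact h1 y hy
  · simp only [if_neg hy, mul_zero, zero_add]; exact h2 y hy

/-- **closeness** at a non killed label of the parent level -/
theorem close_le (hk0 : 0 ≤ k) (hk : k ≤ 1 / 2) (hT : Good c0 t) (hc : c0 ≤ 1 / 16)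
    (hg : ∀ i, UI (g i)) (ha : Above W t) (hC : Cp k W c Z t) (hc1 : ∀ x, 0 ≤ c x) (hx : x ∉ Z) :
    fr W (fun y => |pay t g y - fl t g y|) x ≤ 4 * k * c x := by
  induction t generalizing W c Z x with
  | leaf i =>
    have e : (fun y => |pay (leaf i) g y - fl (leaf i) g y|) = fun _ => (0:ℝ) := by
      funext y; simp
    rw [e, fr_const]
    have := hc1 x
    positivity
  | node W' c' Z' cls' T' ih =>
    obtain ⟨hp, hab, hG⟩ := hT
    obtain ⟨h1, h2, h3⟩ := hC
    have u := fl_UI (t := node W' c' Z' cls' T') ⟨hp, hab, hG⟩ hc hg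
    have v := pay_UI (t := node W' c' Z' cls' T') ⟨hp, hab, hG⟩ hg
    have bd : Bd fun y => |pay (node W' c' Z' cls' T') g y - fl (node W' c' Z' cls' T') g y| :=
      ((Bd.of_UI v).sub (Bd.of_UI u)).abs
    have key := fr_ite_le (V := W) (a := 1) (b := 1 + 4 * k) hp ha bd ?_ ?_ x
    · have a1 := h1 x hx
      have a2 := h2 x hx
      have h4 := hc1 x
      have h5 : 0 ≤ k * c x := mul_nonneg hk0 h4
      have h6 : (1 + 4 * k) * fr W (fun y => if y ∈ Z' then 0 else c' y) x
          ≤ (1 + 4 * k) * (k * c x) := mul_le_mul_of_nonneg_left a1 (by linarith)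
      nlinarith
    · intro y hy
      have : fr W' (fun y => |pay (node W' c' Z' cls' T') g y - fl (node W' c' Z' cls' T') g y|) y
          ≤ fr W' (fun _ => (1:ℝ)) y := by
        refine fr_mono bd (Bd.const 1) (fun z => ?_) y
        have q1 := v.nonneg z
        have q2 := v.le_one z
        have q3 := u.nonneg z
        have q4 := u.le_one z
        rw [abs_le]
        constructor <;> linarith
      rwa [fr_const] at this
    · intro y hy
      refine (fr_close_node hp hG hc hg hy).trans ?_
      have h5 := ih (cls' y) (hG _) (hab _) (h3 _) hp.nonneg hy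
      have h6 := sub_tr_le (hp.nonneg y) ((hp.le y hy).trans hc) ((val_UI hp hG hc hg).nonneg y)
      linarith

/-- **hidden mass** at a non killed label of the parent level -/
theorem hid_le (hk0 : 0 ≤ k) (hk : k ≤ 1 / 2) (hT : Good c0 t) (hc : c0 ≤ 1 / 16)
    (hg : ∀ i, UI (g i)) (ha : Above W t) (hC : Cp k W c Z t) (hc1 : ∀ x, 0 ≤ c x) (hx : x ∉ Z) :
    fr W (hid t g) x ≤ 2 * k * c x := by
  induction t generalizing W c Z x with
  | leaf i =>
    have e : hid (leaf i) g = fun _ : E => (0:ℝ) := by funext y; simp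
    rw [e, fr_const]
    have := hc1 x
    positivity
  | node W' c' Z' cls' T' ih =>
    obtain ⟨hp, hab, hG⟩ := hT
    obtain ⟨h1, h2, h3⟩ := hC
    have u := hid_UI (t := node W' c' Z' cls' T') ⟨hp, hab, hG⟩ hc hg
    have key := fr_ite_le (V := W) (a := 0) (b := 1 + 2 * k) hp ha (Bd.of_UI u) ?_ ?_ x
    · have a1 := h1 x hx
      have h4 := hc1 x
      have h5 : 0 ≤ k * c x := mul_nonneg hk0 h4
      have h6 : (1 + 2 * k) * fr W (fun y => if y ∈ Z' then 0 else c' y) x
          ≤ (1 + 2 * k) * (k * c x) := mul_le_mul_of_nonneg_left a1 (by linarith)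
      nlinarith
    · intro y hy
      rw [fr_hid_node hp hG hc hg, if_pos hy]
    · intro y hy
      rw [fr_hid_node hp hG hc hg, if_neg hy]
      have e3 : fr W' (fun z => hid (T' (cls' z)) g z) y = fr W' (hid (T' (cls' y)) g) y :=
        fr_sel hp.icls (fun n => hid (T' n) g) y
      rw [e3]
      have h5 := ih (cls' y) (hG _) (hab _) (h3 _) hp.nonneg hy
      have h6 := sub_tr_le (hp.nonneg y) ((hp.le y hy).trans hc) ((val_UI hp hG hc hg).nonneg y)
      linarith

/-- **killed mass** below a non killed label of the parent level -/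
theorem killed_le (hk0 : 0 ≤ k) (hk : k ≤ 1 / 2) (hT : Good c0 t) (ha : Above W t)
    (hC : Cp k W c Z t) (hc1 : ∀ x, 0 ≤ c x) (hx : x ∉ Z) :
    fr W (fun y => 1 - al t y) x ≤ 2 * k * c x := by
  induction t generalizing W c Z x with
  | leaf i =>
    have e : (fun y => 1 - al (leaf i : FT E ι) y) = fun _ : E => (0:ℝ) := by funext y; simp
    rw [e, fr_const]
    have := hc1 x
    positivity
  | node W' c' Z' cls' T' ih =>
    obtain ⟨hp, hab, hG⟩ := hT
    obtain ⟨h1, h2, h3⟩ := hC
    have u := al_UI (t := node W' c' Z' cls' T') ⟨hp, hab, hG⟩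
    have bd : Bd fun y => 1 - al (node W' c' Z' cls' T') y := (Bd.const 1).sub (Bd.of_UI u)
    have key := fr_ite_le (V := W) (a := 1) (b := 2 * k) hp ha bd ?_ ?_ x
    · have a1 := h1 x hx
      have a2 := h2 x hx
      have h4 := hc1 x
      have h5 : 0 ≤ k * c x := mul_nonneg hk0 h4
      have h6 : (2 * k) * fr W (fun y => if y ∈ Z' then 0 else c' y) x
          ≤ (2 * k) * (k * c x) := mul_le_mul_of_nonneg_left a1 (by linarith)
      nlinarith
    · intro y hy
      have : fr W' (fun y => 1 - al (node W' c' Z' cls' T') y) y ≤ fr W' (fun _ => (1:ℝ)) y := by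
        refine fr_mono bd (Bd.const 1) (fun z => ?_) y
        have := u.nonneg z
        linarith
      rwa [fr_const] at this
    · intro y hy
      have e : fr W' (fun z => 1 - al (node W' c' Z' cls' T') z) y
          = fr W' (fun z => 1 - al (T' (cls' y)) z) y := by
        apply fr_congr
        intro z hz
        rw [al_node, if_neg (fun h => hy ((mem_iff_of hp.invZ hz).1 h)), hp.icls.eq_of hz]
      rw [e]
      exact ih (cls' y) (hG _) (hab _) (h3 _) hp.nonneg hy

/-- the alive mass at a label -/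
noncomputable def am (V : Submodule ℝ E) (t : FT E ι) (g : ι → E → ℝ) (x : E) : ℝ :=
  fr V (fun y => al t y * (1 - pay t g y)) x

lemma am_nonneg (hT : Good c0 t) (hg : ∀ i, UI (g i)) (x : E) : 0 ≤ am V t g x :=
  fr_nonneg (fun y => mul_nonneg ((al_UI hT).nonneg y) (by linarith [(pay_UI hT hg).le_one y])) x

lemma Bd_am (hT : Good c0 t) (hg : ∀ i, UI (g i)) : Bd fun y => al t y * (1 - pay t g y) :=
  (Bd.of_UI (al_UI hT)).mul ((Bd.const 1).sub (Bd.of_UI (pay_UI hT hg)))

/-- a label with small visible mass below is alive -/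
lemma am_ge (hk0 : 0 ≤ k) (hk : k ≤ 1 / 2) (hp : NodeOK c0 W c Z cls) (hab : ∀ k, Above W (T k))
    (hG : ∀ k, Good c0 (T k)) (hc : c0 ≤ 1 / 16) (hg : ∀ i, UI (g i))
    (hC : ∀ n, Cp k W c Z (T n)) (hy : y ∉ Z) (hF : val W cls T g y < 1 / 8) :
    3 / 4 ≤ am W (T (cls y)) g y := by
  have h1 := fr_sum (hG (cls y)) hc hg W y
  have h2 := hid_le hk0 hk (hG (cls y)) hc hg (hab _) (hC _) hp.nonneg hy
  have h3 : val W cls T g y = fr W (fl (T (cls y)) g) y := fr_sel hp.icls (fun n => fl (T n) g) y
  have h4 := hp.le y hy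
  have h5 := hp.nonneg y
  have h6 : 2 * k * c y ≤ 1 / 16 := by nlinarith
  unfold am
  rw [h3] at hF
  linarith

/-- **hidden mass against the alive mass**, no factor of the depth -/
theorem hid_le_alive (hk0 : 0 ≤ k) (hk : k ≤ 1 / 2) (hT : Good c0 t) (hc : c0 ≤ 1 / 16)
    (hc0 : 0 ≤ c0) (hg : ∀ i, UI (g i)) (ha : Above V t) (hC : CpI k t) (x : E) :
    fr V (hid t g) x ≤ 3 * c0 * am V t g x := by
  induction t generalizing V x with
  | leaf i =>
    have e : hid (leaf i) g = fun _ : E => (0:ℝ) := by funext y; simp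
    rw [e, fr_const]
    have := am_nonneg (V := V) (t := leaf i) (c0 := c0) trivial hg x
    positivity
  | node W c Z cls T ih =>
    have hTT := hT
    obtain ⟨hp, hab, hG⟩ := hT
    have bh := Bd.of_UI (hid_UI hTT hc hg)
    have ba := Bd_am hTT hg
    unfold am
    rw [← fr_tower ha bh, ← fr_tower ha ba, ← fr_const_mul]
    refine fr_mono (bh.fr _) ((ba.fr _).const_mul _) (fun y => ?_) x
    rw [fr_hid_node hp hG hc hg]
    split_ifs with hy
    · have := am_nonneg (V := W) hTT hg y
      unfold am at this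
      positivity
    · have e3 : fr W (fun z => hid (T (cls z)) g z) y = fr W (hid (T (cls y)) g) y :=
        fr_sel hp.icls (fun n => hid (T n) g) y
      have e4 : fr W (fun z => al (node W c Z cls T) z * (1 - pay (node W c Z cls T) g z)) y
          = am W (T (cls y)) g y := by
        unfold am
        apply fr_congr
        intro z hz
        rw [al_node, if_neg (fun h => hy ((mem_iff_of hp.invZ hz).1 h)), pay_node,
          hp.icls.eq_of hz]
      rw [e3, e4]
      have hF0 := (val_UI hp hG hc hg).nonneg y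
      have hcy := hp.le y hy
      have hc0' := hp.nonneg y
      rcases lt_or_ge (val W cls T g y) (1 / 8) with hF | hF
      · have h1 := am_ge hk0 hk hp hab hG hc hg hC hy hF
        have h2 := hid_le hk0 hk (hG (cls y)) hc hg (hab _) (hC _) hp.nonneg hy
        have h3 := sub_tr_le hc0' (hcy.trans hc) hF0
        have h4 : 2 * k * c y ≤ c y := by nlinarith
        nlinarith
      · rw [tr_self (hcy.trans hc) hF, sub_self, add_zero]
        exact ih (cls y) (hG _) (hab _) ((hC (cls y)).cpI) y

/-- the charge of the distance to the payoff: the first killed or truncated label -/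
noncomputable def ex : FT E ι → (ι → E → ℝ) → E → ℝ
  | leaf _, _ => fun _ => 0
  | node W c Z cls T, g => fun x => if x ∈ Z then 1 - pay (T (cls x)) g x else
      if val W cls T g x < 1 / 8 then 3 * c x * (1 - pay (T (cls x)) g x) else ex (T (cls x)) g x

lemma ex_node : ex (node W c Z cls T) g x = if x ∈ Z then 1 - pay (T (cls x)) g x else
      if val W cls T g x < 1 / 8 then 3 * c x * (1 - pay (T (cls x)) g x)
        else ex (T (cls x)) g x := rfl

lemma ex_UI (hT : Good c0 t) (hc : c0 ≤ 1 / 16) (hg : ∀ i, UI (g i)) : UI (ex t g) := by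
  induction t with
  | leaf i => exact ⟨measurable_const, fun _ => le_rfl, fun _ => zero_le_one⟩
  | node W c Z cls T ih =>
    obtain ⟨hp, hab, hk⟩ := hT
    have h1 : UI fun y => ex (T (cls y)) g y :=
      UI_sel (F := fun n => ex (T n) g) (fun n => ih n (hk n)) hp.mcls
    have h2 := pay_child_UI hp hk hg
    have h3 := (val_UI hp hk hc hg).meas
    refine ⟨?_, fun x => ?_, fun x => ?_⟩
    · exact Measurable.ite hp.measZ (measurable_const.sub h2.meas)
        (Measurable.ite (measurableSet_lt h3 measurable_const)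
          ((hp.meas.const_mul 3).mul (measurable_const.sub h2.meas)) h1.meas)
    · rw [ex_node]
      have q := h2.le_one x
      split_ifs with a b
      · linarith
      · exact mul_nonneg (by linarith [hp.nonneg x]) (by linarith)
      · exact h1.nonneg x
    · rw [ex_node]
      have q := h2.le_one x
      have q' := h2.nonneg x
      split_ifs with a b
      · linarith
      · have := (hp.le x a).trans hc
        have := hp.nonneg x
        nlinarith
      · exact h1.le_one x

/-- **closeness at every label**, charged at the first killed or truncated label -/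
theorem close_le_ex (hk0 : 0 ≤ k) (hk : k ≤ 1 / 8) (hT : Good c0 t) (hc : c0 ≤ 1 / 16)
    (hg : ∀ i, UI (g i)) (ha : Above V t) (hC : CpI k t) (x : E) :
    fr V (fun y => |pay t g y - fl t g y|) x ≤ fr V (ex t g) x := by
  induction t generalizing V x with
  | leaf i =>
    have e : (fun y => |pay (leaf i) g y - fl (leaf i) g y|) = fun _ => (0:ℝ) := by
      funext y; simp
    have e' : ex (leaf i) g = fun _ : E => (0:ℝ) := rfl
    rw [e, e']
  | node W c Z cls T ih =>
    have hTT := hT
    obtain ⟨hp, hab, hG⟩ := hT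
    have u := fl_UI hTT hc hg
    have v := pay_UI hTT hg
    have bd : Bd fun y => |pay (node W c Z cls T) g y - fl (node W c Z cls T) g y| :=
      ((Bd.of_UI v).sub (Bd.of_UI u)).abs
    have be := Bd.of_UI (ex_UI hTT hc hg)
    rw [← fr_tower ha bd, ← fr_tower ha be]
    refine fr_mono (bd.fr _) (be.fr _) (fun y => ?_) x
    have bp : Bd fun z => 1 - pay (T (cls y)) g z :=
      (Bd.const 1).sub (Bd.of_UI (pay_UI (hG _) hg))
    by_cases hy : y ∈ Z
    · apply le_of_eq
      apply fr_congr
      intro z hz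
      have hz' := (mem_iff_of hp.invZ hz).2 hy
      rw [fl_node, if_pos hz', ex_node, if_pos hz', pay_node, abs_of_nonpos]
      · ring
      · linarith [(pay_UI (hG (cls z)) hg).le_one z]
    · refine (fr_close_node hp hG hc hg hy).trans ?_
      have hcy := hp.le y hy
      have hc0' := hp.nonneg y
      have hF0 := (val_UI hp hG hc hg).nonneg y
      have h3 : val W cls T g y = fr W (fl (T (cls y)) g) y :=
        fr_sel hp.icls (fun n => fl (T n) g) y
      rcases lt_or_ge (val W cls T g y) (1 / 8) with hF | hF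
      · have e : fr W (ex (node W c Z cls T) g) y = 3 * c y * fr W (fun z => 1 - pay (T (cls y)) g z) y := by
          rw [← fr_const_mul]
          apply fr_congr
          intro z hz
          rw [ex_node, if_neg (fun h => hy ((mem_iff_of hp.invZ hz).1 h)),
            (invR_val W cls T g).eq_of hz, if_pos hF, hp.icls.eq_of hz, hp.inv.eq_of hz]
        rw [e]
        have h4 := close_le hk0 (by linarith) (hG (cls y)) hc hg (hab _) (hC _) hp.nonneg hy
        have h5 := sub_tr_le hc0' (hcy.trans hc) hF0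
        -- mass of the payoff
        have h6 : 3 / 4 ≤ fr W (fun z => 1 - pay (T (cls y)) g z) y := by
          have a1 : fr W (fun z => 1 - pay (T (cls y)) g z) y
              = 1 - fr W (pay (T (cls y)) g) y := by
            rw [fr_sub (Bd.const 1) (Bd.of_UI (pay_UI (hG _) hg)), fr_const]
          have a2 : fr W (pay (T (cls y)) g) y ≤ fr W (fl (T (cls y)) g) y
              + fr W (fun z => |pay (T (cls y)) g z - fl (T (cls y)) g z|) y := by
            rw [← fr_add (Bd.of_UI (fl_UI (hG _) hc hg))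
              ((Bd.of_UI (pay_UI (hG _) hg)).sub (Bd.of_UI (fl_UI (hG _) hc hg))).abs]
            refine fr_mono (Bd.of_UI (pay_UI (hG _) hg)) ((Bd.of_UI (fl_UI (hG _) hc hg)).add
              ((Bd.of_UI (pay_UI (hG _) hg)).sub (Bd.of_UI (fl_UI (hG _) hc hg))).abs)
              (fun z => ?_) y
            linarith [le_abs_self (pay (T (cls y)) g z - fl (T (cls y)) g z)]
          rw [h3] at hF
          have a3 : 4 * k * c y ≤ 1 / 16 := by nlinarith
          rw [a1]
          linarith
        have h7 : 4 * k * c y ≤ 1 / 2 * c y := by nlinarith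
        nlinarith
      · rw [tr_self (hcy.trans hc) hF, sub_self, add_zero]
        have e : fr W (ex (node W c Z cls T) g) y = fr W (ex (T (cls y)) g) y := by
          apply fr_congr
          intro z hz
          rw [ex_node, if_neg (fun h => hy ((mem_iff_of hp.invZ hz).1 h)),
            (invR_val W cls T g).eq_of hz, if_neg (not_lt.mpr hF), hp.icls.eq_of hz]
        rw [e]
        exact ih (cls y) (hG _) (hab _) ((hC (cls y)).cpI) y

/-- the field is at most the payoff plus the killed points -/
lemma fl_le_add_killed (hT : Good c0 t) (hc : c0 ≤ 1 / 16) (hg : ∀ i, UI (g i)) (x : E) :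
    fl t g x ≤ pay t g x + (1 - al t x) := by
  have h1 := hid_nonneg hT hc hg x
  have h2 := fl_add_hid t g x
  have h3 := (al_UI hT).le_one x
  have h4 := (al_UI hT).nonneg x
  have h5 := (pay_UI hT hg).nonneg x
  have h6 := (pay_UI hT hg).le_one x
  nlinarith

/-- **the jump** when the tree below a label is replaced, same payoff -/
theorem jump_le_ex (hk0 : 0 ≤ k) (hk : k ≤ 1 / 8) (hT : Good c0 t) (hT' : Good c0 t')
    (hc : c0 ≤ 1 / 16) (hg : ∀ i, UI (g i)) (hg' : ∀ i, UI (g' i)) (ha : Above V t)
    (ha' : Above V t') (hC : CpI k t) (hC' : CpI k t') (hpay : ∀ y, pay t' g' y = pay t g y)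
    (x : E) : fr V (fun y => |fl t' g' y - fl t g y|) x ≤ fr V (ex t g) x + fr V (ex t' g') x := by
  have u := Bd.of_UI (fl_UI hT hc hg)
  have u' := Bd.of_UI (fl_UI hT' hc hg')
  have v := Bd.of_UI (pay_UI hT hg)
  have v' := Bd.of_UI (pay_UI hT' hg')
  have h1 := close_le_ex hk0 hk hT hc hg ha hC x
  have h2 := close_le_ex hk0 hk hT' hc hg' ha' hC' x
  have h3 : fr V (fun y => |fl t' g' y - fl t g y|) x
      ≤ fr V (fun y => |pay t g y - fl t g y| + |pay t' g' y - fl t' g' y|) x := by
    refine fr_mono (u'.sub u).abs ((v.sub u).abs.add (v'.sub u').abs) (fun y => ?_) x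
    rw [hpay]
    have e : fl t' g' y - fl t g y = (pay t g y - fl t g y) - (pay t g y - fl t' g' y) := by ring
    rw [e]
    exact abs_sub _ _
  rw [fr_add (v.sub u).abs (v'.sub u').abs] at h3
  linarith

/-- **the jump** at a non killed label of the parent level -/
theorem jump_le (hk0 : 0 ≤ k) (hk : k ≤ 1 / 2) (hT : Good c0 t) (hT' : Good c0 t')
    (hc : c0 ≤ 1 / 16) (hg : ∀ i, UI (g i)) (hg' : ∀ i, UI (g' i)) (ha : Above W t)
    (ha' : Above W t') (hC : Cp k W c Z t) (hC' : Cp k W c Z t') (hc1 : ∀ x, 0 ≤ c x)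
    (hpay : ∀ y, pay t' g' y = pay t g y) (hx : x ∉ Z) :
    fr W (fun y => |fl t' g' y - fl t g y|) x ≤ 8 * k * c x := by
  have u := Bd.of_UI (fl_UI hT hc hg)
  have u' := Bd.of_UI (fl_UI hT' hc hg')
  have v := Bd.of_UI (pay_UI hT hg)
  have v' := Bd.of_UI (pay_UI hT' hg')
  have h1 := close_le hk0 hk hT hc hg ha hC hc1 hx
  have h2 := close_le hk0 hk hT' hc hg' ha' hC' hc1 hx
  have h3 : fr W (fun y => |fl t' g' y - fl t g y|) x
      ≤ fr W (fun y => |pay t g y - fl t g y| + |pay t' g' y - fl t' g' y|) x := by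
    refine fr_mono (u'.sub u).abs ((v.sub u).abs.add (v'.sub u').abs) (fun y => ?_) x
    rw [hpay]
    have e : fl t' g' y - fl t g y = (pay t g y - fl t g y) - (pay t g y - fl t' g' y) := by ring
    rw [e]
    exact abs_sub _ _
  rw [fr_add (v.sub u).abs (v'.sub u').abs] at h3
  linarith

end Vale.Agent.P262.CF2
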