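import Vale.Agent.P262.H713.CF1c
import Vale.Agent.P262.H654.CF2

/-!
# P262, milestone 2: hidden mass and jumps for the field tree of a state (path arrays)

`CapF Q c Z k`: caps and kill probabilities of every child are at most `k * c` in the mean at every
non killed non leaf label.  `close_first`: the distance to the payoff with a separate (smaller)
constant `κ` for the first level.
-/

set_option linter.all false

open MeasureTheory ProbabilityTheory Set
open scoped ENNReal RealInnerProductSpace Classical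

namespace Vale.Agent.P262.CF2

open Vale.Agent.P262.H395 (mix Fixes)
open Vale.Agent.P262.H847 (UI)
open Vale.Agent.P262.H713 Vale.Agent.P262.H713.FT
open Vale.Agent.P262.H654 (tr phi sg Bd InvR fr sg_pos one_le_sg sg_mono tr_zero tr_nonneg tr_le
  tr_self phi_self sub_tr_le tr_mono tr_slope phi_zero phi_mul phi_nonneg phi_le_one phi_mono
  measurable_phi measurable_tr invR_fr fr_mono fr_const fr_add fr_sub fr_const_mul fr_nonneg fr_mul
  fr_self abs_fr_le fr_tower ofReal_fr)

variable {E : Type*} [NormedAddCommGroup E] [InnerProductSpace ℝ E] [FiniteDimensional ℝ E]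
  [MeasurableSpace E] [BorelSpace E] {ι : Type*}

variable {c0 k κ κ' : ℝ} {W V : Submodule ℝ E} {c : E → ℝ} {Z : Set E} {cls : E → ℕ}
  {T : ℕ → FT E ι} {t t' : FT E ι} {g g' : ι → E → ℝ} {x y : E} {R : E ≃ₗᵢ[ℝ] E}

/-- first level bounds with the constant `κ` -/
def Cf (κ : ℝ) (W : Submodule ℝ E) (c : E → ℝ) (x : E) : FT E ι → Prop
  | leaf _ => True
  | node _ c' Z' _ _ => fr W (fun y => if y ∈ Z' then 0 else c' y) x ≤ κ * c x ∧
      fr W (fun y => if y ∈ Z' then 1 else 0) x ≤ κ * c x

lemma Cp.cf (h : Cp k W c Z t) (hx : x ∉ Z) : Cf k W c x t := by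
  cases t with
  | leaf i => trivial
  | node W' c' Z' cls' T' => exact ⟨h.1 x hx, h.2.1 x hx⟩

/-- closeness with the constant of the first level -/
theorem close_first (hκ : 0 ≤ κ) (hk0 : 0 ≤ k) (hk : k ≤ 1 / 2) (hT : Good c0 t) (hc : c0 ≤ 1 / 16)
    (hg : ∀ i, UI (g i)) (ha : Above W t) (hC : CpI k t) (hf : Cf κ W c x t) (hcx : 0 ≤ c x) :
    fr W (fun y => |pay t g y - fl t g y|) x ≤ 4 * κ * c x := by
  cases t with
  | leaf i =>
    have e : (fun y => |pay (leaf i) g y - fl (leaf i) g y|) = fun _ => (0:ℝ) := by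
      funext y; simp
    rw [e, fr_const]
    positivity
  | node W' c' Z' cls' T' =>
    have hTT := hT
    obtain ⟨hp, hab, hG⟩ := hT
    obtain ⟨h1, h2⟩ := hf
    have u := fl_UI hTT hc hg
    have v := pay_UI hTT hg
    have bd : Bd fun y => |pay (node W' c' Z' cls' T') g y - fl (node W' c' Z' cls' T') g y| :=
      ((Bd.of_UI v).sub (Bd.of_UI u)).abs
    have key := fr_ite_le (V := W) (a := 1) (b := 1 + 4 * k) hp ha bd ?_ ?_ x
    · have h5 : 0 ≤ κ * c x := mul_nonneg hκ hcx
      have h6 : (1 + 4 * k) * fr W (fun y => if y ∈ Z' then 0 else c' y) x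
          ≤ (1 + 4 * k) * (κ * c x) := mul_le_mul_of_nonneg_left h1 (by linarith)
      nlinarith
    · intro y hy
      have : fr W' (fun y => |pay (node W' c' Z' cls' T') g y - fl (node W' c' Z' cls' T') g y|) y
          ≤ fr W' (fun _ => (1:ℝ)) y := by
        refine fr_mono bd (Bd.const 1) (fun z => ?_) y
        have q1 := v.nonneg z
        have q2 := v.le_one z
        have q3 := u.nonneg z
        have q4 := u.le_one z
        rw [abs_le]
        constructor <;> linarith
      rwa [fr_const] at this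
    · intro y hy
      refine (fr_close_node hp hG hc hg hy).trans ?_
      have h5 := close_le hk0 hk (hG (cls' y)) hc hg (hab _) (hC _) hp.nonneg hy
      have h6 := sub_tr_le (hp.nonneg y) ((hp.le y hy).trans hc) ((val_UI hp hG hc hg).nonneg y)
      linarith

/-- hidden mass with the constant of the first level -/
theorem hid_first (hκ : 0 ≤ κ) (hk0 : 0 ≤ k) (hk : k ≤ 1 / 2) (hT : Good c0 t) (hc : c0 ≤ 1 / 16)
    (hg : ∀ i, UI (g i)) (ha : Above W t) (hC : CpI k t) (hf : Cf κ W c x t) (hcx : 0 ≤ c x) :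
    fr W (hid t g) x ≤ 2 * κ * c x := by
  cases t with
  | leaf i =>
    have e : hid (leaf i) g = fun _ : E => (0:ℝ) := by funext y; simp
    rw [e, fr_const]
    positivity
  | node W' c' Z' cls' T' =>
    have hTT := hT
    obtain ⟨hp, hab, hG⟩ := hT
    obtain ⟨h1, h2⟩ := hf
    have u := hid_UI hTT hc hg
    have key := fr_ite_le (V := W) (a := 0) (b := 1 + 2 * k) hp ha (Bd.of_UI u) ?_ ?_ x
    · have h5 : 0 ≤ κ * c x := mul_nonneg hκ hcx
      have h6 : (1 + 2 * k) * fr W (fun y => if y ∈ Z' then 0 else c' y) x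
          ≤ (1 + 2 * k) * (κ * c x) := mul_le_mul_of_nonneg_left h1 (by linarith)
      nlinarith
    · intro y hy
      rw [fr_hid_node hp hG hc hg, if_pos hy]
    · intro y hy
      rw [fr_hid_node hp hG hc hg, if_neg hy]
      have e3 : fr W' (fun z => hid (T' (cls' z)) g z) y = fr W' (hid (T' (cls' y)) g) y :=
        fr_sel hp.icls (fun n => hid (T' n) g) y
      rw [e3]
      have h5 := hid_le hk0 hk (hG (cls' y)) hc hg (hab _) (hC _) hp.nonneg hy
      have h6 := sub_tr_le (hp.nonneg y) ((hp.le y hy).trans hc) ((val_UI hp hG hc hg).nonneg y)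
      linarith

/-- killed mass with the constant of the first level -/
theorem killed_first (hκ : 0 ≤ κ) (hk0 : 0 ≤ k) (hk : k ≤ 1 / 2) (hT : Good c0 t)
    (ha : Above W t) (hC : CpI k t) (hf : Cf κ W c x t) (hcx : 0 ≤ c x) :
    fr W (fun y => 1 - al t y) x ≤ 2 * κ * c x := by
  cases t with
  | leaf i =>
    have e : (fun y => 1 - al (leaf i : FT E ι) y) = fun _ : E => (0:ℝ) := by funext y; simp
    rw [e, fr_const]
    positivity
  | node W' c' Z' cls' T' =>
    have hTT := hT
    obtain ⟨hp, hab, hG⟩ := hT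
    obtain ⟨h1, h2⟩ := hf
    have u := al_UI hTT
    have bd : Bd fun y => 1 - al (node W' c' Z' cls' T') y := (Bd.const 1).sub (Bd.of_UI u)
    have key := fr_ite_le (V := W) (a := 1) (b := 2 * k) hp ha bd ?_ ?_ x
    · have h5 : 0 ≤ κ * c x := mul_nonneg hκ hcx
      have h6 : (2 * k) * fr W (fun y => if y ∈ Z' then 0 else c' y) x
          ≤ (2 * k) * (κ * c x) := mul_le_mul_of_nonneg_left h1 (by linarith)
      nlinarith
    · intro y hy
      have : fr W' (fun y => 1 - al (node W' c' Z' cls' T') y) y ≤ fr W' (fun _ => (1:ℝ)) y := by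
        refine fr_mono bd (Bd.const 1) (fun z => ?_) y
        have := u.nonneg z
        linarith
      rwa [fr_const] at this
    · intro y hy
      have e : fr W' (fun z => 1 - al (node W' c' Z' cls' T') z) y
          = fr W' (fun z => 1 - al (T' (cls' y)) z) y := by
        apply fr_congr
        intro z hz
        rw [al_node, if_neg (fun h => hy ((mem_iff_of hp.invZ hz).1 h)), hp.icls.eq_of hz]
      rw [e]
      exact killed_le hk0 hk (hG (cls' y)) (hab _) (hC _) hp.nonneg hy

/-- **the jump** at a label where the tree below is replaced, with first level constants -/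
theorem jump_first (hκ : 0 ≤ κ) (hκ' : 0 ≤ κ') (hk0 : 0 ≤ k) (hk : k ≤ 1 / 2) (hT : Good c0 t)
    (hT' : Good c0 t') (hc : c0 ≤ 1 / 16) (hg : ∀ i, UI (g i)) (hg' : ∀ i, UI (g' i))
    (ha : Above W t) (ha' : Above W t') (hC : CpI k t) (hC' : CpI k t') (hf : Cf κ W c x t)
    (hf' : Cf κ' W c x t') (hcx : 0 ≤ c x) (hpay : ∀ y, pay t' g' y = pay t g y) :
    fr W (fun y => |fl t' g' y - fl t g y|) x ≤ 4 * (κ + κ') * c x := by
  have u := Bd.of_UI (fl_UI hT hc hg)
  have u' := Bd.of_UI (fl_UI hT' hc hg')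
  have v := Bd.of_UI (pay_UI hT hg)
  have v' := Bd.of_UI (pay_UI hT' hg')
  have h1 := close_first hκ hk0 hk hT hc hg ha hC hf hcx
  have h2 := close_first hκ' hk0 hk hT' hc hg' ha' hC' hf' hcx
  have h3 : fr W (fun y => |fl t' g' y - fl t g y|) x
      ≤ fr W (fun y => |pay t g y - fl t g y| + |pay t' g' y - fl t' g' y|) x := by
    refine fr_mono (u'.sub u).abs ((v.sub u).abs.add (v'.sub u').abs) (fun y => ?_) x
    rw [hpay]
    have e : fl t' g' y - fl t g y = (pay t g y - fl t g y) - (pay t g y - fl t' g' y) := by ring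
    rw [e]
    exact abs_sub _ _
  rw [fr_add (v.sub u).abs (v'.sub u').abs] at h3
  linarith

/-! ### isometries -/

lemma fr_im_comp (R : E ≃ₗᵢ[ℝ] E) (W : Submodule ℝ E) (f : E → ℝ) (x : E) :
    fr (im R W) (fun y => f (R.symm y)) x = fr W f (R.symm x) := by
  rw [fr_im_symm]
  congr 1
  funext y
  rw [LinearIsometryEquiv.symm_apply_apply]

lemma cp_mp (R : E ≃ₗᵢ[ℝ] E) (h : Cp k W c Z t) :
    Cp k (im R W) (fun x => c (R.symm x)) (R.symm ⁻¹' Z) (mp R t) := by
  induction t generalizing W c Z with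
  | leaf i => trivial
  | node W' c' Z' cls' T' ih =>
    obtain ⟨h1, h2, h3⟩ := h
    refine ⟨fun x hx => ?_, fun x hx => ?_, fun n => ih n (h3 n)⟩
    · have := h1 (R.symm x) hx
      rw [← fr_im_comp R W (fun y => if y ∈ Z' then 0 else c' y) x] at this
      exact this
    · have := h2 (R.symm x) hx
      rw [← fr_im_comp R W (fun y => if y ∈ Z' then (1:ℝ) else 0) x] at this
      exact this

lemma cpI_mp (R : E ≃ₗᵢ[ℝ] E) (h : CpI k t) : CpI k (mp R t) := by
  cases t with
  | leaf i => trivial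
  | node W' c' Z' cls' T' => exact fun n => cp_mp R (h n)

lemma fixes_symm {R : E ≃ₗᵢ[ℝ] E} {W : Submodule ℝ E} (h : Fixes R W) : Fixes R.symm W := by
  intro w hw
  have := h w hw
  conv_lhs => rw [← this]
  exact R.symm_apply_apply w

/-! ### the tree of a state -/

/-- smallness of the caps and of the killed labels of the children, node coordinates -/
structure CapF (Q : Pa E) (c : List ℕ → E → ℝ) (Z : List ℕ → Set E) (k : ℝ) : Prop where
  cap : ∀ p n, ¬ Q.lf p → ∀ x, x ∉ Z p →
    fr (Q.W p) (fun y => if y ∈ Z (n :: p) then 0 else c (n :: p) y) x ≤ k * c p x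
  kil : ∀ p n, ¬ Q.lf p → ∀ x, x ∉ Z p →
    fr (Q.W p) (fun y => if y ∈ Z (n :: p) then 1 else 0) x ≤ k * c p x

variable {Q : Pa E} {cc : List ℕ → E → ℝ} {ZZ : List ℕ → Set E} {cl : List ℕ → E → ℕ}

lemma fr_fix_symm {R : E ≃ₗᵢ[ℝ] E} {W : Submodule ℝ E} (h : Fixes R W) (f : E → ℝ) (x : E) :
    fr W (fun y => f (R.symm y)) x = fr W f x := fr_fix (fixes_symm h) f x

/-- first level of the child tree in the coordinates of the parent -/
lemma cf_ch (hQ : Q.Ok) {p : List ℕ} {m : ℕ} {x : E}
    (h1 : ¬ Q.lf p → fr (Q.W p) (fun y => if y ∈ ZZ (m :: p) then 0 else cc (m :: p) y) x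
      ≤ κ * cc p x)
    (h2 : ¬ Q.lf p → fr (Q.W p) (fun y => if y ∈ ZZ (m :: p) then 1 else 0) x ≤ κ * cc p x)
    (n : ℕ) : Cf κ (Q.W p) (cc p) x (ch Q cc ZZ cl n p m) := by
  unfold ch
  split_ifs with hl
  · trivial
  · cases n with
    | zero => trivial
    | succ n =>
      refine ⟨?_, ?_⟩
      · have := h1 hl
        rw [← fr_fix_symm (hQ.fix m p) (fun y => if y ∈ ZZ (m :: p) then 0 else cc (m :: p) y) x]
          at this
        exact this
      · have := h2 hl
        rw [← fr_fix_symm (hQ.fix m p) (fun y => if y ∈ ZZ (m :: p) then (1:ℝ) else 0) x] at this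
        exact this

lemma cp_ch (hQ : Q.Ok) (hC : CapF Q cc ZZ k) (n : ℕ) : ∀ (p : List ℕ) (m : ℕ),
    Cp k (Q.W p) (cc p) (ZZ p) (ch Q cc ZZ cl n p m) := by
  induction n with
  | zero =>
    intro p m
    unfold ch
    split_ifs
    · trivial
    · trivial
  | succ n ih =>
    intro p m
    by_cases hl : Q.lf p
    · unfold ch; rw [if_pos hl]; trivial
    · have hcf := fun x (hx : x ∉ ZZ p) => cf_ch (cl := cl) (κ := k) hQ (p := p) (m := m) (x := x)
        (fun _ => hC.cap p m hl x hx) (fun _ => hC.kil p m hl x hx) (n + 1)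
      have e : ch Q cc ZZ cl (n + 1) p m = FT.mp (Q.P (m :: p)) (sft Q cc ZZ cl (n + 1) (m :: p)) := by
        unfold ch; rw [if_neg hl]
      rw [e] at hcf ⊢
      refine ⟨fun x hx => (hcf x hx).1, fun x hx => (hcf x hx).2, fun j => ?_⟩
      exact cp_mp (Q.P (m :: p)) (ih (m :: p) j)

lemma cpI_sft (hQ : Q.Ok) (hC : CapF Q cc ZZ k) (n : ℕ) (p : List ℕ) :
    CpI k (sft Q cc ZZ cl n p) := by
  cases n with
  | zero => trivial
  | succ n => exact fun j => cp_ch hQ hC n p j

lemma cpI_ch (hQ : Q.Ok) (hC : CapF Q cc ZZ k) (n : ℕ) (p : List ℕ) (m : ℕ) :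
    CpI k (ch Q cc ZZ cl n p m) := (cp_ch hQ hC n p m).cpI

end Vale.Agent.P262.CF2
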