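import Vale.Agent.P262.M2.Nodes
import Vale.Agent.P262.M2.Fld
import Vale.Agent.P262.H654.CF2s

/-!
# P262, milestone 2: caps and killed labels of the children on `M2.Sys`, closeness of the field

`kp k = 2 * kap ^ k / ((M + 1) * b0)`: relative size of the caps and of the kill probability of a
child of own dimension `k` (`kdm q m`).  `capF`: the hypothesis `CF2.CapF` of the hidden mass
estimates.  `Cv p m x`: mean distance of the field below `p` to the payoff.
-/

set_option linter.all false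

open MeasureTheory ProbabilityTheory Set
open scoped ENNReal RealInnerProductSpace Classical

namespace Vale.Agent.P262.M2.Sys

open Vale.Agent.P262.H118 (K2)
open Vale.Agent.P262.H395 (fib mix Inv measurable_fib fib_mono)
open Vale.Agent.P262.H44 (InvS)
open Vale.Agent.P262.H847 (UI)
open Vale.Agent.P262.H654 (fr Bd ofReal_fr)

variable {E : Type*} [NormedAddCommGroup E] [InnerProductSpace ℝ E] [FiniteDimensional ℝ E]
  [MeasurableSpace E] [BorelSpace E] (S : Sys E)

/-- own dimension of the node `q` -/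
noncomputable def kdm (q : List ℕ) (m : ℕ) : ℕ := S.K.kd q (S.mv.tm m)

lemma kdm_cons (c : ℕ) (p : List ℕ) (m : ℕ) : S.kdm (c :: p) m
    = Module.finrank ℝ (S.W (c :: p) m) - Module.finrank ℝ (S.W p m) := rfl

/-- relative size of the caps and of the killed mass of a child of own dimension `k` -/
noncomputable def kp (k : ℕ) : ℝ := 2 * S.kap ^ k / S.cc

/-- mean distance of the field below `p` to the payoff -/
noncomputable def Cv (p : List ℕ) (m : ℕ) (x : E) : ℝ≥0∞ :=
  fib (S.W p m) (fun y => ENNReal.ofReal |S.pf p m y - S.fld p m y|) x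

variable {S}

lemma one_le_kdm {p : List ℕ} {m : ℕ} (c : ℕ) (hm : S.mv.tm m < S.T) (h : ¬ S.Leaf p m) :
    1 ≤ S.kdm (c :: p) m := S.K.one_le_kd hm (by unfold Leaf at h; unfold W at h; omega)

lemma cc_pos : 0 < S.cc := by
  have h1 := S.b0_pos_f
  have h2 := S.hM
  unfold cc
  positivity

lemma kp_nonneg (k : ℕ) : 0 ≤ S.kp k := by
  unfold kp
  have h1 := S.hkap
  have h2 := cc_pos (S := S)
  positivity

lemma two_kap_le_kp (k : ℕ) : 2 * S.kap ^ k ≤ S.kp k := by
  unfold kp
  have h1 := S.hkap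
  have h2 := cc_pos (S := S)
  have h4 := S.cc_le
  rw [le_div_iff₀ h2]
  have : (0:ℝ) ≤ 2 * S.kap ^ k := by positivity
  nlinarith

lemma kp_anti {k l : ℕ} (h : k ≤ l) : S.kp l ≤ S.kp k := by
  unfold kp
  have h1 := S.hkap
  have h2 := cc_pos (S := S)
  have h4 := pow_le_pow_of_le_one h1.le S.hkap1 h
  gcongr

section small

variable (hε : 2 * (Real.sqrt 2 * Real.exp (-(S.qq / 4))) ≤ 1 / 2)
include hε

/-- mean cap of a child -/
theorem fib_As_child_le {p : List ℕ} {m : ℕ} (c : ℕ) (hm : S.mv.tm m < S.T) (h : ¬ S.Leaf p m)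
    {s : ℝ} (hs : 0 ≤ s) (hs2 : s ≤ 2) (x : E) :
    fib (S.W p m) (S.As s (c :: p) m) x ≤
      ENNReal.ofReal (2 * (S.kap ^ S.kdm (c :: p) m) ^ s) * S.As s p m x := by
  have h1 := fib_As_child (S := S) (ε := 1 / 2) hε (by norm_num) hs hs2 hm h c x
  rw [show ((1:ℝ) - 1 / 2)⁻¹ = 2 by norm_num] at h1
  exact h1

/-- probability that a child is killed at its own level -/
theorem fib_kill_child_le {p : List ℕ} {m : ℕ} (c : ℕ) (hm : S.mv.tm m < S.T) (h : ¬ S.Leaf p m)
    (x : E) :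
    fib (S.W p m) ({y | ENNReal.ofReal S.b0 < S.A (c :: p) m y}.indicator 1) x ≤
      ENNReal.ofReal (2 * S.kap ^ S.kdm (c :: p) m) * S.A p m x / ENNReal.ofReal S.b0 := by
  have hb : 0 < S.b0 := S.b0_pos_f
  have h1 := H962.fib_killed_le (E := E) (q := S.qq) (A0 := S.A0) (kap := S.kap)
    (l := S.chn p m) (l' := [S.W (c :: p) m]) (W := S.W p m) (W' := S.W (c :: p) m)
    (ε := 1 / 2) hε (by norm_num) (fun V hV => S.le_of_mem_chn hV) (S.W_mem_chn p m)
    (by simp) (by intro V hV; rw [List.mem_singleton.1 hV]; exact W_lt hm h c)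
    (S.W_le c p m) S.hA0 S.hkap S.hqq.le (b0 := ENNReal.ofReal S.b0)
    (by rw [Ne, ENNReal.ofReal_eq_zero, not_le]; exact hb) ENNReal.ofReal_ne_top x
  rw [show ((1:ℝ) - 1 / 2)⁻¹ = 2 by norm_num] at h1
  exact h1

/-- **caps of the children**, real form -/
theorem fr_cap_child {p : List ℕ} {m : ℕ} (c : ℕ) (hm : S.mv.tm m < S.T) (h : ¬ S.Leaf p m)
    {x : E} (hx : x ∉ S.Z p m) :
    fr (S.W p m) (fun y => if y ∈ S.Z (c :: p) m then 0 else S.cf m (c :: p) y) x
      ≤ S.kp (S.kdm (c :: p) m) * S.cf m p x := by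
  have bd : Bd fun y => if y ∈ S.Z (c :: p) m then (0:ℝ) else S.cf m (c :: p) y := by
    refine ⟨Measurable.ite (S.measurableSet_Z _ _) measurable_const
      ((S.A_meas (c :: p) m).ennreal_toReal.const_mul _), 1 / 32, fun y => ?_⟩
    split_ifs with hy
    · norm_num
    · rw [abs_of_nonneg (S.cf_nonneg m _ y)]; exact (S.cf_le hy).trans S.cc_le
  have h0 : ∀ y, 0 ≤ (if y ∈ S.Z (c :: p) m then (0:ℝ) else S.cf m (c :: p) y) := by
    intro y
    split_ifs
    · exact le_rfl
    · exact S.cf_nonneg m _ y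
  have h1 := ofReal_fr (W := S.W p m) bd h0 x
  have h2 : fib (S.W p m) (fun y => ENNReal.ofReal
      (if y ∈ S.Z (c :: p) m then (0:ℝ) else S.cf m (c :: p) y)) x
      ≤ ENNReal.ofReal (S.M + 1) * (ENNReal.ofReal (2 * S.kap ^ S.kdm (c :: p) m) * S.A p m x) := by
    refine le_trans (fib_mono (g := fun y => ENNReal.ofReal (S.M + 1) * S.As 1 (c :: p) m y)
      (fun y => ?_) x) ?_
    · split_ifs with hy
      · rw [ENNReal.ofReal_zero]; exact zero_le
      · exact (S.ofReal_cf m _ y).le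
    · rw [H395.fib_mul (H395.inv_const _ _) (S.As_meas 1 _ m)]
      have := fib_As_child_le hε c hm h (s := 1) zero_le_one one_le_two x
      rw [Real.rpow_one] at this
      exact mul_le_mul' le_rfl this
  have h3 : ENNReal.ofReal (fr (S.W p m)
      (fun y => if y ∈ S.Z (c :: p) m then 0 else S.cf m (c :: p) y) x)
      ≤ ENNReal.ofReal (2 * S.kap ^ S.kdm (c :: p) m * S.cf m p x) := by
    rw [h1]
    refine h2.trans (le_of_eq ?_)
    have hk : (0:ℝ) ≤ 2 * S.kap ^ S.kdm (c :: p) m := by have := S.hkap; positivity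
    rw [ENNReal.ofReal_mul hk, ofReal_cf]
    ring
  have h4 := (ENNReal.ofReal_le_ofReal_iff (by
    have := S.hkap
    have := S.cf_nonneg m p x
    positivity)).1 h3
  exact h4.trans (mul_le_mul_of_nonneg_right (two_kap_le_kp _) (S.cf_nonneg m p x))

/-- **killed children**, real form -/
theorem fr_kil_child {p : List ℕ} {m : ℕ} (c : ℕ) (hm : S.mv.tm m < S.T) (h : ¬ S.Leaf p m)
    {x : E} (hx : x ∉ S.Z p m) :
    fr (S.W p m) (fun y => if y ∈ S.Z (c :: p) m then 1 else 0) x
      ≤ S.kp (S.kdm (c :: p) m) * S.cf m p x := by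
  have bd : Bd fun y => if y ∈ S.Z (c :: p) m then (1:ℝ) else 0 := by
    refine ⟨Measurable.ite (S.measurableSet_Z _ _) measurable_const measurable_const, 1,
      fun y => ?_⟩
    split_ifs <;> norm_num
  have h0 : ∀ y, 0 ≤ (if y ∈ S.Z (c :: p) m then (1:ℝ) else 0) := by
    intro y
    split_ifs
    · exact zero_le_one
    · exact le_rfl
  have h1 := ofReal_fr (W := S.W p m) bd h0 x
  have hb := S.b0_pos_f
  have h2 : fib (S.W p m) (fun y => ENNReal.ofReal
      (if y ∈ S.Z (c :: p) m then (1:ℝ) else 0)) x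
      ≤ ENNReal.ofReal (2 * S.kap ^ S.kdm (c :: p) m) * S.A p m x / ENNReal.ofReal S.b0 := by
    refine le_trans (le_of_eq ?_) (fib_kill_child_le hε c hm h x)
    unfold fib
    refine lintegral_congr fun z => ?_
    have hz : mix (S.W p m) x z ∉ S.Z p m := fun h' => hx (((S.Z_inv p m).mix x z).1 h')
    show ENNReal.ofReal (if mix (S.W p m) x z ∈ S.Z (c :: p) m then (1:ℝ) else 0) = _
    by_cases hy : mix (S.W p m) x z ∈ S.Z (c :: p) m
    · rw [if_pos hy, ENNReal.ofReal_one]
      rw [S.Z_cons] at hy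
      rw [indicator_of_mem (hy.resolve_left hz), Pi.one_apply]
    · rw [if_neg hy, ENNReal.ofReal_zero]
      rw [S.Z_cons] at hy
      rw [indicator_of_notMem (fun h' => hy (Or.inr h'))]
  have h3 : ENNReal.ofReal (fr (S.W p m) (fun y => if y ∈ S.Z (c :: p) m then 1 else 0) x)
      ≤ ENNReal.ofReal (S.kp (S.kdm (c :: p) m) * S.cf m p x) := by
    rw [h1]
    refine h2.trans (le_of_eq ?_)
    have hk : (0:ℝ) ≤ 2 * S.kap ^ S.kdm (c :: p) m := by have := S.hkap; positivity
    have hM : 0 < S.M + 1 := by have := S.hM; linarith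
    have e : S.kp (S.kdm (c :: p) m) * S.cf m p x
        = 2 * S.kap ^ S.kdm (c :: p) m * (S.A p m x).toReal / S.b0 := by
      unfold kp cf cc
      field_simp
    rw [e, ENNReal.ofReal_div_of_pos hb, ENNReal.ofReal_mul hk,
      ENNReal.ofReal_toReal (S.A_ne_top p m x)]
  exact (ENNReal.ofReal_le_ofReal_iff
    (mul_nonneg (kp_nonneg _) (S.cf_nonneg m p x))).1 h3

/-- **the hypothesis of the hidden mass estimates** -/
theorem capF {m : ℕ} (hm : S.mv.tm m < S.T) :
    CF2.CapF (S.pa m) (S.cf m) (fun p => S.Z p m) (S.kp 1) where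
  cap p n hl x hx := (fr_cap_child hε n hm hl hx).trans
    (mul_le_mul_of_nonneg_right (kp_anti (one_le_kdm n hm hl)) (S.cf_nonneg m p x))
  kil p n hl x hx := (fr_kil_child hε n hm hl hx).trans
    (mul_le_mul_of_nonneg_right (kp_anti (one_le_kdm n hm hl)) (S.cf_nonneg m p x))

/-- first level constants -/
theorem cf_tC {m : ℕ} (hm : S.mv.tm m < S.T) {p : List ℕ} {x : E} (hx : x ∉ S.Z p m) (c : ℕ) :
    CF2.Cf (S.kp (S.kdm (c :: p) m)) (S.W p m) (S.cf m p) x (S.tC p m c) :=
  CF2.cf_ch (S.pa_ok m) (fun h => fr_cap_child hε c hm h hx) (fun h => fr_kil_child hε c hm h hx) _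

theorem cpI_tC {m : ℕ} (hm : S.mv.tm m < S.T) (p : List ℕ) (c : ℕ) :
    CF2.CpI (S.kp 1) (S.tC p m c) := CF2.cpI_ch (S.pa_ok m) (capF hε hm) _ p c

variable (hk : S.kp 1 ≤ 1 / 2)
include hk

/-- **closeness**, real form, with the own dimension of the child -/
theorem fr_close {m : ℕ} (hm : m ≤ S.mT) {p : List ℕ} {x : E} (hx : x ∉ S.Z p m) :
    fr (S.W p m) (fun y => |S.pf p m y - S.fld p m y|) x
      ≤ 4 * S.kp (S.kdm (S.kl p m x :: p) m) * S.cf m p x := by
  have hL := S.labOK hm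
  have ht := S.tm_lt_f hm
  have h := CF2.close_first (kp_nonneg _) (kp_nonneg 1) hk (hL.good_tC (p := p) (k := S.kl p m x))
    S.cc_le' (fun _ => S.pf_UI p m) (hL.above_tC) (cpI_tC hε ht p _) (cf_tC hε ht hx _)
    (S.cf_nonneg m p x)
  refine le_trans (le_of_eq ?_) h
  refine H713.fr_congr fun y hy => ?_
  rw [hL.fld_fibre hy]
  rfl

/-- mass which is killed at some level below `p` -/
theorem fr_killed {m : ℕ} (hm : m ≤ S.mT) {p : List ℕ} {x : E} (hx : x ∉ S.Z p m) :
    fr (S.W p m) (fun y => 1 - S.alr p m y) x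
      ≤ 2 * S.kp (S.kdm (S.kl p m x :: p) m) * S.cf m p x := by
  have hL := S.labOK hm
  have ht := S.tm_lt_f hm
  have h := CF2.killed_first (kp_nonneg _) (kp_nonneg 1) hk
    (hL.good_tC (p := p) (k := S.kl p m x)) (hL.above_tC) (cpI_tC hε ht p _) (cf_tC hε ht hx _)
    (S.cf_nonneg m p x)
  refine le_trans (le_of_eq ?_) h
  refine H713.fr_congr fun y hy => ?_
  rw [hL.alr_fibre hy]

end small

end Vale.Agent.P262.M2.Sys
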