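import Vale.Agent.P262.H654.FieldC

/-!
# P262, milestone 1, FIELD part D: the hidden field and the opening jump
-/

set_option linter.all false

open MeasureTheory ProbabilityTheory Set
open scoped ENNReal RealInnerProductSpace Classical

namespace Vale.Agent.P262.H654

open Vale.Agent.P262.H395 (mix)
open Vale.Agent.P262.H847 (UI)

variable {E : Type*} [NormedAddCommGroup E] [InnerProductSpace ℝ E] [FiniteDimensional ℝ E]
  [MeasurableSpace E] [BorelSpace E]

variable {c0 : ℝ} {p q : Lev E} {L L' : List (Lev E)} {g g' : E → ℝ} {W W' : Submodule ℝ E}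
  {x y : E}

/-- the indicator of the points not killed by any level -/
noncomputable def al : List (Lev E) → E → ℝ
  | [], _ => 1
  | p :: L, x => nk p x * al L x

@[simp] lemma al_nil : al ([] : List (Lev E)) x = 1 := rfl

lemma al_cons : al (p :: L) x = nk p x * al L x := rfl

lemma al_UI (hL : Good c0 L) : UI (al L) := by
  induction L with
  | nil => exact ⟨measurable_const, fun _ => zero_le_one, fun _ => le_rfl⟩
  | cons p L ih =>
    obtain ⟨hp, hab, hL⟩ := hL
    have h1 := ih hL
    have h2 := nk_UI hp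
    exact ⟨h2.meas.mul h1.meas, fun x => mul_nonneg (h2.nonneg x) (h1.nonneg x),
      fun x => mul_le_one₀ (h2.le_one x) (h1.nonneg x) (h1.le_one x)⟩

lemma al_eq_ite (L : List (Lev E)) (x : E) : al L x = if ∀ p ∈ L, x ∉ p.Z then 1 else 0 := by
  induction L with
  | nil => simp
  | cons p L ih =>
    rw [al_cons, ih]
    unfold nk
    by_cases h : x ∈ p.Z
    · simp [h]
    · by_cases h' : ∀ p ∈ L, x ∉ p.Z
      · simp [h, h']
      · simp [h, h']

/-- the alive body -/
def ks (L : List (Lev E)) (K : Set E) : Set E := {x | x ∈ K ∧ ∀ p ∈ L, x ∉ p.Z}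

lemma measurableSet_ks (hL : Good c0 L) {K : Set E} (hK : MeasurableSet K) :
    MeasurableSet (ks L K) := by
  induction L with
  | nil => simpa [ks] using hK
  | cons p L ih =>
    obtain ⟨hp, hab, hL⟩ := hL
    have : ks (p :: L) K = p.Zᶜ ∩ ks L K := by
      ext x; simp only [ks, List.mem_cons, forall_eq_or_imp, mem_setOf_eq, mem_inter_iff,
        mem_compl_iff]; tauto
    rw [this]
    exact hp.measZ.compl.inter (ih hL)

lemma ks_ind (L : List (Lev E)) (K : Set E) (x : E) :
    al L x * (1 - Kᶜ.indicator (fun _ => (1:ℝ)) x) = (ks L K).indicator (fun _ => (1:ℝ)) x := by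
  rw [al_eq_ite]
  by_cases h1 : x ∈ K
  · by_cases h2 : ∀ p ∈ L, x ∉ p.Z
    · rw [if_pos h2, indicator_of_notMem (by simpa using h1), indicator_of_mem (by exact ⟨h1, h2⟩)]
      ring
    · rw [if_neg h2, indicator_of_notMem (s := ks L K) (by rintro ⟨_, h⟩; exact h2 h)]
      ring
  · rw [indicator_of_mem (by simpa using h1), indicator_of_notMem (s := ks L K)
      (by rintro ⟨h, _⟩; exact h1 h)]
    ring

/-- the hidden field: `hid L g + fl L g = 1 - al L * (1 - g)` -/
noncomputable def hid (L : List (Lev E)) (g : E → ℝ) (x : E) : ℝ :=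
  (1 - al L x * (1 - g x)) - fl L g x

lemma hid_nil : hid ([] : List (Lev E)) g x = 0 := by simp [hid]

lemma hid_cons : hid (p :: L) g x = nk p x * hid L g x
    + (nk p x - ph p (fr p.W (fl L g)) x) * fl L g x := by
  unfold hid
  rw [al_cons, fl_cons']
  ring

lemma fl_add_hid (L : List (Lev E)) (g : E → ℝ) (x : E) :
    fl L g x + hid L g x = 1 - al L x * (1 - g x) := by unfold hid; ring

/-- visible plus hidden is the complement of the alive body -/
lemma fl_add_hid_ind (L : List (Lev E)) (K : Set E) (x : E) :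
    fl L (Kᶜ.indicator fun _ => 1) x + hid L (Kᶜ.indicator fun _ => 1) x
      = (ks L K)ᶜ.indicator (fun _ => (1:ℝ)) x := by
  rw [fl_add_hid, ks_ind]
  by_cases h : x ∈ ks L K
  · rw [indicator_of_mem h, indicator_of_notMem (by simpa using h)]; ring
  · rw [indicator_of_notMem h, indicator_of_mem (by simpa using h)]; ring

lemma ph_le_nk (hp : LevOK c0 p) (hc : c0 ≤ 1 / 16) {F : E → ℝ} (hF : ∀ x, 0 ≤ F x) (x : E) :
    ph p F x ≤ nk p x := by
  unfold ph nk
  split_ifs with h
  · exact le_rfl
  · exact phi_le_one (hp.nonneg x) ((hp.le x h).trans hc) (hF x)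

lemma hid_nonneg (hL : Good c0 L) (hc : c0 ≤ 1 / 16) (hg : UI g) (x : E) : 0 ≤ hid L g x := by
  induction L with
  | nil => rw [hid_nil]
  | cons p L ih =>
    obtain ⟨hp, hab, hL⟩ := hL
    rw [hid_cons]
    have h1 := fl_UI hL hc hg
    have h2 := ph_le_nk hp hc (UI.fr h1 p.W).nonneg x
    have h3 := mul_nonneg (nk_nonneg p x) (ih hL)
    have h4 := mul_nonneg (by linarith : 0 ≤ nk p x - ph p (fr p.W (fl L g)) x) (h1.nonneg x)
    linarith

lemma hid_UI (hL : Good c0 L) (hc : c0 ≤ 1 / 16) (hg : UI g) : UI (hid L g) := by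
  have h1 := fl_UI hL hc hg
  have h2 := al_UI hL
  refine ⟨?_, hid_nonneg hL hc hg, fun x => ?_⟩
  · exact (measurable_const.sub (h2.meas.mul (measurable_const.sub hg.meas))).sub h1.meas
  · have h3 := h1.nonneg x
    have h4 := mul_nonneg (h2.nonneg x) (by linarith [hg.le_one x] : 0 ≤ 1 - g x)
    unfold hid
    linarith

/-- the three masses at a label -/
lemma fr_sum (hL : Good c0 L) (hc : c0 ≤ 1 / 16) (hg : UI g) (W : Submodule ℝ E) (x : E) :
    fr W (fl L g) x + fr W (hid L g) x + fr W (fun y => al L y * (1 - g y)) x = 1 := by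
  have h1 := Bd.of_UI (fl_UI hL hc hg)
  have h2 := Bd.of_UI (hid_UI hL hc hg)
  have h3 : Bd fun y => al L y * (1 - g y) :=
    (Bd.of_UI (al_UI hL)).mul ((Bd.const 1).sub (Bd.of_UI hg))
  rw [← fr_add h1 h2, ← fr_add (h1.add h2) h3]
  have e : (fun y => fl L g y + hid L g y + al L y * (1 - g y)) = fun _ => (1:ℝ) := by
    funext y; rw [fl_add_hid]; ring
  rw [e, fr_const]

/-- the mean of the hidden field over a label -/
lemma fr_hid_cons (hp : LevOK c0 p) (hc : c0 ≤ 1 / 16) (hL : Good c0 L) (hg : UI g) (x : E) :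
    fr p.W (hid (p :: L) g) x = nk p x * fr p.W (hid L g) x
      + nk p x * (fr p.W (fl L g) x - tr (p.c x) (fr p.W (fl L g) x)) := by
  have h1 := fl_UI hL hc hg
  have hF := UI.fr h1 p.W
  have hph := ph_UI hp hc hF
  have hh := hid_UI hL hc hg
  have hn := nk_UI hp
  have e : hid (p :: L) g = fun y => nk p y * hid L g y
      + (nk p y - ph p (fr p.W (fl L g)) y) * fl L g y := funext fun y => hid_cons
  have i2 : InvR p.W fun y => nk p y - ph p (fr p.W (fl L g)) y := by
    intro y w hw
    simp only [nk_inv hp y w hw, ph_inv hp (invR_fr _ _) y w hw]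
  rw [e, fr_add ((Bd.of_UI hn).mul (Bd.of_UI hh))
    (((Bd.of_UI hn).sub (Bd.of_UI hph)).mul (Bd.of_UI h1)), fr_mul (nk_inv hp), fr_mul i2]
  congr 1
  unfold nk ph
  split_ifs with h
  · ring
  · have := phi_mul (hp.nonneg x) (hF.nonneg x)
    linarith

/-- the charged caps -/
noncomputable def hs : List (Lev E) → (E → ℝ) → E → ℝ
  | [], _ => fun _ => 0
  | p :: L, g => fun x =>
      nk p x * ((if fr p.W (fl L g) x < 1 / 8 then p.c x else 0) + hs L g x)

lemma hs_cons : hs (p :: L) g x
    = nk p x * ((if fr p.W (fl L g) x < 1 / 8 then p.c x else 0) + hs L g x) := rfl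

lemma nkc_Bd (hp : LevOK c0 p) : Bd fun x => nk p x * p.c x := by
  refine ⟨(nk_meas hp).mul hp.meas, |c0|, fun x => ?_⟩
  unfold nk
  split_ifs with h
  · simp
  · rw [one_mul, abs_of_nonneg (hp.nonneg x)]
    exact (hp.le x h).trans (le_abs_self _)

lemma nkc_inv (hp : LevOK c0 p) : InvR p.W fun x => nk p x * p.c x := by
  intro x w hw
  simp only [nk_inv hp x w hw, hp.inv x w hw]

lemma ind_Bd (hp : LevOK c0 p) {F : E → ℝ} (hF : Measurable F) :
    Bd fun x => nk p x * (if F x < 1 / 8 then p.c x else 0) := by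
  refine ⟨(nk_meas hp).mul (Measurable.ite (measurableSet_lt hF measurable_const) hp.meas
    measurable_const), |c0|, fun x => ?_⟩
  unfold nk
  by_cases h : x ∈ p.Z
  · rw [if_pos h]; simp
  · rw [if_neg h, one_mul]
    split_ifs
    · rw [abs_of_nonneg (hp.nonneg x)]; exact (hp.le x h).trans (le_abs_self _)
    · simp

lemma hs_Bd (hL : Good c0 L) (hc : c0 ≤ 1 / 16) (hg : UI g) : Bd (hs L g) := by
  induction L with
  | nil => exact Bd.const 0
  | cons p L ih =>
    obtain ⟨hp, hab, hL⟩ := hL
    have e : hs (p :: L) g = fun x => nk p x * (if fr p.W (fl L g) x < 1 / 8 then p.c x else 0)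
        + nk p x * hs L g x := by
      funext x; rw [hs_cons]; ring
    rw [e]
    exact (ind_Bd hp (UI.fr (fl_UI hL hc hg) p.W).meas).add ((Bd.of_UI (nk_UI hp)).mul (ih hL))

lemma hs_nonneg (hL : Good c0 L) (x : E) : 0 ≤ hs L g x := by
  induction L with
  | nil => exact le_rfl
  | cons p L ih =>
    obtain ⟨hp, hab, hL⟩ := hL
    rw [hs_cons]
    apply mul_nonneg (nk_nonneg p x)
    have h1 : 0 ≤ (if fr p.W (fl L g) x < 1 / 8 then p.c x else 0) := by
      split_ifs
      · exact hp.nonneg x
      · exact le_rfl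
    linarith [ih hL]

/-- **(P3a)** the hidden mass is paid by the caps of the alive labels with visible mass `< 1/8` -/
theorem fr_hid_le_hs (hL : Good c0 L) (hc : c0 ≤ 1 / 16) (hg : UI g) (hW : ∀ p ∈ L, W ≤ p.W)
    (x : E) : fr W (hid L g) x ≤ fr W (hs L g) x := by
  induction L generalizing W x with
  | nil =>
    have e : hid ([] : List (Lev E)) g = fun _ => (0:ℝ) := funext fun y => hid_nil
    rw [e]; exact le_rfl
  | cons p L ih =>
    have hLL := hL
    obtain ⟨hp, hab, hL⟩ := hL
    have hWp := hW p List.mem_cons_self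
    have b1 := Bd.of_UI (hid_UI hLL hc hg)
    have b2 := hs_Bd hLL hc hg
    rw [← fr_tower hWp b1, ← fr_tower hWp b2]
    refine fr_mono (b1.fr _) (b2.fr _) (fun y => ?_) x
    have hF := UI.fr (fl_UI hL hc hg) p.W
    have e : hs (p :: L) g = fun x => nk p x * ((if fr p.W (fl L g) x < 1 / 8 then p.c x else 0)
        + hs L g x) := rfl
    have hsb := hs_Bd hL hc hg
    have hib := ind_Bd hp hF.meas
    have e' : hs (p :: L) g = fun x => nk p x * (if fr p.W (fl L g) x < 1 / 8 then p.c x else 0)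
        + nk p x * hs L g x := by
      funext x; rw [hs_cons]; ring
    have ii : InvR p.W fun x => nk p x * (if fr p.W (fl L g) x < 1 / 8 then p.c x else 0) := by
      intro z w hw
      simp only [nk_inv hp z w hw, hp.inv z w hw, invR_fr p.W (fl L g) z w hw]
    rw [fr_hid_cons hp hc hL hg, e', fr_add hib ((Bd.of_UI (nk_UI hp)).mul hsb), fr_self ii,
      fr_mul (nk_inv hp)]
    have h1 := mul_le_mul_of_nonneg_left (ih hL (W := p.W) (fun q hq => hab q hq) y)
      (nk_nonneg p y)
    have h2 : nk p y * (fr p.W (fl L g) y - tr (p.c y) (fr p.W (fl L g) y))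
        ≤ nk p y * (if fr p.W (fl L g) y < 1 / 8 then p.c y else 0) := by
      by_cases hz : y ∈ p.Z
      · simp [nk, hz]
      · apply mul_le_mul_of_nonneg_left _ (nk_nonneg p y)
        have hcy := (hp.le y hz).trans hc
        split_ifs with h
        · exact sub_tr_le (hp.nonneg y) hcy (hF.nonneg y)
        · rw [tr_self hcy (not_lt.mp h)]; simp
    linarith

/-- the caps decrease fast along the chain -/
def Caps (k : ℝ) : Lev E → List (Lev E) → Prop
  | _, [] => True
  | p, q :: L => (∀ x, x ∉ p.Z → fr p.W (fun y => nk q y * q.c y) x ≤ k * p.c x) ∧ Caps k q L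

/-- **(P3a')** the hidden mass at the parent label `p` -/
theorem fr_hid_le_caps {k : ℝ} (hk0 : 0 ≤ k) (hk : k ≤ 1 / 2) (hL : Good c0 (p :: L))
    (hc : c0 ≤ 1 / 16) (hg : UI g) (hcap : Caps k p L) (hx : x ∉ p.Z) :
    fr p.W (hid L g) x ≤ 2 * k * p.c x := by
  refine (fr_hid_le_hs hL.2.2 hc hg (fun q hq => hL.2.1 q hq) x).trans ?_
  induction L generalizing p x with
  | nil =>
    have e : hs ([] : List (Lev E)) g = fun _ => (0:ℝ) := rfl
    rw [e, fr_const]
    have := hL.1.nonneg x
    positivity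
  | cons q L ih =>
    obtain ⟨hp, hab, hq, hab', hL'⟩ := hL
    have hpq : p.W ≤ q.W := hab q List.mem_cons_self
    have hsb := hs_Bd hL' hc hg
    have hF := UI.fr (fl_UI hL' hc hg) q.W
    have hib := ind_Bd hq hF.meas
    have e' : hs (q :: L) g = fun x => nk q x * (if fr q.W (fl L g) x < 1 / 8 then q.c x else 0)
        + nk q x * hs L g x := by
      funext x; rw [hs_cons]; ring
    have bnk := Bd.of_UI (nk_UI hq)
    rw [e', fr_add hib (bnk.mul hsb)]
    have h1 : fr p.W (fun x => nk q x * (if fr q.W (fl L g) x < 1 / 8 then q.c x else 0)) x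
        ≤ fr p.W (fun x => nk q x * q.c x) x := by
      refine fr_mono hib (nkc_Bd hq) (fun y => ?_) x
      apply mul_le_mul_of_nonneg_left _ (nk_nonneg q y)
      split_ifs
      · exact le_rfl
      · exact hq.nonneg y
    have h2 : fr p.W (fun x => nk q x * hs L g x) x ≤ 2 * k * fr p.W (fun x => nk q x * q.c x) x := by
      rw [← fr_mul_tower hpq (nk_inv hq) bnk hsb, ← fr_const_mul]
      refine fr_mono (bnk.mul (hsb.fr _)) ((nkc_Bd hq).const_mul _) (fun y => ?_) x
      by_cases hz : y ∈ q.Z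
      · simp [nk, hz]
      · have := ih (p := q) (x := y) ⟨hq, hab', hL'⟩ hcap.2 hz
        have h3 := mul_le_mul_of_nonneg_left this (nk_nonneg q y)
        calc nk q y * fr q.W (hs L g) y ≤ nk q y * (2 * k * q.c y) := h3
          _ = _ := by ring
    have h3 := hcap.1 x hx
    have h4 := hp.nonneg x
    have h5 : 0 ≤ k * p.c x := mul_nonneg hk0 h4
    have h6 : 2 * k * fr p.W (fun x => nk q x * q.c x) x ≤ 2 * k * (k * p.c x) :=
      mul_le_mul_of_nonneg_left h3 (by linarith)
    have h7 : 2 * k * (k * p.c x) ≤ k * p.c x := by nlinarith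
    linarith

/-- **(P3b)** the hidden mass is small relative to the alive mass, at every label -/
theorem fr_hid_le_alive (hL : Good c0 L) (hc0 : 0 ≤ c0) (hc : c0 ≤ 1 / 16)
    (hlen : 2 * (L.length : ℝ) * c0 ≤ 1 / 2) (hg : UI g) (hW : ∀ p ∈ L, W ≤ p.W) (x : E) :
    fr W (hid L g) x ≤ 2 * L.length * c0 * fr W (fun y => al L y * (1 - g y)) x := by
  induction L generalizing W x with
  | nil =>
    have e : hid ([] : List (Lev E)) g = fun _ => (0:ℝ) := funext fun y => hid_nil
    rw [e, fr_const]; simp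
  | cons p L ih =>
    have hLL := hL
    obtain ⟨hp, hab, hL⟩ := hL
    have hWp := hW p List.mem_cons_self
    have hlen' : 2 * (L.length : ℝ) * c0 ≤ 1 / 2 := by
      rw [List.length_cons] at hlen
      push_cast at hlen
      nlinarith
    have b1 := Bd.of_UI (hid_UI hLL hc hg)
    have bal : Bd fun y => al L y * (1 - g y) :=
      (Bd.of_UI (al_UI hL)).mul ((Bd.const 1).sub (Bd.of_UI hg))
    have b2 : Bd fun y => al (p :: L) y * (1 - g y) :=
      (Bd.of_UI (al_UI hLL)).mul ((Bd.const 1).sub (Bd.of_UI hg))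
    rw [← fr_tower hWp b1, ← fr_tower hWp b2, ← fr_const_mul]
    refine fr_mono (b1.fr _) ((b2.fr _).const_mul _) (fun y => ?_) x
    have e2 : (fun y => al (p :: L) y * (1 - g y)) = fun y => nk p y * (al L y * (1 - g y)) := by
      funext y; rw [al_cons]; ring
    rw [fr_hid_cons hp hc hL hg, e2, fr_mul (nk_inv hp)]
    by_cases hz : y ∈ p.Z
    · simp [nk, hz]
    · have hnk : nk p y = 1 := by simp [nk, hz]
      rw [hnk, one_mul, one_mul, one_mul]
      have h1 := ih hL hlen' (W := p.W) (fun q hq => hab q hq) y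
      have hF := UI.fr (fl_UI hL hc hg) p.W
      have hs := fr_sum hL hc hg p.W y
      have hcy := hp.le y hz
      have hq0 : 0 ≤ fr p.W (fun y => al L y * (1 - g y)) y :=
        fr_nonneg (fun z => mul_nonneg ((al_UI hL).nonneg z) (by linarith [hg.le_one z])) y
      have h2 : fr p.W (fl L g) y - tr (p.c y) (fr p.W (fl L g) y)
          ≤ 2 * c0 * fr p.W (fun y => al L y * (1 - g y)) y := by
        rcases lt_or_ge (fr p.W (fl L g) y) (1 / 8) with h | h
        · have h3 := sub_tr_le (hp.nonneg y) (hcy.trans hc) (hF.nonneg y)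
          have h4 : 2 * (L.length:ℝ) * c0 * fr p.W (fun y => al L y * (1 - g y)) y
              ≤ 1 / 2 * fr p.W (fun y => al L y * (1 - g y)) y :=
            mul_le_mul_of_nonneg_right hlen' hq0
          have h5 : 1 / 2 ≤ fr p.W (fun y => al L y * (1 - g y)) y := by linarith
          nlinarith
        · rw [tr_self (hcy.trans hc) h, sub_self]
          positivity
      rw [List.length_cons]
      push_cast
      nlinarith

/-- **(P4)** the opening jump -/
theorem fr_open_le (hq : LevOK c0 q) (hc : c0 ≤ 1 / 16) (hg : UI g) (hW : W ≤ q.W) (x : E) :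
    fr W (fun y => |fl [q] g y - g y|) x
      ≤ fr W (fun y => ((1 - nk q y) + 8 / 7 * (nk q y * q.c y)) * (1 - g y)) x := by
  have hG : Good c0 [q] := ⟨hq, by simp, trivial⟩
  have hF := UI.fr hg q.W
  have hph := ph_UI hq hc hF
  have hf := fl_UI hG hc hg
  have b1 : Bd fun y => |fl [q] g y - g y| := ((Bd.of_UI hf).sub (Bd.of_UI hg)).abs
  have bn := Bd.of_UI (nk_UI hq)
  have bA : Bd fun y => (1 - nk q y) + 8 / 7 * (nk q y * q.c y) :=
    ((Bd.const 1).sub bn).add ((nkc_Bd hq).const_mul _)
  have b1g : Bd fun y => 1 - g y := (Bd.const 1).sub (Bd.of_UI hg)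
  rw [← fr_tower hW b1, ← fr_tower hW (bA.mul b1g)]
  refine fr_mono (b1.fr _) ((bA.mul b1g).fr _) (fun y => ?_) x
  have e1 : (fun y => |fl [q] g y - g y|)
      = fun y => (1 - nk q y) * (1 - g y) + (nk q y - ph q (fr q.W g) y) * g y := by
    funext z
    have h1 : fl [q] g z = (1 - nk q z) + ph q (fr q.W g) z * g z := fl_cons'
    rw [h1]
    have h2 := ph_le_nk hq hc hF.nonneg z
    have h3 := hg.nonneg z
    have h4 := hg.le_one z
    by_cases hz : z ∈ q.Z
    · have hn : nk q z = 0 := by simp [nk, hz]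
      have hp0 : ph q (fr q.W g) z = 0 := by simp [ph, hz]
      rw [hn, hp0, abs_of_nonneg (by linarith)]; ring
    · have hn : nk q z = 1 := by simp [nk, hz]
      rw [hn] at h2 ⊢
      rw [abs_of_nonpos (by nlinarith)]; ring
  have i1 : InvR q.W fun y => 1 - nk q y := by
    intro z w hw; simp only [nk_inv hq z w hw]
  have i2 : InvR q.W fun y => nk q y - ph q (fr q.W g) y := by
    intro z w hw; simp only [nk_inv hq z w hw, ph_inv hq (invR_fr _ _) z w hw]
  have i3 : InvR q.W fun y => (1 - nk q y) + 8 / 7 * (nk q y * q.c y) := by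
    intro z w hw; simp only [nk_inv hq z w hw, hq.inv z w hw]
  rw [e1, fr_add (((Bd.const 1).sub bn).mul b1g) ((bn.sub (Bd.of_UI hph)).mul (Bd.of_UI hg)),
    fr_mul i1, fr_mul i2, fr_mul i3, fr_sub (Bd.const 1) (Bd.of_UI hg), fr_const]
  have hF0 := hF.nonneg y
  have hF1 := hF.le_one y
  by_cases hz : y ∈ q.Z
  · have hn : nk q y = 0 := by simp [nk, hz]
    have hp0 : ph q (fr q.W g) y = 0 := by simp [ph, hz]
    rw [hn, hp0]
    apply le_of_eq; ring
  · have hn : nk q y = 1 := by simp [nk, hz]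
    have hp1 : ph q (fr q.W g) y = phi (q.c y) (fr q.W g y) := by simp [ph, hz]
    rw [hn, hp1]
    have hcy := (hq.le y hz).trans hc
    have h1 := phi_mul (hq.nonneg y) hF0
    have h2 := sub_tr_le (hq.nonneg y) hcy hF0
    have h3 : (1 - phi (q.c y) (fr q.W g y)) * fr q.W g y
        ≤ 8 / 7 * q.c y * (1 - fr q.W g y) := by
      rcases lt_or_ge (fr q.W g y) (1 / 8) with h | h
      · have := hq.nonneg y
        nlinarith
      · rw [phi_self hcy h]
        have := hq.nonneg y
        have h5 : 0 ≤ 1 - fr q.W g y := by linarith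
        rw [sub_self, zero_mul]
        positivity
    nlinarith

end Vale.Agent.P262.H654
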