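import Vale.Agent.P262.H654.FieldE
import Vale.Agent.P262.H395.Iso

/-!
# P262, milestone 1, FIELD: isometries fixing the labels, and the reopening of a chain of levels
-/

set_option linter.all false

open MeasureTheory ProbabilityTheory Set
open scoped ENNReal RealInnerProductSpace Classical

namespace Vale.Agent.P262.H654

open Vale.Agent.P262.H395 (mix Fixes)
open Vale.Agent.P262.H847 (UI)

variable {E : Type*} [NormedAddCommGroup E] [InnerProductSpace ℝ E] [FiniteDimensional ℝ E]
  [MeasurableSpace E] [BorelSpace E]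

variable {c0 : ℝ} {p q : Lev E} {L L' A B : List (Lev E)} {g g' : E → ℝ} {W W' : Submodule ℝ E}
  {x y : E} {τ : E ≃ₗᵢ[ℝ] E}

lemma InvR.fixes {W : Submodule ℝ E} (hτ : Fixes τ W) {g : E → ℝ} (hg : InvR W g) (x : E) :
    g (τ x) = g x := hg.eq_of (hτ.proj x)

lemma integral_isometry (τ : E ≃ₗᵢ[ℝ] E) {f : E → ℝ} (hf : Measurable f) :
    ∫ x, f (τ x) ∂stdGaussian E = ∫ x, f x ∂stdGaussian E := by
  conv_rhs => rw [← (H395.mp_isometry τ).map_eq]
  rw [integral_map τ.continuous.measurable.aemeasurable hf.aestronglyMeasurable]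

/-- averages over labels fixed by `τ` do not see `τ` -/
lemma fr_comp_isom (hτ : Fixes τ W) {f : E → ℝ} (hf : Measurable f) (x : E) :
    fr W (fun y => f (τ y)) x = fr W f x := by
  have h1 : ∀ z, f (τ (mix W x z)) = f (mix W (τ x) (τ z)) := by
    intro z
    congr 1
    have := H395.mix_map_isometry τ W x z
    rw [hτ.map_eq] at this
    exact this.symm
  have h2 : fr W f (τ x) = fr W f x := (invR_fr W f).fixes hτ x
  rw [← h2]
  unfold fr
  simp_rw [h1]
  exact integral_isometry τ (f := fun z => f (mix W (τ x) z))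
    (hf.comp (H395.measurable_mix_right W (τ x)))

lemma Bd.comp_isom {f : E → ℝ} (hf : Bd f) (τ : E ≃ₗᵢ[ℝ] E) : Bd fun y => f (τ y) :=
  hf.comp τ.continuous.measurable

lemma UI.comp_isom {f : E → ℝ} (hf : UI f) (τ : E ≃ₗᵢ[ℝ] E) : UI fun y => f (τ y) :=
  ⟨hf.meas.comp τ.continuous.measurable, fun x => hf.nonneg _, fun x => hf.le_one _⟩

/-- the field commutes with isometries fixing all its labels -/
lemma fl_comp_isom (hL : Good c0 L) (hc : c0 ≤ 1 / 16) (hb : ∀ p ∈ L, p.W ≤ W')
    (hτ : Fixes τ W') (hg : UI g) (x : E) : fl L (fun y => g (τ y)) x = fl L g (τ x) := by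
  induction L generalizing x with
  | nil => rfl
  | cons p L ih =>
    obtain ⟨hp, hab, hL⟩ := hL
    have hτp : Fixes τ p.W := hτ.mono (hb p List.mem_cons_self)
    have e : fl L (fun y => g (τ y)) = fun x => fl L g (τ x) :=
      funext fun x => ih hL (fun q hq => hb q (List.mem_cons_of_mem _ hq)) x
    have u := fl_UI hL hc hg
    have e2 : fr p.W (fun x => fl L g (τ x)) = fr p.W (fl L g) :=
      funext fun x => fr_comp_isom hτp u.meas x
    rw [fl_cons', fl_cons', e, e2, (nk_inv hp).fixes hτp, (ph_inv hp (invR_fr _ _)).fixes hτp]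

/-- the field is at most the payoff plus the killed points -/
lemma fl_le_add_killed (hL : Good c0 L) (hc : c0 ≤ 1 / 16) (hg : UI g) (x : E) :
    fl L g x ≤ g x + (1 - al L x) := by
  have hk : kt L g x ≤ 1 - al L x := by
    induction L with
    | nil => simp [kt]
    | cons p L ih =>
      obtain ⟨hp, hab, hL⟩ := hL
      rw [kt_cons, al_cons]
      have h1 := ph_le_nk hp hc (UI.fr (fl_UI hL hc hg) p.W).nonneg x
      have h2 := ih hL
      have h3 := (kt_UI hL hc hg).nonneg x
      have h4 := mul_le_mul h1 h2 h3 (nk_nonneg p x)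
      linarith
  rw [fl_eq]
  have h1 := (wt_UI hL hc hg).le_one x
  have h2 := hg.nonneg x
  nlinarith

lemma ex_le_sum (hL : Good c0 L) (hg : UI g) (x : E) :
    ex L g x ≤ (L.map fun q => ((1 - nk q x) + 2 * (nk q x * q.c x)) * (1 - g x)).sum := by
  induction L with
  | nil => simp [ex]
  | cons q L ih =>
    obtain ⟨hq, hab, hL⟩ := hL
    rw [List.map_cons, List.sum_cons, ex_cons]
    have h1 := nk_le_one q x
    have h2 := ex_nonneg hL hg x
    have h3 := nk_nonneg q x
    have h4 := ih hL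
    nlinarith

/-- visible mass of the larger of the two payoffs at a reopening or an inner rotation -/
lemma fr_fl_max_le (hA : Good c0 A) (hB : Good c0 B) (hc : c0 ≤ 1 / 16) (hWW : W ≤ W')
    (hτ : Fixes τ W') (hg : UI g) (hg' : UI g') (hgg : ∀ x, g' (τ x) = g x) (x : E) :
    fr W (fl A (fun z => max (fl B g z) (fl B g' (τ z)))) x
      ≤ fr W g x + fr W (fun y => 1 - al A y) x + 2 * fr W (fun y => 1 - al B y) x := by
  have u1 := fl_UI hB hc hg
  have u2 := UI.comp_isom (fl_UI hB hc hg') τ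
  have hG : UI fun z => max (fl B g z) (fl B g' (τ z)) := UI.max u1 u2
  have uA := al_UI hA
  have uB := al_UI hB
  have bA : Bd fun y => 1 - al A y := (Bd.const 1).sub (Bd.of_UI uA)
  have bB : Bd fun y => 1 - al B y := (Bd.const 1).sub (Bd.of_UI uB)
  have bB' : Bd fun y => 1 - al B (τ y) := bB.comp_isom τ
  have e : fr W (fun y => 1 - al B (τ y)) x = fr W (fun y => 1 - al B y) x :=
    fr_comp_isom (f := fun y => 1 - al B y) (hτ.mono hWW) bB.meas x
  have key : fr W (fl A (fun z => max (fl B g z) (fl B g' (τ z)))) x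
      ≤ fr W (fun y => (g y + (1 - al A y)) + ((1 - al B y) + (1 - al B (τ y)))) x := by
    refine fr_mono (Bd.of_UI (fl_UI hA hc hG)) (((Bd.of_UI hg).add bA).add (bB.add bB'))
      (fun y => ?_) x
    have h1 := fl_le_add_killed hA hc hG y
    have h2 := fl_le_add_killed hB hc hg y
    have h3 := fl_le_add_killed hB hc hg' (τ y)
    rw [hgg] at h3
    have h4 := uB.le_one y
    have h5 := uB.le_one (τ y)
    have h6 : max (fl B g y) (fl B g' (τ y)) ≤ g y + ((1 - al B y) + (1 - al B (τ y))) :=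
      max_le (by linarith) (by linarith)
    linarith
  rw [fr_add ((Bd.of_UI hg).add bA) (bB.add bB'), fr_add (Bd.of_UI hg) bA, fr_add bB bB', e] at key
  linarith

/-- **(REOPEN)** the levels `B` below `W'` are replaced (`τ` fixes `W'`); `A` are the surviving
levels between `W` and `W'`. -/
theorem reopen_abs (hA : Good c0 A) (hB : Good c0 B) (hc0 : 0 ≤ c0) (hc : c0 ≤ 1 / 16)
    (hlen : 2 * (B.length : ℝ) * c0 ≤ 1 / 2) (hWA : ∀ p ∈ A, W ≤ p.W) (hAW : ∀ p ∈ A, p.W ≤ W')
    (hBW : ∀ p ∈ B, W' ≤ p.W) (hWW : W ≤ W') (hτ : Fixes τ W') (hg : UI g) (hg' : UI g')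
    (hgg : ∀ x, g' (τ x) = g x) {o o' : E → ℝ} (ho : UI o) (ho' : UI o')
    (hvo : ∀ x, vis A (fun z => max (fl B g z) (fl B g' (τ z))) x ≤ o x)
    (hvo' : ∀ x, vis A (fun z => max (fl B g z) (fl B g' (τ z))) x ≤ o' x) (x : E) :
    fr W (fun y => |fl A (fl B g') (τ y) - fl A (fl B g) y|) x
      ≤ sg c0 ^ A.length * (fr W (fun y => o y * ex B g y) x
        + fr W (fun y => o' y * ex B g' y) x) := by
  have u1 := fl_UI hB hc hg
  have u2' := fl_UI hB hc hg'
  have u2 := UI.comp_isom u2' τ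
  have hG : UI fun z => max (fl B g z) (fl B g' (τ z)) := UI.max u1 u2
  set V : E → ℝ := vis A (fun z => max (fl B g z) (fl B g' (τ z))) with hV
  have V1 : UI V := vis_UI hA hc hG
  have iV : InvR W' V := (cond_aux hA hc hG hAW).1.2.2
  have e1 : (fun y => |fl A (fl B g') (τ y) - fl A (fl B g) y|)
      = fun y => |fl A (fun z => fl B g' (τ z)) y - fl A (fl B g) y| := by
    funext y
    rw [fl_comp_isom hA hc hAW hτ u2']
  have h1 := fr_abs_fl_sub_le hA hc0 hc u1 u2 hWA x
  rw [e1]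
  have hs : (0:ℝ) ≤ sg c0 ^ A.length := pow_nonneg (sg_pos hc).le _
  refine h1.trans (mul_le_mul_of_nonneg_left ?_ hs)
  set d1 : E → ℝ := fun y => |g y - fl B g y| with hd1
  set d2 : E → ℝ := fun y => |g' y - fl B g' y| with hd2
  have bd1 : Bd d1 := ((Bd.of_UI hg).sub (Bd.of_UI u1)).abs
  have bd2 : Bd d2 := ((Bd.of_UI hg').sub (Bd.of_UI u2')).abs
  have bd2' : Bd fun y => d2 (τ y) := bd2.comp_isom τ
  have bV := Bd.of_UI V1
  have bex := ex_Bd hB hg
  have bex' := ex_Bd hB hg'
  have step1 : fr W (fun y => V y * |fl B g' (τ y) - fl B g y|) x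
      ≤ fr W (fun y => V y * d1 y + V y * d2 (τ y)) x := by
    refine fr_mono (bV.mul ((Bd.of_UI u2).sub (Bd.of_UI u1)).abs)
      ((bV.mul bd1).add (bV.mul bd2')) (fun y => ?_) x
    rw [← mul_add]
    apply mul_le_mul_of_nonneg_left _ (V1.nonneg y)
    simp only [hd1, hd2, hgg]
    have e3 : fl B g' (τ y) - fl B g y = (g y - fl B g y) - (g y - fl B g' (τ y)) := by ring
    rw [e3]
    exact abs_sub _ _
  refine step1.trans ?_
  rw [fr_add (bV.mul bd1) (bV.mul bd2')]
  apply add_le_add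
  · rw [← fr_mul_tower hWW iV bV bd1]
    have h2 : fr W (fun y => V y * fr W' d1 y) x ≤ fr W (fun y => V y * fr W' (ex B g) y) x := by
      refine fr_mono (bV.mul (bd1.fr _)) (bV.mul (bex.fr _)) (fun y => ?_) x
      exact mul_le_mul_of_nonneg_left (fr_abs_sub_fl_le hB hc0 hc hlen hg hBW y) (V1.nonneg y)
    refine h2.trans ?_
    rw [fr_mul_tower hWW iV bV bex]
    exact fr_mono (bV.mul bex) ((Bd.of_UI ho).mul bex)
      (fun y => mul_le_mul_of_nonneg_right (hvo y) (ex_nonneg hB hg y)) x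
  · rw [← fr_mul_tower hWW iV bV bd2']
    have e4 : fr W' (fun y => d2 (τ y)) = fr W' d2 := funext fun y => fr_comp_isom hτ bd2.meas y
    rw [e4]
    have h2 : fr W (fun y => V y * fr W' d2 y) x ≤ fr W (fun y => V y * fr W' (ex B g') y) x := by
      refine fr_mono (bV.mul (bd2.fr _)) (bV.mul (bex'.fr _)) (fun y => ?_) x
      exact mul_le_mul_of_nonneg_left (fr_abs_sub_fl_le hB hc0 hc hlen hg' hBW y) (V1.nonneg y)
    refine h2.trans ?_
    rw [fr_mul_tower hWW iV bV bex']
    exact fr_mono (bV.mul bex') ((Bd.of_UI ho').mul bex')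
      (fun y => mul_le_mul_of_nonneg_right (hvo' y) (ex_nonneg hB hg' y)) x

end Vale.Agent.P262.H654
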