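import Vale.Agent.P262.M1.Fld
import Vale.Agent.P262.M1.TopA
import Vale.Agent.P262.H654.Reopen

/-!
# P262, milestone 1: the price of a reopening seen by the field of an outer level
-/

set_option linter.all false

open MeasureTheory ProbabilityTheory Set
open scoped ENNReal RealInnerProductSpace
open Vale.Agent.P262.H118 (L Iv st en ONB K1 rotE ON tau)
open Vale.Agent.P262.H395 (fib mix Inv Fixes)
open Vale.Agent.P262.H493 (star)
open Vale.Agent.P262.H654
open Vale.Agent.P262.H847 (UI)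

namespace Vale.Agent.P262.H654

variable {E : Type*} [NormedAddCommGroup E] [InnerProductSpace ℝ E] [FiniteDimensional ℝ E]
  [MeasurableSpace E] [BorelSpace E]

lemma Bd.finset_sum {ι : Type*} (s : Finset ι) {F : ι → E → ℝ} (h : ∀ i ∈ s, Bd (F i)) :
    Bd fun y => ∑ i ∈ s, F i y := by
  classical
  induction s using Finset.induction_on with
  | empty => simpa using Bd.const (E := E) 0
  | insert a s ha ih =>
    simp_rw [Finset.sum_insert ha]
    exact (h a (Finset.mem_insert_self _ _)).add (ih fun i hi => h i (Finset.mem_insert_of_mem hi))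

lemma fr_finset_sum {ι : Type*} (s : Finset ι) {F : ι → E → ℝ} (h : ∀ i ∈ s, Bd (F i))
    (W : Submodule ℝ E) (x : E) :
    fr W (fun y => ∑ i ∈ s, F i y) x = ∑ i ∈ s, fr W (F i) x := by
  classical
  induction s using Finset.induction_on with
  | empty => simp [fr_const]
  | insert a s ha ih =>
    simp_rw [Finset.sum_insert ha]
    rw [fr_add (h a (Finset.mem_insert_self _ _))
      (Bd.finset_sum s fun i hi => h i (Finset.mem_insert_of_mem hi)),
      ih fun i hi => h i (Finset.mem_insert_of_mem hi)]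

/-- the product of the slopes -/
lemma sg_pow_le {c0 : ℝ} {n d : ℕ} (hc0 : 0 ≤ c0) (h : 16 * (d : ℝ) * c0 ≤ 1) (hn : n ≤ d)
    (hc : c0 ≤ 1 / 16) : sg c0 ^ n ≤ 2 := by
  have h1 : (1 : ℝ) + (n : ℝ) * (-(8 * c0)) ≤ (1 + -(8 * c0)) ^ n :=
    one_add_mul_le_pow (by linarith) n
  have h2 : ((n : ℕ) : ℝ) ≤ d := by exact_mod_cast hn
  have h3 : (1:ℝ) / 2 ≤ (1 - 8 * c0) ^ n := by
    have e : (1 + -(8 * c0)) = 1 - 8 * c0 := by ring
    rw [e] at h1
    nlinarith
  unfold sg
  rw [div_pow, one_pow, div_le_iff₀ (by linarith)]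
  linarith

end Vale.Agent.P262.H654

namespace Vale.Agent.P262.M1.Sys

variable {E : Type*} [NormedAddCommGroup E] [InnerProductSpace ℝ E] [FiniteDimensional ℝ E]
  [MeasurableSpace E] [BorelSpace E] (S : Sys E)

lemma lf_succ : S.lf + 1 = S.d := by have := S.hd2; unfold lf; omega

/-- mass of the killed labels, real form -/
lemma fr_killed {l i : ℕ} (hli : l ≤ i) (hid : i ≤ S.d) (hk : S.cp.kap ≤ 1 / 2) {x : E}
    (hx : x ∉ S.cp.Z l) : fr (L S.f l) (ind (S.cp.Z i)) x ≤ 2 * S.cp.kap * S.cp.A l x := by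
  have h1 := S.cp.killed l i hli hid hk hx
  rw [← fib_ind (S.measurableSet_Z i)] at h1
  have h2 : 0 ≤ 2 * S.cp.kap * S.cp.A l x := by
    have := S.cp.kap_pos
    have := S.cp.A_pos l x
    positivity
  exact (ENNReal.ofReal_le_ofReal_iff h2).mp h1

/-- killed at some level `< b ≤ d` -/
lemma one_sub_al_le {a b : ℕ} (hb : b ≤ S.d) (y : E) :
    1 - al (S.lvs a b) y ≤ ind (S.cp.Z S.lf) y := by
  rw [al_eq_ite]
  by_cases h : y ∈ S.cp.Z S.lf
  · rw [ind_mem h]
    split_ifs <;> norm_num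
  · rw [ind_notMem h, if_pos]
    · norm_num
    · intro p hp
      obtain ⟨l, h1, h2, rfl⟩ := S.mem_lvs.1 hp
      have h3 := S.lf_succ
      exact fun h' => h (S.Z_mono' (by omega) h')

/-- visible labels are alive and above their threshold -/
lemma vis_lvs {a b : ℕ} {G : E → ℝ} {x : E} (h : vis (S.lvs a b) G x ≠ 0) :
    ∀ i, a ≤ i → i < b → x ∉ S.cp.Z i ∧
      (S.M + 1) * S.cp.A i x < fr (L S.f i) (fl (S.lvs (i + 1) b) G) x := by
  have key : ∀ k a, a + k = b → vis (S.lvs a b) G x ≠ 0 → ∀ i, a ≤ i → i < b → x ∉ S.cp.Z i ∧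
      (S.M + 1) * S.cp.A i x < fr (L S.f i) (fl (S.lvs (i + 1) b) G) x := by
    intro k
    induction k with
    | zero => intro a ha _ i h1 h2; omega
    | succ k ih =>
      intro a ha hv i h1 h2
      rw [S.lvs_cons (by omega), vis_cons] at hv
      have hv1 := left_ne_zero_of_mul hv
      have hv2 := right_ne_zero_of_mul hv
      rcases Nat.eq_or_lt_of_le h1 with h3 | h3
      · subst h3
        unfold vi at hv1
        by_contra hcon
        apply hv1
        rw [if_neg]
        exact hcon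
      · exact ih (a + 1) (by omega) hv2 i (by omega) h2
  intro i h1 h2
  exact key (b - a) a (by omega) h i h1 h2

lemma De_le_Dc (i m : ℕ) (x : E) : S.De i m x ≤ S.Dc i m x := by
  refine H395.fib_mono (fun y => ?_) x
  have hsub : (S.X i m)ᶜ ⊆ (S.X i m ∩ S.X i (m + 1))ᶜ := fun y hy h => hy h.1
  exact indicator_le_indicator_of_subset hsub (fun _ => zero_le) y

lemma De_real (m : ℕ) {l : ℕ} (hl : l ≤ S.lf) (x : E) :
    ENNReal.ofReal (fr (L S.f l) (ind (S.X S.lf m)ᶜ) x) = S.De l m x := by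
  rw [S.De_eq m hl x, fib_ind (S.measurableSet_X S.lf m).compl]

/-- surviving levels of a reopening: labels with a deficit `≥ M A` are counted in the blocks of
both moves `m`, `m + 1` -/
lemma mem_om_re (hM : 1 ≤ S.M) {m i : ℕ} {x : E} (hre : S.IsRe m) (hm : m < S.mT) (hi : i < S.lf)
    (hs : S.tm m + 1 ∉ S.K.nw i) (hx : x ∉ S.cp.Z i)
    (hD : ENNReal.ofReal (S.M * S.cp.A i x) ≤ S.De i m x) : x ∈ S.om i m ∧ x ∈ S.om i (m + 1) := by
  have hmono := S.n_strictMono
  have h1 := H502.sT_spec S (k := i) hm.le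
  have h2 := H502.sT_spec S (k := i) (m := m + 1) (by omega)
  have h3 : m + 1 = S.el.n (S.tm m + 1) := hre
  have htm : S.tm (m + 1) = S.tm m + 1 := S.tm_succ_re hre
  have hA : ENNReal.ofReal (S.cp.A i x) ≤ ENNReal.ofReal (S.M * S.cp.A i x) :=
    ENNReal.ofReal_le_ofReal (by have := S.cp.A_pos i x; nlinarith)
  constructor
  · refine ⟨hx, ?_⟩
    have e1 : S.sB i m = S.el.n (S.sT i m) := H502.sB_of_lt S hi
    have e2 : S.eB i m = S.el.n (S.eT i m) - 1 := H502.eB_of_lt S hi
    have a1 : S.el.n (S.sT i m) ≤ S.el.n (S.tm m) := hmono.monotone h1.2.1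
    have a2 : S.el.n (S.tm m + 1) ≤ S.el.n (S.eT i m) := hmono.monotone h1.2.2
    have a3 := S.tm_spec m
    rcases Nat.lt_or_ge m (S.eB i m) with h | h
    · exact Or.inr ⟨m, by omega, h, hD.trans (S.De_le_Dc i m x)⟩
    · left
      have : S.eB i m = m := by omega
      rw [this]
      exact hA.trans hD
  · refine ⟨hx, Or.inr ⟨m + 1, ?_, ?_, ?_⟩⟩
    · have e1 : S.sB i (m + 1) = S.el.n (S.sT i (m + 1)) := H502.sB_of_lt S hi
      have a1 : S.el.n (S.sT i (m + 1)) ≤ S.el.n (S.tm (m + 1)) := hmono.monotone h2.2.1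
      rw [htm] at a1
      omega
    · have e2 : S.eB i (m + 1) = S.el.n (S.eT i (m + 1)) - 1 := H502.eB_of_lt S hi
      have a2 : S.el.n (S.tm (m + 1) + 1) ≤ S.el.n (S.eT i (m + 1)) := hmono.monotone h2.2.2
      have a3 := S.el.n_succ (S.tm m + 1)
      rw [htm] at a2
      omega
    · have e3 : S.De i (m + 1) x = S.De i m x := by
        unfold De
        rw [S.X_re hre hm (by have := S.lf_succ; omega) hs]
      rw [← e3] at hD
      exact hD.trans (S.De_le_Dc i (m + 1) x)

/-- real cap with the value one at killed labels -/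
noncomputable def aR (i : ℕ) (x : E) : ℝ := (1 - nk (S.lev i) x) + nk (S.lev i) x * S.cp.A i x

lemma aR_Bd (i : ℕ) : Bd (S.aR i) := by
  have hm : Measurable (nk (S.lev i)) :=
    Measurable.ite (S.measurableSet_Z i) measurable_const measurable_const
  refine ⟨(measurable_const.sub hm).add (hm.mul (S.cp.A_meas i)), 1 + |S.cp.b0|, fun x => ?_⟩
  unfold aR nk
  by_cases h : x ∈ (S.lev i).Z
  · rw [if_pos h]; simp
  · rw [if_neg h]
    have h1 : S.cp.A i x ≤ S.cp.b0 := S.cp.A_le i x h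
    have h2 := (S.cp.A_pos i x).le
    have h3 := le_abs_self S.cp.b0
    rw [abs_of_nonneg (by linarith)]
    linarith

lemma aR_nonneg (i : ℕ) (x : E) : 0 ≤ S.aR i x := by
  unfold aR nk
  split_ifs
  · norm_num
  · have := (S.cp.A_pos i x).le; linarith

lemma ofReal_aR (i : ℕ) (x : E) : ENNReal.ofReal (S.aR i x) = S.a i x := by
  unfold aR a nk
  by_cases h : x ∈ S.cp.Z i
  · have h' : x ∈ (S.lev i).Z := h
    rw [if_pos h', if_pos h]; simp
  · have h' : x ∉ (S.lev i).Z := h
    rw [if_neg h', if_neg h]; simp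

lemma sum_lvs (F : Lev E → ℝ) (a b : ℕ) :
    ((S.lvs a b).map F).sum = ∑ i ∈ Finset.Ico a b, F (S.lev i) := by
  have key : ∀ k a, a + k = b → ((S.lvs a b).map F).sum = ∑ i ∈ Finset.Ico a b, F (S.lev i) := by
    intro k
    induction k with
    | zero => intro a ha; rw [S.lvs_nil (by omega), Finset.Ico_eq_empty (by omega)]; rfl
    | succ k ih =>
      intro a ha
      rw [S.lvs_cons (by omega), List.map_cons, List.sum_cons, ih (a + 1) (by omega),
        Finset.sum_eq_sum_Ico_succ_bot (by omega : a < b)]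
  rcases Nat.le_total a b with h | h
  · exact key (b - a) a (by omega)
  · rw [S.lvs_nil h, Finset.Ico_eq_empty (by omega)]; rfl

/-- the charged excess in terms of the caps -/
lemma ex_le_caps {c0 : ℝ} (hM : 0 ≤ S.M) (hc0 : (S.M + 1) * S.cp.b0 ≤ c0) (a b : ℕ) {X : Set E}
    (hX : MeasurableSet X) (y : E) :
    ex (S.lvs a b) (ind Xᶜ) y
      ≤ 2 * (S.M + 1) * ∑ i ∈ Finset.Ico a b, S.aR i y * ind X y := by
  refine (ex_le_sum (S.good_lvs hM hc0 a b) (ind_UI hX.compl) y).trans ?_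
  rw [S.sum_lvs, Finset.mul_sum]
  refine Finset.sum_le_sum fun i _ => ?_
  rw [one_sub_ind_compl]
  have e1 : 2 * (S.M + 1) * (S.aR i y * ind X y) = (2 * (S.M + 1) * S.aR i y) * ind X y := by ring
  rw [e1]
  refine mul_le_mul_of_nonneg_right ?_ (ind_nonneg X y)
  have h1 := nk_nonneg (S.lev i) y
  have h2 := nk_le_one (S.lev i) y
  have h3 := (S.cp.A_pos i y).le
  unfold aR
  show (1 - nk (S.lev i) y) + 2 * (nk (S.lev i) y * ((S.M + 1) * S.cp.A i y)) ≤ _
  nlinarith [mul_nonneg h1 h3]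

/-- change of the leaf coordinates at a move -/
noncomputable def Tau (m : ℕ) : E ≃ₗᵢ[ℝ] E :=
  (S.el.U S.lf m).trans (S.el.U S.lf (m + 1)).symm

lemma Tau_fix {m r : ℕ} (hr : r ≤ S.lf) (h : S.el.U r (m + 1) = S.el.U r m) :
    Fixes (S.Tau m) (L S.f r) := by
  intro w hw
  unfold Tau
  rw [LinearIsometryEquiv.trans_apply]
  have h1 : S.el.U S.lf m w = S.el.U r m w := H118.Uof_apply (S.el.fix m) hr hw
  have h2 : S.el.U S.lf (m + 1) w = S.el.U r (m + 1) w := H118.Uof_apply (S.el.fix (m + 1)) hr hw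
  rw [h1, ← h, ← h2, LinearIsometryEquiv.symm_apply_apply]

lemma Cg_fix {l m : ℕ} (hl : l ≤ S.lf) : Fixes (S.Cg l m) (L S.f l) := by
  intro w hw
  unfold Cg
  rw [LinearIsometryEquiv.trans_apply]
  have h1 : S.el.U S.lf m w = S.el.U l m w := H118.Uof_apply (S.el.fix m) hl hw
  rw [h1, LinearIsometryEquiv.symm_apply_apply]

/-- level-`l` coordinates at a move which is not seen by level `l` -/
lemma Cg_symm_succ {l m : ℕ} (h : S.el.U l (m + 1) = S.el.U l m) (z : E) :
    (S.Cg l (m + 1)).symm z = S.Tau m ((S.Cg l m).symm z) := by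
  unfold Cg Tau
  simp [LinearIsometryEquiv.symm_trans, h]

lemma ind_Tau {m : ℕ} (h : ¬ S.IsStar m) (y : E) :
    ind (S.X S.lf (m + 1))ᶜ (S.Tau m y) = ind (S.X S.lf m)ᶜ y := by
  have e : S.Tau m y ∈ S.X S.lf (m + 1) ↔ y ∈ S.X S.lf m := by
    unfold X Tau
    rw [mem_preimage, mem_preimage, S.Kb_succ h, LinearIsometryEquiv.trans_apply,
      LinearIsometryEquiv.apply_symm_apply]
  by_cases h1 : y ∈ S.X S.lf m
  · rw [ind_notMem (by simpa using e.2 h1), ind_notMem (by simpa using h1)]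
  · rw [ind_mem (by simpa using fun h' => h1 (e.1 h')), ind_mem (by simpa using h1)]

lemma measurableSet_inn (l r m : ℕ) : MeasurableSet (S.inn l r m) := by
  have e : S.inn l r m = ⋂ i, ⋂ (_ : l < i), ⋂ (_ : i ≤ r), S.om i m := by
    ext x; simp only [inn, mem_setOf_eq, mem_iInter]
  rw [e]
  exact MeasurableSet.iInter fun i => MeasurableSet.iInter fun _ => MeasurableSet.iInter fun _ =>
    H502.measurableSet_om S i m

/-- **the price of a reopening seen by the field of level `l ≤ sv m`** -/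
theorem re_gp {c0 c cs : ℝ} (hM : 1 ≤ S.M) (hc0 : (S.M + 1) * S.cp.b0 ≤ c0)
    (hc : c0 ≤ 1 / 16) (hdc : 16 * (S.d : ℝ) * c0 ≤ 1) (hk : S.cp.kap ≤ 1 / 6)
    (hcc : 4 * (S.M + 1) ≤ c) {l m : ℕ} (hre : S.IsRe m) (hm : m < S.mT) (hl : l ≤ S.sv m) (x : E) :
    ENNReal.ofReal (fr (L S.f l) (fun z => |S.fldL l (m + 1) z - S.fldL l m z|) x)
      ≤ S.Gp cs c l m x := by
  classical
  have hc00 : 0 ≤ c0 := by
    have := S.cp.b0_pos
    nlinarith
  have hM0 : 0 ≤ S.M := by linarith
  have hlf := S.lf_succ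
  set r := S.sv m with hr
  have hrlf : r ≤ S.lf := Nat.findGreatest_le _
  have hr0 : S.tm m + 1 ∉ S.K.nw r := by
    refine Nat.findGreatest_spec (P := fun i => S.tm m + 1 ∉ S.K.nw i) (Nat.zero_le S.lf) ?_
    rw [S.K.nw_zero]; simp
  have hri : ∀ i, i ≤ r → S.tm m + 1 ∉ S.K.nw i := fun i hi h' =>
    hr0 (H118.Elem.K_nw_mono S.K hi h')
  have hU : ∀ i, i ≤ r → S.el.U i (m + 1) = S.el.U i m := fun i hi =>
    S.U_re hre hm (by omega) (hri i hi)
  have hτ : Fixes (S.Tau m) (L S.f r) := S.Tau_fix hrlf (hU r le_rfl)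
  set A := S.lvs (l + 1) (r + 1) with hA
  set B := S.lvs (r + 1) S.d with hB
  have gA : Good c0 A := S.good_lvs hM0 hc0 _ _
  have gB : Good c0 B := S.good_lvs hM0 hc0 _ _
  have hAB : S.lvs (l + 1) S.d = A ++ B := S.lvs_append (by omega) (by omega)
  set g : E → ℝ := ind (S.X S.lf m)ᶜ with hg
  set g' : E → ℝ := ind (S.X S.lf (m + 1))ᶜ with hg'
  have ug : UI g := ind_UI (S.measurableSet_X _ _).compl
  have ug' : UI g' := ind_UI (S.measurableSet_X _ _).compl
  have hgg : ∀ y, g' (S.Tau m y) = g y := S.ind_Tau (hre.not_star S)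
  have e0 : fr (L S.f l) (fun z => |S.fldL l (m + 1) z - S.fldL l m z|) x
      = fr (L S.f l) (fun y => |fl A (fl B g') (S.Tau m y) - fl A (fl B g) y|) x := by
    have e1 : (fun z => |S.fldL l (m + 1) z - S.fldL l m z|)
        = fun z => (fun y => |fl A (fl B g') (S.Tau m y) - fl A (fl B g) y|)
          ((S.Cg l m).symm z) := by
      funext z
      unfold fldL fld
      rw [S.Cg_symm_succ (hU l hl), hAB, fl_append, fl_append]
    rw [e1]
    exact fr_fixes_symm (S.Cg_fix (l := l) (m := m) (by omega))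
      (fun y => |fl A (fl B g') (S.Tau m y) - fl A (fl B g) y|) x
  rw [e0]
  have hWA : ∀ p ∈ A, L S.f l ≤ p.W := fun p hp => by
    obtain ⟨j, h1, h2, rfl⟩ := S.mem_lvs.1 hp
    exact H118.L_mono S.f (by omega)
  have hAW : ∀ p ∈ A, p.W ≤ L S.f r := fun p hp => by
    obtain ⟨j, h1, h2, rfl⟩ := S.mem_lvs.1 hp
    exact H118.L_mono S.f (by omega)
  have hBW : ∀ p ∈ B, L S.f r ≤ p.W := fun p hp => by
    obtain ⟨j, h1, h2, rfl⟩ := S.mem_lvs.1 hp
    exact H118.L_mono S.f (by omega)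
  have hWW : L S.f l ≤ L S.f r := H118.L_mono S.f hl
  have hlenB : 2 * (B.length : ℝ) * c0 ≤ 1 / 2 := by
    have h1 : (B.length : ℝ) ≤ S.d := by
      rw [hB, S.length_lvs]
      exact_mod_cast (by omega : S.d - (r + 1) ≤ S.d)
    nlinarith
  have hG : UI fun z => max (fl B g z) (fl B g' (S.Tau m z)) :=
    UI.max (fl_UI gB hc ug) (UI.comp_isom (fl_UI gB hc ug') _)
  rcases Nat.eq_or_lt_of_le hrlf with hrl | hrl
  · -- nothing is reopened
    have hBn : B = [] := S.lvs_nil (by omega)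
    have key := reopen_abs gA gB hc00 hc hlenB hWA hAW hBW hWW hτ ug ug' hgg
      (o := fun _ => 1) (o' := fun _ => 1) ⟨measurable_const, fun _ => zero_le_one, fun _ => le_rfl⟩
      ⟨measurable_const, fun _ => zero_le_one, fun _ => le_rfl⟩
      (fun y => (vis_UI gA hc hG).le_one y) (fun y => (vis_UI gA hc hG).le_one y) x
    have e2 : ∀ h : E → ℝ, fr (L S.f l) (fun y => (1:ℝ) * ex B h y) x = 0 := by
      intro h
      rw [hBn]
      have : (fun y => (1:ℝ) * ex ([] : List (Lev E)) h y) = fun _ => 0 := by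
        funext y; simp [ex]
      rw [this, fr_const]
    rw [e2, e2, add_zero, mul_zero] at key
    rw [ENNReal.ofReal_of_nonpos key]
    exact zero_le
  · -- visible labels are counted
    have hvis : ∀ y, vis A (fun z => max (fl B g z) (fl B g' (S.Tau m z))) y ≠ 0 →
        y ∈ S.inn l r m ∧ y ∈ S.inn l r (m + 1) := by
      intro y hy
      have h1 := S.vis_lvs hy
      have h2 : ∀ i, l < i → i ≤ r → y ∈ S.om i m ∧ y ∈ S.om i (m + 1) := by
        intro i hi hir
        obtain ⟨h3, h4⟩ := h1 i (by omega) (by omega)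
        refine S.mem_om_re hM hre hm (by omega) (hri i hir) h3 ?_
        have gA' : Good c0 (S.lvs (i + 1) (r + 1)) := S.good_lvs hM0 hc0 _ _
        have h5 := fr_fl_max_le gA' gB hc (H118.L_mono S.f hir) hτ ug ug' hgg y (W := L S.f i)
        have bZ : Bd (ind (S.cp.Z S.lf)) := Bd.of_UI (ind_UI (S.measurableSet_Z _))
        have h6 : ∀ a b, b ≤ S.d → fr (L S.f i) (fun y => 1 - al (S.lvs a b) y) y
            ≤ 2 * S.cp.kap * S.cp.A i y := by
          intro a b hb
          refine (fr_mono ((Bd.const 1).sub (Bd.of_UI (al_UI (S.good_lvs hM0 hc0 a b)))) bZ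
            (fun z => S.one_sub_al_le hb z) y).trans ?_
          exact S.fr_killed (by omega) (by omega) (by linarith) h3
        have h7 := h6 (i + 1) (r + 1) (by omega)
        have h8 := h6 (r + 1) S.d le_rfl
        have hAp := S.cp.A_pos i y
        have h9 : S.M * S.cp.A i y ≤ fr (L S.f i) g y := by nlinarith
        rw [← S.De_real m (by omega) y]
        exact ENNReal.ofReal_le_ofReal h9
      exact ⟨fun i hi hir => (h2 i hi hir).1, fun i hi hir => (h2 i hi hir).2⟩
    have hvo : ∀ (s : Set E), (∀ y, vis A (fun z => max (fl B g z) (fl B g' (S.Tau m z))) y ≠ 0 →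
        y ∈ s) → ∀ y, vis A (fun z => max (fl B g z) (fl B g' (S.Tau m z))) y ≤ ind s y := by
      intro s hs y
      by_cases h0 : vis A (fun z => max (fl B g z) (fl B g' (S.Tau m z))) y = 0
      · rw [h0]; exact ind_nonneg s y
      · rw [ind_mem (hs y h0)]; exact (vis_UI gA hc hG).le_one y
    have key := reopen_abs gA gB hc00 hc hlenB hWA hAW hBW hWW hτ ug ug' hgg
      (o := ind (S.inn l r m)) (o' := ind (S.inn l r (m + 1)))
      (ind_UI (S.measurableSet_inn _ _ _)) (ind_UI (S.measurableSet_inn _ _ _))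
      (hvo _ fun y hy => (hvis y hy).1) (hvo _ fun y hy => (hvis y hy).2) x
    have hsg : sg c0 ^ A.length ≤ 2 := sg_pow_le hc00 hdc (by
      rw [hA, S.length_lvs]; omega) hc
    -- the excess
    have hex : ∀ (o : Set E) (X : Set E), MeasurableSet o → MeasurableSet X →
        fr (L S.f l) (fun y => ind o y * ex B (ind Xᶜ) y) x
          ≤ 2 * (S.M + 1) * ∑ i ∈ Finset.Ico (r + 1) S.d,
            fr (L S.f l) (fun y => ind o y * S.aR i y * ind X y) x := by
      intro o X ho hX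
      have bo := Bd.of_UI (ind_UI ho)
      have bX := Bd.of_UI (ind_UI hX)
      have bF : ∀ i ∈ Finset.Ico (r + 1) S.d, Bd fun y => ind o y * S.aR i y * ind X y :=
        fun i _ => (bo.mul (S.aR_Bd i)).mul bX
      rw [← fr_finset_sum _ bF, ← fr_const_mul]
      refine fr_mono (bo.mul (ex_Bd gB (ind_UI hX.compl)))
        ((Bd.finset_sum _ bF).const_mul _) (fun y => ?_) x
      have h1 := S.ex_le_caps hM0 hc0 (r + 1) S.d hX y
      have h2 := mul_le_mul_of_nonneg_left h1 (ind_nonneg o y)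
      refine h2.trans (le_of_eq ?_)
      rw [Finset.mul_sum, Finset.mul_sum, Finset.mul_sum]
      refine Finset.sum_congr rfl fun i _ => ?_
      ring
    have h1 := hex (S.inn l r m) (S.X S.lf m) (S.measurableSet_inn _ _ _) (S.measurableSet_X _ _)
    have h2 := hex (S.inn l r (m + 1)) (S.X S.lf (m + 1)) (S.measurableSet_inn _ _ _)
      (S.measurableSet_X _ _)
    set s1 := ∑ i ∈ Finset.Ico (r + 1) S.d,
      fr (L S.f l) (fun y => ind (S.inn l r m) y * S.aR i y * ind (S.X S.lf m) y) x with hs1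
    set s2 := ∑ i ∈ Finset.Ico (r + 1) S.d,
      fr (L S.f l) (fun y => ind (S.inn l r (m + 1)) y * S.aR i y
        * ind (S.X S.lf (m + 1)) y) x with hs2
    have hnn : ∀ (o X : Set E) (i : ℕ), 0 ≤ fr (L S.f l) (fun y => ind o y * S.aR i y * ind X y) x :=
      fun o X i => fr_nonneg (fun y => mul_nonneg (mul_nonneg (ind_nonneg _ _) (S.aR_nonneg _ _))
        (ind_nonneg _ _)) x
    have hs1n : 0 ≤ s1 := Finset.sum_nonneg fun i _ => hnn _ _ _
    have hs2n : 0 ≤ s2 := Finset.sum_nonneg fun i _ => hnn _ _ _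
    have h3 : fr (L S.f l) (fun y => |fl A (fl B g') (S.Tau m y) - fl A (fl B g) y|) x
        ≤ c * (s1 + s2) := by
      refine key.trans ?_
      have h4 : 0 ≤ fr (L S.f l) (fun y => ind (S.inn l r m) y * ex B g y) x
          + fr (L S.f l) (fun y => ind (S.inn l r (m + 1)) y * ex B g' y) x :=
        add_nonneg (fr_nonneg (fun y => mul_nonneg (ind_nonneg _ _) (ex_nonneg gB ug y)) x)
          (fr_nonneg (fun y => mul_nonneg (ind_nonneg _ _) (ex_nonneg gB ug' y)) x)
      calc _ ≤ 2 * (fr (L S.f l) (fun y => ind (S.inn l r m) y * ex B g y) x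
          + fr (L S.f l) (fun y => ind (S.inn l r (m + 1)) y * ex B g' y) x) :=
            mul_le_mul_of_nonneg_right hsg h4
        _ ≤ 2 * (2 * (S.M + 1) * s1 + 2 * (S.M + 1) * s2) := by
            have := add_le_add h1 h2; linarith
        _ = 4 * (S.M + 1) * (s1 + s2) := by ring
        _ ≤ _ := mul_le_mul_of_nonneg_right hcc (add_nonneg hs1n hs2n)
    refine (ENNReal.ofReal_le_ofReal h3).trans (le_of_eq ?_)
    have hconv : ∀ (o X : Set E) (i : ℕ), MeasurableSet o → MeasurableSet X →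
        ENNReal.ofReal (fr (L S.f l) (fun y => ind o y * S.aR i y * ind X y) x)
          = fib (L S.f l) (fun y => iw o y * S.a i y * iw X y) x := by
      intro o X i ho hX
      rw [ofReal_fr (((Bd.of_UI (ind_UI ho)).mul (S.aR_Bd i)).mul (Bd.of_UI (ind_UI hX)))
        (fun y => mul_nonneg (mul_nonneg (ind_nonneg _ _) (S.aR_nonneg _ _)) (ind_nonneg _ _))]
      congr 1
      funext y
      rw [ENNReal.ofReal_mul (mul_nonneg (ind_nonneg _ _) (S.aR_nonneg _ _)),
        ENNReal.ofReal_mul (ind_nonneg _ _), ofReal_ind, ofReal_ind, S.ofReal_aR]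
    unfold Gp
    rw [if_neg (hre.not_star S), if_pos hre]
    rw [ENNReal.ofReal_mul (by nlinarith), ENNReal.ofReal_add hs1n hs2n, hs1, hs2,
      ENNReal.ofReal_sum_of_nonneg (fun i _ => hnn _ _ _),
      ENNReal.ofReal_sum_of_nonneg (fun i _ => hnn _ _ _), ← Finset.sum_add_distrib]
    congr 1
    have eI : Finset.Ico (r + 1) S.d = Finset.Ioc r S.lf := by
      ext i; simp only [Finset.mem_Ico, Finset.mem_Ioc]; omega
    rw [eI]
    refine Finset.sum_congr rfl fun i _ => ?_
    rw [hconv _ _ i (S.measurableSet_inn _ _ _) (S.measurableSet_X _ _),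
      hconv _ _ i (S.measurableSet_inn _ _ _) (S.measurableSet_X _ _)]

end Vale.Agent.P262.M1.Sys
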