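import Vale.Agent.P262.H654.FieldB

/-!
# P262, milestone 1, FIELD part C: the perturbation theorem (no compounding)
-/

set_option linter.all false

open MeasureTheory ProbabilityTheory Set
open scoped ENNReal RealInnerProductSpace Classical

namespace Vale.Agent.P262.H654

open Vale.Agent.P262.H395 (mix)
open Vale.Agent.P262.H847 (UI)

variable {E : Type*} [NormedAddCommGroup E] [InnerProductSpace ℝ E] [FiniteDimensional ℝ E]
  [MeasurableSpace E] [BorelSpace E]

variable {c0 : ℝ} {p : Lev E} {L L' : List (Lev E)} {g g' : E → ℝ} {W W' : Submodule ℝ E} {x y : E}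

lemma UI.max {f g : E → ℝ} (hf : UI f) (hg : UI g) : UI fun x => Max.max (f x) (g x) :=
  ⟨hf.meas.max hg.meas, fun x => (hf.nonneg x).trans (le_max_left _ _),
    fun x => max_le (hf.le_one x) (hg.le_one x)⟩

lemma max_sub_add (u v : ℝ) : (max u v - u) + (max u v - v) = |v - u| := by
  rcases le_total u v with h | h
  · rw [max_eq_right h, abs_of_nonneg (by linarith)]; ring
  · rw [max_eq_left h, abs_of_nonpos (by linarith)]; ring

/-- **(P1')** arbitrary changes of the payoff, `L¹` form -/
theorem fr_abs_fl_sub_le (hL : Good c0 L) (hc0 : 0 ≤ c0) (hc : c0 ≤ 1 / 16) (hg : UI g)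
    (hg' : UI g') (hW : ∀ p ∈ L, W ≤ p.W) (x : E) :
    fr W (fun y => |fl L g' y - fl L g y|) x
      ≤ sg c0 ^ L.length
        * fr W (fun y => vis L (fun z => max (g z) (g' z)) y * |g' y - g y|) x := by
  set G : E → ℝ := fun z => max (g z) (g' z) with hG
  have hGU : UI G := UI.max hg hg'
  have a1 : ∀ z, g z ≤ G z := fun z => le_max_left _ _
  have a2 : ∀ z, g' z ≤ G z := fun z => le_max_right _ _
  have u := fl_UI hL hc hg
  have u' := fl_UI hL hc hg'
  have U := fl_UI hL hc hGU
  have V := vis_UI hL hc hGU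
  have h1 := fr_fl_sub_le hL hc0 hc hg hGU a1 hW x
  have h2 := fr_fl_sub_le hL hc0 hc hg' hGU a2 hW x
  have b1 : Bd fun y => fl L G y - fl L g y := (Bd.of_UI U).sub (Bd.of_UI u)
  have b2 : Bd fun y => fl L G y - fl L g' y := (Bd.of_UI U).sub (Bd.of_UI u')
  have c1 : Bd fun y => vis L G y * (G y - g y) :=
    (Bd.of_UI V).mul ((Bd.of_UI hGU).sub (Bd.of_UI hg))
  have c2 : Bd fun y => vis L G y * (G y - g' y) :=
    (Bd.of_UI V).mul ((Bd.of_UI hGU).sub (Bd.of_UI hg'))
  calc fr W (fun y => |fl L g' y - fl L g y|) x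
      ≤ fr W (fun y => (fl L G y - fl L g y) + (fl L G y - fl L g' y)) x := by
        refine fr_mono ((Bd.of_UI u').sub (Bd.of_UI u)).abs (b1.add b2) (fun y => ?_) x
        have e1 := fl_mono hL hc hg hGU a1 y
        have e2 := fl_mono hL hc hg' hGU a2 y
        rw [abs_le]
        constructor <;> linarith
    _ = fr W (fun y => fl L G y - fl L g y) x + fr W (fun y => fl L G y - fl L g' y) x :=
        fr_add b1 b2 x
    _ ≤ sg c0 ^ L.length * fr W (fun y => vis L G y * (G y - g y)) x
        + sg c0 ^ L.length * fr W (fun y => vis L G y * (G y - g' y)) x := add_le_add h1 h2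
    _ = sg c0 ^ L.length * fr W (fun y => vis L G y * (G y - g y) + vis L G y * (G y - g' y)) x := by
        rw [fr_add c1 c2]; ring
    _ = _ := by
        congr 2
        funext y
        rw [← mul_add, max_sub_add]

/-- the weights depend on the conditional mean of the payoff only -/
lemma cond_aux (hL : Good c0 L) (hc : c0 ≤ 1 / 16) (hg : UI g) (hb : ∀ p ∈ L, p.W ≤ W') :
    (InvR W' (wt L g) ∧ InvR W' (kt L g) ∧ InvR W' (vis L g))
      ∧ (wt L g = wt L (fr W' g) ∧ kt L g = kt L (fr W' g) ∧ vis L g = vis L (fr W' g))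
      ∧ ∀ W, W ≤ W' → fr W (fl L g) = fr W (fl L (fr W' g)) := by
  have hm : UI (fr W' g) := UI.fr hg W'
  induction L with
  | nil =>
    refine ⟨⟨fun _ _ _ => rfl, fun _ _ _ => rfl, fun _ _ _ => rfl⟩, ⟨rfl, rfl, rfl⟩, ?_⟩
    intro W hW
    funext x
    exact (fr_tower hW (Bd.of_UI hg) x).symm
  | cons p L ih =>
    have hLL := hL
    obtain ⟨hp, hab, hL⟩ := hL
    obtain ⟨⟨i1, i2, i3⟩, ⟨j1, j2, j3⟩, k⟩ := ih hL (fun q hq => hb q (List.mem_cons_of_mem _ hq))
    have hpW := hb p List.mem_cons_self
    have hF : fr p.W (fl L g) = fr p.W (fl L (fr W' g)) := k p.W hpW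
    have ip := (ph_inv hp (invR_fr p.W (fl L g))).mono hpW
    have iv := (vi_inv hp (invR_fr p.W (fl L g))).mono hpW
    have ink := (nk_inv hp).mono hpW
    have e1 : wt (p :: L) g = fun x => ph p (fr p.W (fl L g)) x * wt L g x :=
      funext fun x => wt_cons
    have e2 : kt (p :: L) g = fun x => (1 - nk p x) + ph p (fr p.W (fl L g)) x * kt L g x :=
      funext fun x => kt_cons
    have e3 : vis (p :: L) g = fun x => vi p (fr p.W (fl L g)) x * vis L g x :=
      funext fun x => vis_cons
    have w1 : InvR W' (wt (p :: L) g) := by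
      intro x w hw; rw [e1]; simp only [ip x w hw, i1 x w hw]
    have w2 : InvR W' (kt (p :: L) g) := by
      intro x w hw; rw [e2]; simp only [ip x w hw, i2 x w hw, ink x w hw]
    have w3 : InvR W' (vis (p :: L) g) := by
      intro x w hw; rw [e3]; simp only [iv x w hw, i3 x w hw]
    have f1 : wt (p :: L) g = wt (p :: L) (fr W' g) := by
      funext x; rw [wt_cons, wt_cons, hF, j1]
    have f2 : kt (p :: L) g = kt (p :: L) (fr W' g) := by
      funext x; rw [kt_cons, kt_cons, hF, j2]
    have f3 : vis (p :: L) g = vis (p :: L) (fr W' g) := by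
      funext x; rw [vis_cons, vis_cons, hF, j3]
    refine ⟨⟨w1, w2, w3⟩, ⟨f1, f2, f3⟩, ?_⟩
    intro W hW
    funext x
    have ug := fl_UI hLL hc hg
    have um := fl_UI hLL hc hm
    rw [← fr_tower hW (Bd.of_UI ug) x, ← fr_tower hW (Bd.of_UI um) x]
    congr 1
    funext y
    have bw := Bd.of_UI (wt_UI hLL hc hg)
    have bk := Bd.of_UI (kt_UI hLL hc hg)
    have a1 : fl (p :: L) g = fun y => wt (p :: L) g y * g y + kt (p :: L) g y :=
      funext fun y => fl_eq _ _ y
    have a2 : fl (p :: L) (fr W' g)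
        = fun y => wt (p :: L) g y * fr W' g y + kt (p :: L) g y := by
      funext y; rw [fl_eq, ← f1, ← f2]
    rw [a1, a2, fr_add (bw.mul (Bd.of_UI hg)) bk, fr_add (bw.mul (Bd.of_UI hm)) bk, fr_mul w1,
      fr_mul w1]
    rw [fr_self (invR_fr W' g)]

/-- **(P2)** the perturbation theorem in soft form: all levels of `L` lie below `W'`, the payoffs
`g`, `g'` are arbitrary, `w` is any test function with `|w| ≤ 1`. -/
theorem pert (hL : Good c0 L) (hc0 : 0 ≤ c0) (hc : c0 ≤ 1 / 16) (hg : UI g) (hg' : UI g')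
    (hW : ∀ p ∈ L, W ≤ p.W) (hb : ∀ p ∈ L, p.W ≤ W') (hWW : W ≤ W') {w : E → ℝ}
    (hw : Measurable w) (hw1 : ∀ x, |w x| ≤ 1) (x : E) :
    |fr W (fun y => (fl L g' y - fl L g y) * w y) x|
      ≤ fr W (fun y => vis L (fun z => max (fr W' g z) (fr W' g' z)) y
          * |fr W' (fun z => (g' z - g z) * w z) y|) x
        + sg c0 ^ L.length * fr W (fun y => vis L (fun z => max (fr W' g z) (fr W' g' z)) y
          * |fr W' g' y - fr W' g y|) x := by
  set m : E → ℝ := fr W' g with hm_def
  set m' : E → ℝ := fr W' g' with hm'_def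
  have hm : UI m := UI.fr hg W'
  have hm' : UI m' := UI.fr hg' W'
  have im : InvR W' m := invR_fr _ _
  have im' : InvR W' m' := invR_fr _ _
  set G : E → ℝ := fun z => max (m z) (m' z) with hG
  have hGU : UI G := UI.max hm hm'
  have a1 : ∀ z, m z ≤ G z := fun z => le_max_left _ _
  have a2 : ∀ z, m' z ≤ G z := fun z => le_max_right _ _
  obtain ⟨⟨i1, i2, _⟩, ⟨j1, j2, _⟩, _⟩ := cond_aux hL hc hg hb
  obtain ⟨⟨i1', i2', _⟩, ⟨j1', j2', _⟩, _⟩ := cond_aux hL hc hg' hb
  have uw := wt_UI hL hc hg
  have uw' := wt_UI hL hc hg'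
  have uk := kt_UI hL hc hg
  have uk' := kt_UI hL hc hg'
  have Uw := wt_UI hL hc hGU
  have Uk := kt_UI hL hc hGU
  have V := vis_UI hL hc hGU
  have bw : Bd w := ⟨hw, 1, hw1⟩
  set Ψ : E → ℝ := fun y => if m y ≤ m' y then wt L g' y else wt L g y with hΨ
  set gs : E → ℝ := fun y => if m y ≤ m' y then g y else g' y with hgs
  have mset : MeasurableSet {y | m y ≤ m' y} := measurableSet_le hm.meas hm'.meas
  have hΨU : UI Ψ := by
    refine ⟨Measurable.ite mset uw'.meas uw.meas, fun y => ?_, fun y => ?_⟩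
    · simp only [hΨ]; split_ifs; exacts [uw'.nonneg y, uw.nonneg y]
    · simp only [hΨ]; split_ifs; exacts [uw'.le_one y, uw.le_one y]
  have hΨi : InvR W' Ψ := by
    intro y v hv
    simp only [hΨ, im y v hv, im' y v hv, i1 y v hv, i1' y v hv]
  have hgsU : UI gs := by
    refine ⟨Measurable.ite mset hg.meas hg'.meas, fun y => ?_, fun y => ?_⟩
    · simp only [hgs]; split_ifs; exacts [hg.nonneg y, hg'.nonneg y]
    · simp only [hgs]; split_ifs; exacts [hg.le_one y, hg'.le_one y]
  -- the weights for the means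
  have wle : ∀ y, wt L g y ≤ wt L G y := fun y => by
    rw [j1]; exact wt_mono hL hc hm hGU a1 y
  have wle' : ∀ y, wt L g' y ≤ wt L G y := fun y => by
    rw [j1']; exact wt_mono hL hc hm' hGU a2 y
  have kle : ∀ y, kt L g y ≤ kt L G y := fun y => by
    rw [j2]; exact kt_mono hL hc hm hGU a1 y
  have kle' : ∀ y, kt L g' y ≤ kt L G y := fun y => by
    rw [j2']; exact kt_mono hL hc hm' hGU a2 y
  have Ψle : ∀ y, Ψ y ≤ vis L G y := by
    intro y
    have h1 := wt_le_vis hL hc hGU y
    simp only [hΨ]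
    split_ifs
    · exact (wle' y).trans h1
    · exact (wle y).trans h1
  -- decomposition
  set r : E → ℝ := fun y => (wt L g' y - wt L g y) * gs y + (kt L g' y - kt L g y) with hr
  have br : Bd r := (((Bd.of_UI uw').sub (Bd.of_UI uw)).mul (Bd.of_UI hgsU)).add
    ((Bd.of_UI uk').sub (Bd.of_UI uk))
  have bd : Bd fun y => g' y - g y := (Bd.of_UI hg').sub (Bd.of_UI hg)
  have e1 : (fun y => (fl L g' y - fl L g y) * w y)
      = fun y => Ψ y * ((g' y - g y) * w y) + r y * w y := by
    funext y
    rw [fl_eq L g' y, fl_eq L g y]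
    simp only [hΨ, hr, hgs]
    split_ifs <;> ring
  have e2 : fr W (fun y => Ψ y * ((g' y - g y) * w y)) x
      = fr W (fun y => Ψ y * fr W' (fun z => (g' z - g z) * w z) y) x :=
    (fr_mul_tower hWW hΨi (Bd.of_UI hΨU) (bd.mul bw) x).symm
  rw [e1, fr_add ((Bd.of_UI hΨU).mul (bd.mul bw)) (br.mul bw), e2]
  refine (abs_add_le _ _).trans (add_le_add ?_ ?_)
  · refine (abs_fr_le _ x).trans (fr_mono ?_ ?_ (fun y => ?_) x)
    · exact ((Bd.of_UI hΨU).mul ((bd.mul bw).fr W')).abs
    · exact (Bd.of_UI V).mul ((bd.mul bw).fr W').abs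
    · rw [abs_mul, abs_of_nonneg (hΨU.nonneg y)]
      exact mul_le_mul_of_nonneg_right (Ψle y) (abs_nonneg _)
  · -- the remainder
    have bG : Bd fun y => |wt L g' y - wt L g y| * gs y + |kt L g' y - kt L g y| :=
      ((((Bd.of_UI uw').sub (Bd.of_UI uw)).abs).mul (Bd.of_UI hgsU)).add
        ((Bd.of_UI uk').sub (Bd.of_UI uk)).abs
    have s1 : |fr W (fun y => r y * w y) x|
        ≤ fr W (fun y => |wt L g' y - wt L g y| * gs y + |kt L g' y - kt L g y|) x := by
      refine (abs_fr_le _ x).trans (fr_mono (br.mul bw).abs bG (fun y => ?_) x)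
      rw [abs_mul]
      have h1 : |r y| ≤ |wt L g' y - wt L g y| * gs y + |kt L g' y - kt L g y| := by
        simp only [hr]
        refine (abs_add_le _ _).trans ?_
        rw [abs_mul, abs_of_nonneg (hgsU.nonneg y)]
      calc |r y| * |w y| ≤ |r y| * 1 := mul_le_mul_of_nonneg_left (hw1 y) (abs_nonneg _)
        _ ≤ _ := by rw [mul_one]; exact h1
    -- conditional mean of gs
    have egs : ∀ y, fr W' gs y = min (m y) (m' y) := by
      intro y
      have e3 : gs = fun z => (if m z ≤ m' z then (1:ℝ) else 0) * g z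
          + (if m z ≤ m' z then (0:ℝ) else 1) * g' z := by
        funext z; simp only [hgs]; split_ifs <;> ring
      have j1 : InvR W' fun z => (if m z ≤ m' z then (1:ℝ) else 0) := by
        intro z v hv; simp only [im z v hv, im' z v hv]
      have j2 : InvR W' fun z => (if m z ≤ m' z then (0:ℝ) else 1) := by
        intro z v hv; simp only [im z v hv, im' z v hv]
      have b1 : Bd fun z => (if m z ≤ m' z then (1:ℝ) else 0) :=
        ⟨Measurable.ite mset measurable_const measurable_const, 1, fun z => by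
          split_ifs <;> norm_num⟩
      have b2 : Bd fun z => (if m z ≤ m' z then (0:ℝ) else 1) :=
        ⟨Measurable.ite mset measurable_const measurable_const, 1, fun z => by
          split_ifs <;> norm_num⟩
      rw [e3, fr_add (b1.mul (Bd.of_UI hg)) (b2.mul (Bd.of_UI hg')), fr_mul j1, fr_mul j2]
      show _ * m y + _ * m' y = _
      by_cases h : m y ≤ m' y
      · rw [if_pos h, if_pos h, min_eq_left h]; ring
      · rw [if_neg h, if_neg h, min_eq_right (by linarith)]; ring
    have iabs : InvR W' fun y => |wt L g' y - wt L g y| := by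
      intro y v hv; simp only [i1 y v hv, i1' y v hv]
    have babs : Bd fun y => |wt L g' y - wt L g y| := ((Bd.of_UI uw').sub (Bd.of_UI uw)).abs
    have bkab : Bd fun y => |kt L g' y - kt L g y| := ((Bd.of_UI uk').sub (Bd.of_UI uk)).abs
    have s2 : fr W (fun y => |wt L g' y - wt L g y| * gs y + |kt L g' y - kt L g y|) x
        = fr W (fun y => |wt L g' y - wt L g y| * min (m y) (m' y)
          + |kt L g' y - kt L g y|) x := by
      have bmin : Bd fun y => min (m y) (m' y) := by
        have := (Bd.of_UI hgsU).fr W'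
        have e : fr W' gs = fun y => min (m y) (m' y) := funext egs
        rwa [e] at this
      rw [fr_add (babs.mul (Bd.of_UI hgsU)) bkab, fr_add (babs.mul bmin) bkab,
        ← fr_mul_tower hWW iabs babs (Bd.of_UI hgsU) x]
      simp_rw [egs]
    have FG := fl_UI hL hc hGU
    have Fm := fl_UI hL hc hm
    have Fm' := fl_UI hL hc hm'
    have bmin' : Bd fun y => |wt L g' y - wt L g y| * min (m y) (m' y)
          + |kt L g' y - kt L g y| := by
      refine ⟨?_, 2, fun y => ?_⟩
      · exact (babs.meas.mul (hm.meas.min hm'.meas)).add bkab.meas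
      · have h1 := uw.nonneg y
        have h2 := uw'.nonneg y
        have h3 := uw.le_one y
        have h4 := uw'.le_one y
        have h5 : |wt L g' y - wt L g y| ≤ 1 := by rw [abs_le]; constructor <;> linarith
        have h6 : |kt L g' y - kt L g y| ≤ 1 := by
          have := uk.nonneg y
          have := uk'.nonneg y
          have := uk.le_one y
          have := uk'.le_one y
          rw [abs_le]; constructor <;> linarith
        have h7 : 0 ≤ min (m y) (m' y) := le_min (hm.nonneg y) (hm'.nonneg y)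
        have h8 : min (m y) (m' y) ≤ 1 := (min_le_left _ _).trans (hm.le_one y)
        have h9 : |wt L g' y - wt L g y| * min (m y) (m' y) ≤ 1 := mul_le_one₀ h5 h7 h8
        have h10 : 0 ≤ |wt L g' y - wt L g y| * min (m y) (m' y) :=
          mul_nonneg (abs_nonneg _) h7
        rw [abs_of_nonneg (add_nonneg h10 (abs_nonneg _))]
        linarith
    have s3 : fr W (fun y => |wt L g' y - wt L g y| * min (m y) (m' y)
          + |kt L g' y - kt L g y|) x
        ≤ fr W (fun y => (fl L G y - fl L m y) + (fl L G y - fl L m' y)) x := by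
      refine fr_mono bmin' (((Bd.of_UI FG).sub (Bd.of_UI Fm)).add
        ((Bd.of_UI FG).sub (Bd.of_UI Fm'))) (fun y => ?_) x
      rw [fl_eq L G y, fl_eq L m y, fl_eq L m' y, ← j1, ← j2, ← j1', ← j2']
      have A := wle y
      have A' := wle' y
      have B := kle y
      have B' := kle' y
      have C0 := uw.nonneg y
      have C0' := uw'.nonneg y
      have D0 := hm.nonneg y
      have D0' := hm'.nonneg y
      have hGy : G y = max (m y) (m' y) := rfl
      have hk : |kt L g' y - kt L g y| ≤ (kt L G y - kt L g y) + (kt L G y - kt L g' y) := by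
        rw [abs_le]; constructor <;> linarith
      have hwm : |wt L g' y - wt L g y| ≤ (wt L G y - wt L g y) + (wt L G y - wt L g' y) := by
        rw [abs_le]; constructor <;> linarith
      have hmin0 : 0 ≤ min (m y) (m' y) := le_min D0 D0'
      have h1 := mul_le_mul_of_nonneg_right hwm hmin0
      have h2 : (wt L G y - wt L g y) * min (m y) (m' y) ≤ (wt L G y - wt L g y) * m y :=
        mul_le_mul_of_nonneg_left (min_le_left _ _) (by linarith)
      have h3 : (wt L G y - wt L g' y) * min (m y) (m' y) ≤ (wt L G y - wt L g' y) * m' y :=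
        mul_le_mul_of_nonneg_left (min_le_right _ _) (by linarith)
      have h4 : wt L G y * m y ≤ wt L G y * G y :=
        mul_le_mul_of_nonneg_left (a1 y) (Uw.nonneg y)
      have h5 : wt L G y * m' y ≤ wt L G y * G y :=
        mul_le_mul_of_nonneg_left (a2 y) (Uw.nonneg y)
      nlinarith
    have s4 := fr_fl_sub_le hL hc0 hc hm hGU a1 hW x
    have s5 := fr_fl_sub_le hL hc0 hc hm' hGU a2 hW x
    have c1 : Bd fun y => vis L G y * (G y - m y) :=
      (Bd.of_UI V).mul ((Bd.of_UI hGU).sub (Bd.of_UI hm))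
    have c2 : Bd fun y => vis L G y * (G y - m' y) :=
      (Bd.of_UI V).mul ((Bd.of_UI hGU).sub (Bd.of_UI hm'))
    calc |fr W (fun y => r y * w y) x|
        ≤ fr W (fun y => (fl L G y - fl L m y) + (fl L G y - fl L m' y)) x :=
          (s1.trans_eq s2).trans s3
      _ = fr W (fun y => fl L G y - fl L m y) x + fr W (fun y => fl L G y - fl L m' y) x :=
          fr_add ((Bd.of_UI FG).sub (Bd.of_UI Fm)) ((Bd.of_UI FG).sub (Bd.of_UI Fm')) x
      _ ≤ sg c0 ^ L.length * fr W (fun y => vis L G y * (G y - m y)) x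
          + sg c0 ^ L.length * fr W (fun y => vis L G y * (G y - m' y)) x := add_le_add s4 s5
      _ = sg c0 ^ L.length
          * fr W (fun y => vis L G y * (G y - m y) + vis L G y * (G y - m' y)) x := by
          rw [fr_add c1 c2]; ring
      _ = _ := by
          congr 2
          funext y
          rw [← mul_add, max_sub_add]

end Vale.Agent.P262.H654
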