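import Vale.Agent.P262.H395.Fib
import Vale.Agent.P262.H847.Ehrhard

/-!
# P262, milestone 1, FIELD part A: the cut-off truncation and real valued fibre averages

`tr c y` is `0` for `y ≤ c`, linear from `(c, 0)` to `(1/8, 1/8)` and `y` for `y ≥ 1/8`.
`fr W f x = ∫ f (P_W x + (z - P_W z)) dγ(z)` is the real valued fibre average.
-/

set_option linter.all false

open MeasureTheory ProbabilityTheory Set
open scoped ENNReal RealInnerProductSpace

namespace Vale.Agent.P262.H654

open Vale.Agent.P262.H395 (mix)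
open Vale.Agent.P262.H847 (UI)

/-! ### scalars -/

/-- the cut-off truncation -/
noncomputable def tr (c y : ℝ) : ℝ :=
  if y ≤ c then 0 else if y < 1 / 8 then (y - c) / (1 - 8 * c) else y

/-- the weight of a level -/
noncomputable def phi (c y : ℝ) : ℝ := tr c y / y

/-- the slope bound -/
noncomputable def sg (c : ℝ) : ℝ := 1 / (1 - 8 * c)

section scalar

variable {c x y : ℝ}

lemma sg_pos (hc' : c ≤ 1 / 16) : 0 < sg c := by
  unfold sg
  have : 0 < 1 - 8 * c := by linarith
  positivity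

lemma one_le_sg (hc : 0 ≤ c) (hc' : c ≤ 1 / 16) : 1 ≤ sg c := by
  unfold sg
  rw [le_div_iff₀ (by linarith)]
  linarith

lemma sg_mono {c' : ℝ} (h : c ≤ c') (hc' : c' ≤ 1 / 16) : sg c ≤ sg c' := by
  unfold sg
  exact one_div_le_one_div_of_le (by linarith) (by linarith)

lemma tr_zero (h : y ≤ c) : tr c y = 0 := by unfold tr; rw [if_pos h]

lemma tr_self (hc' : c ≤ 1 / 16) (h : 1 / 8 ≤ y) : tr c y = y := by
  unfold tr
  rw [if_neg (by linarith), if_neg (by linarith)]

lemma tr_mid (h : c < y) (h' : y < 1 / 8) : tr c y = (y - c) / (1 - 8 * c) := by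
  unfold tr
  rw [if_neg (not_le.mpr h), if_pos h']

/-- the three cases -/
lemma tr_cases (hc' : c ≤ 1 / 16) (y : ℝ) :
    (y ≤ c ∧ tr c y = 0) ∨ (c < y ∧ y < 1 / 8 ∧ tr c y = (y - c) * sg c)
      ∨ (1 / 8 ≤ y ∧ tr c y = y) := by
  rcases le_or_gt y c with h | h
  · exact Or.inl ⟨h, tr_zero h⟩
  · rcases lt_or_ge y (1 / 8) with h' | h'
    · refine Or.inr (Or.inl ⟨h, h', ?_⟩)
      rw [tr_mid h h']
      unfold sg
      ring
    · exact Or.inr (Or.inr ⟨h', tr_self hc' h'⟩)

lemma sg_mul (hc' : c ≤ 1 / 16) : sg c * (1 - 8 * c) = 1 := by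
  unfold sg
  rw [one_div, inv_mul_cancel₀]
  linarith

lemma tr_nonneg (hc : 0 ≤ c) (hc' : c ≤ 1 / 16) (y : ℝ) : 0 ≤ tr c y := by
  rcases tr_cases hc' y with ⟨_, h⟩ | ⟨h1, _, h⟩ | ⟨h1, h⟩
  · rw [h]
  · rw [h]; exact mul_nonneg (by linarith) (sg_pos hc').le
  · rw [h]; linarith

lemma tr_le (hc : 0 ≤ c) (hc' : c ≤ 1 / 16) (hy : 0 ≤ y) : tr c y ≤ y := by
  rcases tr_cases hc' y with ⟨_, h⟩ | ⟨h1, h2, h⟩ | ⟨h1, h⟩
  · rw [h]; exact hy
  · rw [h]
    have e : y = y * (sg c * (1 - 8 * c)) := by rw [sg_mul hc', mul_one]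
    have : (y - c) * sg c ≤ (y * (1 - 8 * c)) * sg c :=
      mul_le_mul_of_nonneg_right (by nlinarith) (sg_pos hc').le
    nlinarith
  · rw [h]

lemma sub_tr_le (hc : 0 ≤ c) (hc' : c ≤ 1 / 16) (hy : 0 ≤ y) : y - tr c y ≤ c := by
  rcases tr_cases hc' y with ⟨h0, h⟩ | ⟨h1, h2, h⟩ | ⟨h1, h⟩
  · rw [h]; linarith
  · rw [h]
    have e := sg_mul hc'
    have h3 := one_le_sg hc hc'
    -- y - (y - c) s ≤ c  iff (y - c) ≤ (y - c) s
    nlinarith
  · rw [h]; linarith

lemma tr_mono (hc : 0 ≤ c) (hc' : c ≤ 1 / 16) (h : x ≤ y) : tr c x ≤ tr c y := by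
  rcases tr_cases hc' y with ⟨h0, e⟩ | ⟨h1, h2, e⟩ | ⟨h1, e⟩
  · rw [e, tr_zero (h.trans h0)]
  · rcases tr_cases hc' x with ⟨h3, e'⟩ | ⟨h3, h4, e'⟩ | ⟨h3, e'⟩
    · rw [e']; exact tr_nonneg hc hc' y
    · rw [e, e']; exact mul_le_mul_of_nonneg_right (by linarith) (sg_pos hc').le
    · linarith
  · rcases tr_cases hc' x with ⟨h3, e'⟩ | ⟨h3, h4, e'⟩ | ⟨h3, e'⟩
    · rw [e']; exact tr_nonneg hc hc' y
    · rw [e]; exact (tr_le hc hc' (by linarith)).trans h
    · rw [e, e']; exact h

/-- `tr` has slope at most `sg c`, and vanishes below the cap -/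
lemma tr_slope (hc : 0 ≤ c) (hc' : c ≤ 1 / 16) (hx : 0 ≤ x) (h : x ≤ y) :
    tr c y - tr c x ≤ (if c < y then sg c else 0) * (y - x) := by
  have hs := sg_pos hc'
  have hs1 := one_le_sg hc hc'
  have e0 := sg_mul hc'
  rcases tr_cases hc' y with ⟨h0, e⟩ | ⟨h1, h2, e⟩ | ⟨h1, e⟩
  · rw [e, tr_zero (h.trans h0), if_neg (not_lt.mpr h0)]; simp
  · rw [if_pos h1]
    rcases tr_cases hc' x with ⟨h3, e'⟩ | ⟨h3, h4, e'⟩ | ⟨h3, e'⟩
    · rw [e, e']; nlinarith
    · rw [e, e']; nlinarith
    · have : x = y := by linarith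
      subst this; simp
  · rw [if_pos (by linarith)]
    rcases tr_cases hc' x with ⟨h3, e'⟩ | ⟨h3, h4, e'⟩ | ⟨h3, e'⟩
    · rw [e, e']
      have h5 : y * (1 - 8 * c) ≤ y - x := by nlinarith
      have h6 := mul_le_mul_of_nonneg_left h5 hs.le
      nlinarith
    · rw [e, e']
      have h5 : y * (1 - 8 * c) ≤ y - c := by nlinarith
      have h6 := mul_le_mul_of_nonneg_left h5 hs.le
      nlinarith
    · rw [e, e']; nlinarith

lemma phi_zero (h : y ≤ c) : phi c y = 0 := by unfold phi; rw [tr_zero h, zero_div]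

lemma phi_mul (hc : 0 ≤ c) (hy : 0 ≤ y) : phi c y * y = tr c y := by
  unfold phi
  rcases eq_or_lt_of_le hy with h | h
  · rw [← h, tr_zero hc]; simp
  · rw [div_mul_cancel₀ _ h.ne']

lemma phi_nonneg (hc : 0 ≤ c) (hc' : c ≤ 1 / 16) (hy : 0 ≤ y) : 0 ≤ phi c y :=
  div_nonneg (tr_nonneg hc hc' y) hy

lemma phi_le_one (hc : 0 ≤ c) (hc' : c ≤ 1 / 16) (hy : 0 ≤ y) : phi c y ≤ 1 := by
  unfold phi
  exact div_le_one_of_le₀ (tr_le hc hc' hy) hy

lemma phi_self (hc' : c ≤ 1 / 16) (h : 1 / 8 ≤ y) : phi c y = 1 := by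
  unfold phi
  rw [tr_self hc' h, div_self (by linarith)]

lemma phi_mid (hc : 0 ≤ c) (hc' : c ≤ 1 / 16) (h : c < y) (h' : y < 1 / 8) :
    phi c y = sg c * (1 - c / y) := by
  unfold phi
  rw [tr_mid h h']
  have hy : y ≠ 0 := by linarith
  have h1 : 1 - 8 * c ≠ 0 := by linarith
  unfold sg
  field_simp

/-- the missing weight -/
lemma one_sub_phi_mul (hc : 0 ≤ c) (hc' : c ≤ 1 / 16) (hy : 0 ≤ y) : (1 - phi c y) * y ≤ c := by
  have h1 := phi_mul hc hy
  have h2 := sub_tr_le hc hc' hy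
  nlinarith

/-- the change of the weight, tested against the smaller value -/
lemma phi_diff (hc : 0 ≤ c) (hc' : c ≤ 1 / 16) (hx : 0 ≤ x) (h : x ≤ y) :
    (phi c y - phi c x) * x ≤ sg c * (c * ((y - x) / y)) := by
  have hs := sg_pos hc'
  have hs1 := one_le_sg hc hc'
  have e0 := sg_mul hc'
  have hr : 0 ≤ sg c * (c * ((y - x) / y)) := by
    have : 0 ≤ (y - x) / y := div_nonneg (by linarith) (hx.trans h)
    positivity
  rcases le_or_gt y c with h0 | h0
  · rw [phi_zero h0, phi_zero (h.trans h0), sub_self, zero_mul]; exact hr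
  have hy : 0 < y := by linarith
  have key : ∀ t, t * y ≤ sg c * (c * (y - x)) → t ≤ sg c * (c * ((y - x) / y)) := by
    intro t ht
    have e1 : sg c * (c * ((y - x) / y)) = sg c * (c * (y - x)) / y := by ring
    rw [e1, le_div_iff₀ hy]
    exact ht
  apply key
  rcases lt_or_ge y (1 / 8) with h1 | h1
  · rcases le_or_gt x c with h2 | h2
    · rw [phi_zero h2, sub_zero, phi_mid hc hc' h0 h1]
      have e1 : sg c * (1 - c / y) * x * y = sg c * (x * (y - c)) := by
        field_simp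
      rw [e1]
      apply mul_le_mul_of_nonneg_left _ hs.le
      nlinarith
    · have hx0 : 0 < x := by linarith
      rw [phi_mid hc hc' h0 h1, phi_mid hc hc' h2 (by linarith)]
      have e1 : (sg c * (1 - c / y) - sg c * (1 - c / x)) * x * y = sg c * (c * (y - x)) := by
        field_simp
        ring
      rw [e1]
  · rw [phi_self hc' h1]
    rcases le_or_gt x c with h2 | h2
    · rw [phi_zero h2, sub_zero, one_mul]
      -- x y ≤ s c (y - x)
      have h3 : y * (1 - 8 * c) ≤ y - x := by nlinarith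
      have h4 := mul_le_mul_of_nonneg_left h3 (mul_nonneg hs.le hc)
      have h5 : sg c * c * (y * (1 - 8 * c)) = c * y := by
        calc _ = (sg c * (1 - 8 * c)) * (c * y) := by ring
          _ = _ := by rw [e0, one_mul]
      nlinarith
    · have hx0 : 0 < x := by linarith
      rcases lt_or_ge x (1 / 8) with h3 | h3
      · rw [phi_mid hc hc' h2 h3]
        have e1 : (1 - sg c * (1 - c / x)) * x = sg c * (c * (1 - 8 * x)) := by
          have : (1 - sg c * (1 - c / x)) * x = x - sg c * (x - c) := by field_simp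
          rw [this]
          have : x = x * (sg c * (1 - 8 * c)) := by rw [e0, mul_one]
          nlinarith
        rw [e1]
        have h4 : (1 - 8 * x) * y ≤ y - x := by nlinarith
        have h5 : c * (1 - 8 * x) * y ≤ c * (y - x) := by nlinarith
        nlinarith
      · rw [phi_self hc' h3, sub_self, zero_mul, zero_mul]
        exact mul_nonneg hs.le (mul_nonneg hc (by linarith))

lemma phi_mono (hc : 0 ≤ c) (hc' : c ≤ 1 / 16) (hx : 0 ≤ x) (h : x ≤ y) :
    phi c x ≤ phi c y := by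
  have hs := sg_pos hc'
  rcases le_or_gt x c with h0 | h0
  · rw [phi_zero h0]; exact phi_nonneg hc hc' (hx.trans h)
  have hx0 : 0 < x := by linarith
  rcases lt_or_ge y (1 / 8) with h1 | h1
  · rw [phi_mid hc hc' h0 (by linarith), phi_mid hc hc' (by linarith) h1]
    apply mul_le_mul_of_nonneg_left _ hs.le
    have : c / y ≤ c / x := div_le_div_of_nonneg_left hc hx0 h
    linarith
  · rw [phi_self hc' h1]; exact phi_le_one hc hc' hx

end scalar

lemma measurable_tr {α : Type*} [MeasurableSpace α] {u v : α → ℝ} (hu : Measurable u)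
    (hv : Measurable v) : Measurable fun x => tr (u x) (v x) := by
  unfold tr
  refine Measurable.ite (measurableSet_le hv hu) measurable_const ?_
  exact Measurable.ite (measurableSet_lt hv measurable_const)
    ((hv.sub hu).div (measurable_const.sub (hu.const_mul 8))) hv

lemma measurable_phi {α : Type*} [MeasurableSpace α] {u v : α → ℝ} (hu : Measurable u)
    (hv : Measurable v) : Measurable fun x => phi (u x) (v x) := (measurable_tr hu hv).div hv

/-! ### real fibre averages -/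

variable {E : Type*} [NormedAddCommGroup E] [InnerProductSpace ℝ E] [FiniteDimensional ℝ E]
  [MeasurableSpace E] [BorelSpace E]

/-- bounded measurable functions -/
structure Bd (f : E → ℝ) : Prop where
  meas : Measurable f
  bdd : ∃ C, ∀ x, |f x| ≤ C

section Bd

variable {f g : E → ℝ}

lemma Bd.of_UI (h : UI f) : Bd f :=
  ⟨h.meas, 1, fun x => by rw [abs_of_nonneg (h.nonneg x)]; exact h.le_one x⟩

lemma Bd.const (c : ℝ) : Bd fun _ : E => c := ⟨measurable_const, |c|, fun _ => le_rfl⟩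

lemma Bd.add (hf : Bd f) (hg : Bd g) : Bd fun x => f x + g x := by
  obtain ⟨hf1, C, hC⟩ := hf
  obtain ⟨hg1, D, hD⟩ := hg
  exact ⟨hf1.add hg1, C + D, fun x => (abs_add_le _ _).trans (add_le_add (hC x) (hD x))⟩

lemma Bd.neg (hf : Bd f) : Bd fun x => - f x := by
  obtain ⟨hf1, C, hC⟩ := hf
  exact ⟨hf1.neg, C, fun x => by rw [abs_neg]; exact hC x⟩

lemma Bd.sub (hf : Bd f) (hg : Bd g) : Bd fun x => f x - g x := by
  have := hf.add hg.neg
  simpa [sub_eq_add_neg] using this

lemma Bd.mul (hf : Bd f) (hg : Bd g) : Bd fun x => f x * g x := by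
  obtain ⟨hf1, C, hC⟩ := hf
  obtain ⟨hg1, D, hD⟩ := hg
  refine ⟨hf1.mul hg1, C * D, fun x => ?_⟩
  rw [abs_mul]
  exact mul_le_mul (hC x) (hD x) (abs_nonneg _) ((abs_nonneg _).trans (hC x))

lemma Bd.abs (hf : Bd f) : Bd fun x => |f x| := by
  obtain ⟨hf1, C, hC⟩ := hf
  exact ⟨hf1.abs, C, fun x => by rw [abs_abs]; exact hC x⟩

lemma Bd.const_mul (c : ℝ) (hf : Bd f) : Bd fun x => c * f x := (Bd.const c).mul hf

lemma Bd.max (hf : Bd f) (hg : Bd g) : Bd fun x => max (f x) (g x) := by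
  obtain ⟨hf1, C, hC⟩ := hf
  obtain ⟨hg1, D, hD⟩ := hg
  refine ⟨hf1.max hg1, Max.max C D, fun x => ?_⟩
  rcases le_total (f x) (g x) with h | h
  · rw [max_eq_right h]; exact (hD x).trans (le_max_right _ _)
  · rw [max_eq_left h]; exact (hC x).trans (le_max_left _ _)

lemma Bd.integrable (hf : Bd f) : Integrable f (stdGaussian E) := by
  obtain ⟨hf1, C, hC⟩ := hf
  exact Integrable.of_bound hf1.aestronglyMeasurable C (Filter.Eventually.of_forall fun x => hC x)

lemma Bd.comp (hf : Bd f) {T : E → E} (hT : Measurable T) : Bd fun x => f (T x) :=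
  ⟨hf.meas.comp hT, hf.bdd.imp fun _ h x => h (T x)⟩

lemma Bd.ind {s : Set E} (hs : MeasurableSet s) : Bd (s.indicator fun _ => (1 : ℝ)) :=
  ⟨measurable_const.indicator hs, 1, fun x => by
    by_cases h : x ∈ s
    · rw [indicator_of_mem h]; simp
    · rw [indicator_of_notMem h]; simp⟩

end Bd

/-- the real fibre average -/
noncomputable def fr (W : Submodule ℝ E) (f : E → ℝ) (x : E) : ℝ :=
  ∫ z, f (mix W x z) ∂stdGaussian E

/-- `f` is a function of `P_W x` -/
def InvR (W : Submodule ℝ E) (f : E → ℝ) : Prop := ∀ x, ∀ w ∈ Wᗮ, f (x + w) = f x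

section fr

variable {W W' : Submodule ℝ E} {f g : E → ℝ}

lemma InvR.eq_of (hf : InvR W f) {x y : E}
    (h : W.starProjection x = W.starProjection y) : f x = f y := by
  have h1 : y - x ∈ Wᗮ := by
    rw [← Submodule.starProjection_apply_eq_zero_iff, map_sub, h, sub_self]
  have := hf x (y - x) h1
  rw [add_sub_cancel] at this
  exact this.symm

lemma InvR.mix (hf : InvR W f) (x z : E) : f (mix W x z) = f x :=
  hf.eq_of (H395.starProjection_mix W x z)

lemma InvR.mono (h : W ≤ W') (hf : InvR W f) : InvR W' f :=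
  fun x w hw => hf x w (Submodule.orthogonal_le h hw)

lemma invR_fr (W : Submodule ℝ E) (f : E → ℝ) : InvR W (fr W f) := by
  intro x w hw
  unfold fr
  congr 1
  funext z
  congr 1
  unfold H395.mix
  rw [map_add, H395.proj_eq_zero hw, add_zero]

lemma Bd.mixr (hf : Bd f) (W : Submodule ℝ E) (x : E) : Bd fun z => f (H395.mix W x z) :=
  hf.comp (H395.measurable_mix_right W x)

lemma Bd.fr (hf : Bd f) (W : Submodule ℝ E) : Bd (fr W f) := by
  obtain ⟨C, hC⟩ := hf.bdd
  refine ⟨?_, C, fun x => ?_⟩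
  · have h1 : StronglyMeasurable (fun p : E × E => f (H395.mix W p.1 p.2)) :=
      (hf.meas.comp (H395.measurable_mix W)).stronglyMeasurable
    exact h1.integral_prod_right.measurable
  · have h1 := norm_integral_le_of_norm_le_const (μ := stdGaussian E)
      (f := fun z => f (H395.mix W x z)) (C := C) (Filter.Eventually.of_forall fun z => hC _)
    simpa [H654.fr] using h1

lemma fr_mono (hf : Bd f) (hg : Bd g) (h : ∀ x, f x ≤ g x) (x : E) : fr W f x ≤ fr W g x :=
  integral_mono (hf.mixr W x).integrable (hg.mixr W x).integrable fun z => h _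

lemma fr_const (c : ℝ) (x : E) : fr W (fun _ => c) x = c := by
  unfold fr; simp

lemma fr_add (hf : Bd f) (hg : Bd g) (x : E) :
    fr W (fun y => f y + g y) x = fr W f x + fr W g x :=
  integral_add (hf.mixr W x).integrable (hg.mixr W x).integrable

lemma fr_sub (hf : Bd f) (hg : Bd g) (x : E) :
    fr W (fun y => f y - g y) x = fr W f x - fr W g x :=
  integral_sub (hf.mixr W x).integrable (hg.mixr W x).integrable

lemma fr_const_mul (c : ℝ) (f : E → ℝ) (x : E) :
    fr W (fun y => c * f y) x = c * fr W f x := integral_const_mul _ _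

lemma fr_nonneg (h : ∀ x, 0 ≤ f x) (x : E) : 0 ≤ fr W f x := integral_nonneg fun z => h _

lemma fr_mul (hg : InvR W g) (f : E → ℝ) (x : E) :
    fr W (fun y => g y * f y) x = g x * fr W f x := by
  unfold fr
  simp_rw [hg.mix]
  exact integral_const_mul _ _

lemma fr_self (hg : InvR W g) (x : E) : fr W g x = g x := by
  unfold fr
  simp_rw [hg.mix]
  simp

lemma abs_fr_le (f : E → ℝ) (x : E) : |fr W f x| ≤ fr W (fun y => |f y|) x :=
  abs_integral_le_integral_abs

lemma integral_mix {h : E → ℝ} (hh : Measurable h) (W : Submodule ℝ E) :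
    ∫ p : E × E, h (mix W p.1 p.2) ∂((stdGaussian E).prod (stdGaussian E))
      = ∫ x, h x ∂stdGaussian E := by
  conv_rhs => rw [← H395.map_mix W]
  rw [integral_map (H395.measurable_mix W).aemeasurable hh.aestronglyMeasurable]

lemma integral_fr (hf : Bd f) : ∫ x, fr W f x ∂stdGaussian E = ∫ x, f x ∂stdGaussian E := by
  rw [← integral_mix hf.meas W, integral_prod]
  · rfl
  · obtain ⟨C, hC⟩ := hf.bdd
    exact Integrable.of_bound (hf.meas.comp (H395.measurable_mix W)).aestronglyMeasurable C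
      (Filter.Eventually.of_forall fun p => hC _)

/-- **tower property** -/
lemma fr_tower (h : W ≤ W') (hf : Bd f) (x : E) : fr W (fr W' f) x = fr W f x := by
  unfold fr
  simp_rw [H395.mix_mix h]
  have hf' := hf.mixr W x
  rw [← integral_mix hf'.meas W', integral_prod]
  obtain ⟨C, hC⟩ := hf'.bdd
  exact Integrable.of_bound (hf'.meas.comp (H395.measurable_mix W')).aestronglyMeasurable C
    (Filter.Eventually.of_forall fun p => hC _)

/-- duality under `fr W`, `W ≤ W'` -/
lemma fr_mul_tower (h : W ≤ W') (hg : InvR W' g) (hgb : Bd g) (hf : Bd f) (x : E) :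
    fr W (fun y => g y * fr W' f y) x = fr W (fun y => g y * f y) x := by
  rw [← fr_tower h (hgb.mul hf) x]
  congr 1
  funext y
  exact (fr_mul hg f y).symm

lemma UI.fr (hf : UI f) (W : Submodule ℝ E) : UI (fr W f) := by
  refine ⟨((Bd.of_UI hf).fr W).meas, fun x => fr_nonneg hf.nonneg x, fun x => ?_⟩
  exact (fr_mono (Bd.of_UI hf) (Bd.const 1) hf.le_one x).trans_eq (fr_const 1 x)

/-- relation with the `ENNReal` fibre average -/
lemma ofReal_fr (hf : Bd f) (h0 : ∀ x, 0 ≤ f x) (x : E) :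
    ENNReal.ofReal (fr W f x) = H395.fib W (fun y => ENNReal.ofReal (f y)) x := by
  unfold fr H395.fib
  rw [ofReal_integral_eq_lintegral_ofReal (hf.mixr W x).integrable
    (Filter.Eventually.of_forall fun z => h0 _)]

end fr

end Vale.Agent.P262.H654
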