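import Vale.Agent.P262.H654.FieldA

/-!
# P262, milestone 1, FIELD part B: the recursive field with killed labels and its perturbations
-/

set_option linter.all false

open MeasureTheory ProbabilityTheory Set
open scoped ENNReal RealInnerProductSpace Classical

namespace Vale.Agent.P262.H654

open Vale.Agent.P262.H395 (mix)
open Vale.Agent.P262.H847 (UI)

variable {E : Type*} [NormedAddCommGroup E] [InnerProductSpace ℝ E] [FiniteDimensional ℝ E]
  [MeasurableSpace E] [BorelSpace E]

/-- a level: label space, `M * cap`, killed labels -/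
structure Lev (E : Type*) [NormedAddCommGroup E] [InnerProductSpace ℝ E] where
  W : Submodule ℝ E
  c : E → ℝ
  Z : Set E

/-- the recursive field -/
noncomputable def fl : List (Lev E) → (E → ℝ) → E → ℝ
  | [], g => g
  | p :: L, g => fun x => if x ∈ p.Z then 1 else phi (p.c x) (fr p.W (fl L g) x) * fl L g x

/-- the indicator that no level is killed or below its cap -/
noncomputable def vis : List (Lev E) → (E → ℝ) → E → ℝ
  | [], _ => fun _ => 1
  | p :: L, g => fun x =>
      (if x ∉ p.Z ∧ p.c x < fr p.W (fl L g) x then 1 else 0) * vis L g x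

/-- the weight -/
noncomputable def wt : List (Lev E) → (E → ℝ) → E → ℝ
  | [], _ => fun _ => 1
  | p :: L, g => fun x => if x ∈ p.Z then 0 else phi (p.c x) (fr p.W (fl L g) x) * wt L g x

/-- the killed part -/
noncomputable def kt : List (Lev E) → (E → ℝ) → E → ℝ
  | [], _ => fun _ => 0
  | p :: L, g => fun x => if x ∈ p.Z then 1 else phi (p.c x) (fr p.W (fl L g) x) * kt L g x

/-- the conditions on a level -/
structure LevOK (c0 : ℝ) (p : Lev E) : Prop where
  meas : Measurable p.c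
  inv : InvR p.W p.c
  measZ : MeasurableSet p.Z
  invZ : ∀ x, ∀ w ∈ p.Wᗮ, (x + w ∈ p.Z ↔ x ∈ p.Z)
  nonneg : ∀ x, 0 ≤ p.c x
  le : ∀ x, x ∉ p.Z → p.c x ≤ c0

/-- the conditions on a chain of levels -/
def Good (c0 : ℝ) : List (Lev E) → Prop
  | [] => True
  | p :: L => LevOK c0 p ∧ (∀ q ∈ L, p.W ≤ q.W) ∧ Good c0 L

section lemmas

variable {c0 : ℝ} {p : Lev E} {L L' : List (Lev E)} {g g' : E → ℝ} {W W' : Submodule ℝ E} {x y : E}

@[simp] lemma fl_nil : fl ([] : List (Lev E)) g = g := rfl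

lemma fl_cons : fl (p :: L) g x
    = if x ∈ p.Z then 1 else phi (p.c x) (fr p.W (fl L g) x) * fl L g x := rfl

lemma fl_append (L L' : List (Lev E)) (g : E → ℝ) : fl (L ++ L') g = fl L (fl L' g) := by
  induction L with
  | nil => rfl
  | cons p L ih =>
    funext x
    rw [List.cons_append, fl_cons, fl_cons, ih]

lemma LevOK.c0_nonneg (h : LevOK c0 p) (hx : x ∉ p.Z) : 0 ≤ c0 := (h.nonneg x).trans (h.le x hx)

/-- the alive indicator of a level -/
noncomputable def nk (p : Lev E) (x : E) : ℝ := if x ∈ p.Z then 0 else 1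

lemma nk_inv (h : LevOK c0 p) : InvR p.W (nk p) := by
  intro x w hw
  unfold nk
  simp only [h.invZ x w hw]

lemma nk_meas (h : LevOK c0 p) : Measurable (nk p) :=
  Measurable.ite h.measZ measurable_const measurable_const

lemma nk_nonneg (p : Lev E) (x : E) : 0 ≤ nk p x := by unfold nk; split_ifs <;> norm_num

lemma nk_le_one (p : Lev E) (x : E) : nk p x ≤ 1 := by unfold nk; split_ifs <;> norm_num

lemma nk_UI (h : LevOK c0 p) : UI (nk p) := ⟨nk_meas h, nk_nonneg p, nk_le_one p⟩

lemma good_append : Good c0 (L ++ L') ↔ Good c0 L ∧ Good c0 L' ∧ ∀ p ∈ L, ∀ q ∈ L', p.W ≤ q.W := by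
  induction L with
  | nil => simp [Good]
  | cons p L ih =>
    simp only [List.cons_append, Good, ih, List.mem_append, List.mem_cons]
    constructor
    · rintro ⟨h1, h3, h4, h5, h6⟩
      refine ⟨⟨h1, fun q hq => h3 q (Or.inl hq), h4⟩, h5, ?_⟩
      rintro r (rfl | hr) q hq
      · exact h3 q (Or.inr hq)
      · exact h6 r hr q hq
    · rintro ⟨⟨h1, h3, h4⟩, h5, h6⟩
      refine ⟨h1, ?_, h4, h5, fun r hr q hq => h6 r (Or.inr hr) q hq⟩
      rintro q (hq | hq)
      · exact h3 q hq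
      · exact h6 p (Or.inl rfl) q hq

lemma fl_UI (hL : Good c0 L) (hc : c0 ≤ 1 / 16) (hg : UI g) : UI (fl L g) := by
  induction L with
  | nil => exact hg
  | cons p L ih =>
    obtain ⟨hp, hab, hL⟩ := hL
    have h1 := ih hL
    have hF : UI (fr p.W (fl L g)) := UI.fr h1 p.W
    refine ⟨?_, fun x => ?_, fun x => ?_⟩
    · exact Measurable.ite hp.measZ measurable_const ((measurable_phi hp.meas hF.meas).mul h1.meas)
    · rw [fl_cons]
      split_ifs with h
      · exact zero_le_one
      · exact mul_nonneg (phi_nonneg (hp.nonneg x) ((hp.le x h).trans hc) (hF.nonneg x))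
          (h1.nonneg x)
    · rw [fl_cons]
      split_ifs with h
      · exact le_rfl
      · exact mul_le_one₀ (phi_le_one (hp.nonneg x) ((hp.le x h).trans hc) (hF.nonneg x))
          (h1.nonneg x) (h1.le_one x)

/-- the weight function of one level, extended by `0` to the killed labels -/
noncomputable def ph (p : Lev E) (F : E → ℝ) (x : E) : ℝ :=
  if x ∈ p.Z then 0 else phi (p.c x) (F x)

lemma ph_inv (hp : LevOK c0 p) {F : E → ℝ} (hF : InvR p.W F) : InvR p.W (ph p F) := by
  intro x w hw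
  unfold ph
  simp only [hp.invZ x w hw, hp.inv x w hw, hF x w hw]

lemma ph_UI (hp : LevOK c0 p) (hc : c0 ≤ 1 / 16) {F : E → ℝ} (hF : UI F) : UI (ph p F) := by
  refine ⟨?_, fun x => ?_, fun x => ?_⟩
  · exact Measurable.ite hp.measZ measurable_const (measurable_phi hp.meas hF.meas)
  · unfold ph
    split_ifs with h
    · exact le_rfl
    · exact phi_nonneg (hp.nonneg x) ((hp.le x h).trans hc) (hF.nonneg x)
  · unfold ph
    split_ifs with h
    · exact zero_le_one
    · exact phi_le_one (hp.nonneg x) ((hp.le x h).trans hc) (hF.nonneg x)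

lemma ph_mono (hp : LevOK c0 p) (hc : c0 ≤ 1 / 16) {F F' : E → ℝ} (hF : ∀ x, 0 ≤ F x)
    (h : F x ≤ F' x) : ph p F x ≤ ph p F' x := by
  unfold ph
  split_ifs with hx
  · exact le_rfl
  · exact phi_mono (hp.nonneg x) ((hp.le x hx).trans hc) (hF x) h

lemma fl_cons' : fl (p :: L) g x = (1 - nk p x) + ph p (fr p.W (fl L g)) x * fl L g x := by
  rw [fl_cons]
  unfold ph nk
  split_ifs <;> ring

lemma wt_cons : wt (p :: L) g x = ph p (fr p.W (fl L g)) x * wt L g x := by
  unfold ph
  show (if x ∈ p.Z then 0 else phi (p.c x) (fr p.W (fl L g) x) * wt L g x) = _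
  split_ifs <;> ring

lemma kt_cons : kt (p :: L) g x = (1 - nk p x) + ph p (fr p.W (fl L g)) x * kt L g x := by
  unfold ph nk
  show (if x ∈ p.Z then 1 else phi (p.c x) (fr p.W (fl L g) x) * kt L g x) = _
  split_ifs <;> ring

lemma fl_eq (L : List (Lev E)) (g : E → ℝ) (x : E) : fl L g x = wt L g x * g x + kt L g x := by
  induction L with
  | nil => simp [wt, kt]
  | cons p L ih =>
    rw [fl_cons', wt_cons, kt_cons, ih]
    ring

lemma wt_UI (hL : Good c0 L) (hc : c0 ≤ 1 / 16) (hg : UI g) : UI (wt L g) := by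
  induction L with
  | nil => exact ⟨measurable_const, fun _ => zero_le_one, fun _ => le_rfl⟩
  | cons p L ih =>
    obtain ⟨hp, hab, hL⟩ := hL
    have h1 := ih hL
    have h2 := ph_UI hp hc (UI.fr (fl_UI hL hc hg) p.W)
    have e : wt (p :: L) g = fun x => ph p (fr p.W (fl L g)) x * wt L g x :=
      funext fun x => wt_cons
    rw [e]
    exact ⟨h2.meas.mul h1.meas, fun x => mul_nonneg (h2.nonneg x) (h1.nonneg x),
      fun x => mul_le_one₀ (h2.le_one x) (h1.nonneg x) (h1.le_one x)⟩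

lemma kt_UI (hL : Good c0 L) (hc : c0 ≤ 1 / 16) (hg : UI g) : UI (kt L g) := by
  induction L with
  | nil => exact ⟨measurable_const, fun _ => le_rfl, fun _ => zero_le_one⟩
  | cons p L ih =>
    obtain ⟨hp, hab, hL⟩ := hL
    have h1 := ih hL
    have hF := UI.fr (fl_UI hL hc hg) p.W
    refine ⟨?_, fun x => ?_, fun x => ?_⟩
    · exact Measurable.ite hp.measZ measurable_const ((measurable_phi hp.meas hF.meas).mul h1.meas)
    · show 0 ≤ (if x ∈ p.Z then (1:ℝ) else phi (p.c x) (fr p.W (fl L g) x) * kt L g x)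
      split_ifs with h
      · exact zero_le_one
      · exact mul_nonneg (phi_nonneg (hp.nonneg x) ((hp.le x h).trans hc) (hF.nonneg x))
          (h1.nonneg x)
    · show (if x ∈ p.Z then (1:ℝ) else phi (p.c x) (fr p.W (fl L g) x) * kt L g x) ≤ 1
      split_ifs with h
      · exact le_rfl
      · exact mul_le_one₀ (phi_le_one (hp.nonneg x) ((hp.le x h).trans hc) (hF.nonneg x))
          (h1.nonneg x) (h1.le_one x)

lemma fl_mono (hL : Good c0 L) (hc : c0 ≤ 1 / 16) (hg : UI g) (hg' : UI g')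
    (h : ∀ x, g x ≤ g' x) (x : E) : fl L g x ≤ fl L g' x := by
  induction L generalizing x with
  | nil => exact h x
  | cons p L ih =>
    obtain ⟨hp, hab, hL⟩ := hL
    have h1 := fl_UI hL hc hg
    have h1' := fl_UI hL hc hg'
    rw [fl_cons', fl_cons']
    have h2 : fr p.W (fl L g) x ≤ fr p.W (fl L g') x :=
      fr_mono (Bd.of_UI h1) (Bd.of_UI h1') (ih hL) x
    have h3 := ph_mono hp hc (F := fr p.W (fl L g)) (F' := fr p.W (fl L g'))
      (UI.fr h1 p.W).nonneg h2
    have h4 := mul_le_mul h3 (ih hL x) (h1.nonneg x) ((ph_UI hp hc (UI.fr h1' p.W)).nonneg x)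
    linarith

lemma wt_mono (hL : Good c0 L) (hc : c0 ≤ 1 / 16) (hg : UI g) (hg' : UI g')
    (h : ∀ x, g x ≤ g' x) (x : E) : wt L g x ≤ wt L g' x := by
  induction L generalizing x with
  | nil => exact le_rfl
  | cons p L ih =>
    obtain ⟨hp, hab, hL⟩ := hL
    have h1 := fl_UI hL hc hg
    have h1' := fl_UI hL hc hg'
    rw [wt_cons, wt_cons]
    have h2 : fr p.W (fl L g) x ≤ fr p.W (fl L g') x :=
      fr_mono (Bd.of_UI h1) (Bd.of_UI h1') (fl_mono hL hc hg hg' h) x
    have h3 := ph_mono hp hc (F := fr p.W (fl L g)) (F' := fr p.W (fl L g'))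
      (UI.fr h1 p.W).nonneg h2
    exact mul_le_mul h3 (ih hL x) ((wt_UI hL hc hg).nonneg x)
      ((ph_UI hp hc (UI.fr h1' p.W)).nonneg x)

lemma kt_mono (hL : Good c0 L) (hc : c0 ≤ 1 / 16) (hg : UI g) (hg' : UI g')
    (h : ∀ x, g x ≤ g' x) (x : E) : kt L g x ≤ kt L g' x := by
  induction L generalizing x with
  | nil => exact le_rfl
  | cons p L ih =>
    obtain ⟨hp, hab, hL⟩ := hL
    have h1 := fl_UI hL hc hg
    have h1' := fl_UI hL hc hg'
    rw [kt_cons, kt_cons]
    have h2 : fr p.W (fl L g) x ≤ fr p.W (fl L g') x :=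
      fr_mono (Bd.of_UI h1) (Bd.of_UI h1') (fl_mono hL hc hg hg' h) x
    have h3 := ph_mono hp hc (F := fr p.W (fl L g)) (F' := fr p.W (fl L g'))
      (UI.fr h1 p.W).nonneg h2
    have h4 := mul_le_mul h3 (ih hL x) ((kt_UI hL hc hg).nonneg x)
      ((ph_UI hp hc (UI.fr h1' p.W)).nonneg x)
    linarith

/-- the visibility indicator of one level -/
noncomputable def vi (p : Lev E) (F : E → ℝ) (x : E) : ℝ :=
  if x ∉ p.Z ∧ p.c x < F x then 1 else 0

lemma vis_cons : vis (p :: L) g x = vi p (fr p.W (fl L g)) x * vis L g x := rfl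

lemma vi_inv (hp : LevOK c0 p) {F : E → ℝ} (hF : InvR p.W F) : InvR p.W (vi p F) := by
  intro x w hw
  unfold vi
  simp only [hp.invZ x w hw, hp.inv x w hw, hF x w hw]

lemma vi_UI (hp : LevOK c0 p) {F : E → ℝ} (hF : Measurable F) : UI (vi p F) := by
  refine ⟨?_, fun x => ?_, fun x => ?_⟩
  · exact Measurable.ite (hp.measZ.compl.inter (measurableSet_lt hp.meas hF)) measurable_const
      measurable_const
  · unfold vi; split_ifs <;> norm_num
  · unfold vi; split_ifs <;> norm_num

lemma ph_le_vi (hp : LevOK c0 p) (hc : c0 ≤ 1 / 16) {F : E → ℝ} (hF : ∀ x, 0 ≤ F x) (x : E) :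
    ph p F x ≤ vi p F x := by
  unfold ph vi
  by_cases h : x ∈ p.Z
  · rw [if_pos h]; split_ifs <;> norm_num
  · rw [if_neg h]
    by_cases h' : p.c x < F x
    · rw [if_pos ⟨h, h'⟩]
      exact phi_le_one (hp.nonneg x) ((hp.le x h).trans hc) (hF x)
    · rw [phi_zero (not_lt.mp h'), if_neg (fun hh => h' hh.2)]

lemma vi_mono {F F' : E → ℝ} (h : F x ≤ F' x) : vi p F x ≤ vi p F' x := by
  unfold vi
  by_cases h1 : x ∉ p.Z ∧ p.c x < F x
  · rw [if_pos h1, if_pos ⟨h1.1, h1.2.trans_le h⟩]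
  · rw [if_neg h1]; split_ifs <;> norm_num

lemma vis_UI (hL : Good c0 L) (hc : c0 ≤ 1 / 16) (hg : UI g) : UI (vis L g) := by
  induction L with
  | nil => exact ⟨measurable_const, fun _ => zero_le_one, fun _ => le_rfl⟩
  | cons p L ih =>
    obtain ⟨hp, hab, hL⟩ := hL
    have h1 := ih hL
    have h2 := vi_UI hp (UI.fr (fl_UI hL hc hg) p.W).meas
    have e : vis (p :: L) g = fun x => vi p (fr p.W (fl L g)) x * vis L g x :=
      funext fun x => vis_cons
    rw [e]
    exact ⟨h2.meas.mul h1.meas, fun x => mul_nonneg (h2.nonneg x) (h1.nonneg x),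
      fun x => mul_le_one₀ (h2.le_one x) (h1.nonneg x) (h1.le_one x)⟩

lemma vis_mono (hL : Good c0 L) (hc : c0 ≤ 1 / 16) (hg : UI g) (hg' : UI g')
    (h : ∀ x, g x ≤ g' x) (x : E) : vis L g x ≤ vis L g' x := by
  induction L generalizing x with
  | nil => exact le_rfl
  | cons p L ih =>
    obtain ⟨hp, hab, hL⟩ := hL
    have h1 := fl_UI hL hc hg
    have h1' := fl_UI hL hc hg'
    rw [vis_cons, vis_cons]
    have h2 : fr p.W (fl L g) x ≤ fr p.W (fl L g') x :=
      fr_mono (Bd.of_UI h1) (Bd.of_UI h1') (fl_mono hL hc hg hg' h) x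
    exact mul_le_mul (vi_mono h2) (ih hL x) ((vis_UI hL hc hg).nonneg x)
      ((vi_UI hp (UI.fr h1' p.W).meas).nonneg x)

lemma wt_le_vis (hL : Good c0 L) (hc : c0 ≤ 1 / 16) (hg : UI g) (x : E) :
    wt L g x ≤ vis L g x := by
  induction L with
  | nil => exact le_rfl
  | cons p L ih =>
    obtain ⟨hp, hab, hL⟩ := hL
    rw [wt_cons, vis_cons]
    have h1 := UI.fr (fl_UI hL hc hg) p.W
    exact mul_le_mul (ph_le_vi hp hc h1.nonneg x) (ih hL) ((wt_UI hL hc hg).nonneg x)
      ((vi_UI hp h1.meas).nonneg x)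

/-- the mean of the field over a label -/
lemma fr_fl_cons (hp : LevOK c0 p) (hc : c0 ≤ 1 / 16) (hL : Good c0 L) (hg : UI g) (x : E) :
    fr p.W (fl (p :: L) g) x = if x ∈ p.Z then 1 else tr (p.c x) (fr p.W (fl L g) x) := by
  have h1 := fl_UI hL hc hg
  have hF := UI.fr h1 p.W
  have hph := ph_UI hp hc hF
  have e : fl (p :: L) g = fun y => (1 - nk p y) + ph p (fr p.W (fl L g)) y * fl L g y :=
    funext fun y => fl_cons'
  rw [e, fr_add ((Bd.const 1).sub (Bd.of_UI (nk_UI hp))) ((Bd.of_UI hph).mul (Bd.of_UI h1)),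
    fr_mul (ph_inv hp (invR_fr _ _)), fr_sub (Bd.const 1) (Bd.of_UI (nk_UI hp)), fr_const,
    fr_self (nk_inv hp)]
  unfold nk ph
  split_ifs with h
  · ring
  · rw [phi_mul (hp.nonneg x) (hF.nonneg x)]; ring

/-- **(P1)** monotone changes of the payoff -/
theorem fr_fl_sub_le (hL : Good c0 L) (hc0 : 0 ≤ c0) (hc : c0 ≤ 1 / 16) (hg : UI g) (hg' : UI g')
    (h : ∀ x, g x ≤ g' x) (hW : ∀ p ∈ L, W ≤ p.W) (x : E) :
    fr W (fun y => fl L g' y - fl L g y) x
      ≤ sg c0 ^ L.length * fr W (fun y => vis L g' y * (g' y - g y)) x := by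
  induction L generalizing W x with
  | nil => simp [vis]
  | cons p L ih =>
    have hLL := hL
    obtain ⟨hp, hab, hL⟩ := hL
    have hWp : W ≤ p.W := hW p List.mem_cons_self
    have u1 := fl_UI hLL hc hg
    have u1' := fl_UI hLL hc hg'
    have v1 := fl_UI hL hc hg
    have v1' := fl_UI hL hc hg'
    have w1 := vis_UI hLL hc hg'
    have w2 := vis_UI hL hc hg'
    have bg : Bd fun y => g' y - g y := (Bd.of_UI hg').sub (Bd.of_UI hg)
    have key : ∀ y, fr p.W (fun y => fl (p :: L) g' y - fl (p :: L) g y) y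
        ≤ sg c0 ^ (L.length + 1) * fr p.W (fun y => vis (p :: L) g' y * (g' y - g y)) y := by
      intro y
      rw [fr_sub (Bd.of_UI u1') (Bd.of_UI u1), fr_fl_cons hp hc hL hg, fr_fl_cons hp hc hL hg']
      have e1 : (fun y => vis (p :: L) g' y * (g' y - g y))
          = fun y => vi p (fr p.W (fl L g')) y * (vis L g' y * (g' y - g y)) := by
        funext y; rw [vis_cons]; ring
      rw [e1, fr_mul (vi_inv hp (invR_fr _ _))]
      have h5 : 0 ≤ fr p.W (fun y => vis L g' y * (g' y - g y)) y :=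
        fr_nonneg (fun z => mul_nonneg (w2.nonneg z) (by linarith [h z])) y
      have hs1 : 1 ≤ sg c0 := one_le_sg hc0 hc
      have hs : (0:ℝ) ≤ sg c0 ^ (L.length + 1) := by positivity
      by_cases hz : y ∈ p.Z
      · rw [if_pos hz, if_pos hz, sub_self]
        exact mul_nonneg hs (mul_nonneg ((vi_UI hp (UI.fr v1' p.W).meas).nonneg y) h5)
      · rw [if_neg hz, if_neg hz]
        have hcy := hp.le y hz
        have hle : fr p.W (fl L g) y ≤ fr p.W (fl L g') y :=
          fr_mono (Bd.of_UI v1) (Bd.of_UI v1') (fl_mono hL hc hg hg' h) y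
        have h2 := tr_slope (hp.nonneg y) (hcy.trans hc) ((UI.fr v1 p.W).nonneg y) hle
        have h3 := ih hL (W := p.W) (fun q hq => hab q hq) y
        rw [fr_sub (Bd.of_UI v1') (Bd.of_UI v1)] at h3
        refine h2.trans ?_
        unfold vi
        by_cases hv : p.c y < fr p.W (fl L g') y
        · rw [if_pos hv, if_pos ⟨hz, hv⟩, one_mul, pow_succ]
          have h6 : sg (p.c y) ≤ sg c0 := sg_mono hcy hc
          have h7 : 0 ≤ fr p.W (fl L g') y - fr p.W (fl L g) y := by linarith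
          calc sg (p.c y) * (fr p.W (fl L g') y - fr p.W (fl L g) y)
              ≤ sg c0 * (fr p.W (fl L g') y - fr p.W (fl L g) y) :=
                mul_le_mul_of_nonneg_right h6 h7
            _ ≤ sg c0 * (sg c0 ^ L.length * fr p.W (fun y => vis L g' y * (g' y - g y)) y) :=
                mul_le_mul_of_nonneg_left h3 (by linarith)
            _ = _ := by ring
        · rw [if_neg hv, if_neg (fun hh => hv hh.2)]; simp
    rw [← fr_tower hWp ((Bd.of_UI u1').sub (Bd.of_UI u1)) x,
      ← fr_tower hWp ((Bd.of_UI w1).mul bg) x, List.length_cons, ← fr_const_mul]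
    exact fr_mono (((Bd.of_UI u1').sub (Bd.of_UI u1)).fr _)
      (((((Bd.of_UI w1).mul bg)).fr _).const_mul _) key x

end lemmas

end Vale.Agent.P262.H654
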