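import Vale.Agent.P262.H654.FieldD

/-!
# P262, milestone 1, FIELD part E: the difference of the field and its payoff
(reopening of a whole chain of levels)
-/

set_option linter.all false

open MeasureTheory ProbabilityTheory Set
open scoped ENNReal RealInnerProductSpace Classical

namespace Vale.Agent.P262.H654

open Vale.Agent.P262.H395 (mix)
open Vale.Agent.P262.H847 (UI)

variable {E : Type*} [NormedAddCommGroup E] [InnerProductSpace ℝ E] [FiniteDimensional ℝ E]
  [MeasurableSpace E] [BorelSpace E]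

variable {c0 : ℝ} {p q : Lev E} {L L' : List (Lev E)} {g g' : E → ℝ} {W W' : Submodule ℝ E}
  {x y : E}

/-- when the visible mass is `< 1/8`, at least half of the label is alive -/
lemma half_le_alive (hL : Good c0 L) (hc0 : 0 ≤ c0) (hc : c0 ≤ 1 / 16)
    (hlen : 2 * (L.length : ℝ) * c0 ≤ 1 / 2) (hg : UI g) (hW : ∀ p ∈ L, W ≤ p.W)
    (h : fr W (fl L g) x < 1 / 8) : 1 / 2 ≤ fr W (fun y => al L y * (1 - g y)) x := by
  have h1 := fr_hid_le_alive hL hc0 hc hlen hg hW x
  have h2 := fr_sum hL hc hg W x
  have hq0 : 0 ≤ fr W (fun y => al L y * (1 - g y)) x :=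
    fr_nonneg (fun z => mul_nonneg ((al_UI hL).nonneg z) (by linarith [hg.le_one z])) x
  have h3 := mul_le_mul_of_nonneg_right hlen hq0
  linarith

/-- the charged excess of a chain -/
noncomputable def ex : List (Lev E) → (E → ℝ) → E → ℝ
  | [], _ => fun _ => 0
  | q :: L, g => fun x =>
      ((1 - nk q x) + 2 * (nk q x * q.c x)) * (1 - g x) + nk q x * ex L g x

lemma ex_cons : ex (q :: L) g x
    = ((1 - nk q x) + 2 * (nk q x * q.c x)) * (1 - g x) + nk q x * ex L g x := rfl

lemma ex_Bd (hL : Good c0 L) (hg : UI g) : Bd (ex L g) := by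
  induction L with
  | nil => exact Bd.const 0
  | cons q L ih =>
    obtain ⟨hq, hab, hL⟩ := hL
    exact ((((Bd.const 1).sub (Bd.of_UI (nk_UI hq))).add ((nkc_Bd hq).const_mul 2)).mul
      ((Bd.const 1).sub (Bd.of_UI hg))).add ((Bd.of_UI (nk_UI hq)).mul (ih hL))

lemma ex_nonneg (hL : Good c0 L) (hg : UI g) (x : E) : 0 ≤ ex L g x := by
  induction L with
  | nil => exact le_rfl
  | cons q L ih =>
    obtain ⟨hq, hab, hL⟩ := hL
    rw [ex_cons]
    have h1 := nk_nonneg q x
    have h2 := nk_le_one q x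
    have h3 := hq.nonneg x
    have h4 := hg.le_one x
    have h5 := ih hL
    have h6 : 0 ≤ (1 - nk q x) + 2 * (nk q x * q.c x) := by nlinarith [mul_nonneg h1 h3]
    nlinarith [mul_nonneg h6 (by linarith : 0 ≤ 1 - g x), mul_nonneg h1 h5]

/-- **(P4 for a chain)** -/
theorem fr_abs_sub_fl_le (hL : Good c0 L) (hc0 : 0 ≤ c0) (hc : c0 ≤ 1 / 16)
    (hlen : 2 * (L.length : ℝ) * c0 ≤ 1 / 2) (hg : UI g) (hW : ∀ p ∈ L, W ≤ p.W) (x : E) :
    fr W (fun y => |g y - fl L g y|) x ≤ fr W (ex L g) x := by
  induction L generalizing W x with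
  | nil =>
    have e : (fun y => |g y - fl ([] : List (Lev E)) g y|) = fun _ => (0:ℝ) := by
      funext y; simp
    rw [e]; exact le_rfl
  | cons q L ih =>
    have hLL := hL
    obtain ⟨hq, hab, hL⟩ := hL
    have hWq := hW q List.mem_cons_self
    have hlen' : 2 * (L.length : ℝ) * c0 ≤ 1 / 2 := by
      rw [List.length_cons] at hlen
      push_cast at hlen
      nlinarith
    have u := fl_UI hL hc hg
    have uu := fl_UI hLL hc hg
    have b1 : Bd fun y => |g y - fl (q :: L) g y| := ((Bd.of_UI hg).sub (Bd.of_UI uu)).abs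
    have b2 := ex_Bd hLL hg
    rw [← fr_tower hWq b1, ← fr_tower hWq b2]
    refine fr_mono (b1.fr _) (b2.fr _) (fun y => ?_) x
    have hF := UI.fr u q.W
    have hph := ph_UI hq hc hF
    have bn := Bd.of_UI (nk_UI hq)
    have b1g : Bd fun y => 1 - g y := (Bd.const 1).sub (Bd.of_UI hg)
    have bA : Bd fun y => (1 - nk q y) + 2 * (nk q y * q.c y) :=
      ((Bd.const 1).sub bn).add ((nkc_Bd hq).const_mul _)
    have bd : Bd fun y => |g y - fl L g y| := ((Bd.of_UI hg).sub (Bd.of_UI u)).abs
    have i1 : InvR q.W fun y => 1 - nk q y := by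
      intro z w hw; simp only [nk_inv hq z w hw]
    have i2 : InvR q.W fun y => nk q y - ph q (fr q.W (fl L g)) y := by
      intro z w hw; simp only [nk_inv hq z w hw, ph_inv hq (invR_fr _ _) z w hw]
    have i3 : InvR q.W fun y => (1 - nk q y) + 2 * (nk q y * q.c y) := by
      intro z w hw; simp only [nk_inv hq z w hw, hq.inv z w hw]
    have key : fr q.W (fun y => |g y - fl (q :: L) g y|) y
        ≤ fr q.W (fun y => (1 - nk q y) * (1 - g y) + (nk q y * |g y - fl L g y|
          + (nk q y - ph q (fr q.W (fl L g)) y) * fl L g y)) y := by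
      refine fr_mono b1 ((((Bd.const 1).sub bn).mul b1g).add ((bn.mul bd).add
        ((bn.sub (Bd.of_UI hph)).mul (Bd.of_UI u)))) (fun z => ?_) y
      rw [fl_cons']
      have h2 := ph_le_nk hq hc hF.nonneg z
      have h3 := hg.nonneg z
      have h4 := hg.le_one z
      have h5 := u.nonneg z
      by_cases hz : z ∈ q.Z
      · have hn : nk q z = 0 := by simp [nk, hz]
        have hp0 : ph q (fr q.W (fl L g)) z = 0 := by simp [ph, hz]
        rw [hn, hp0, abs_of_nonpos (by linarith)]
        apply le_of_eq; ring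
      · have hn : nk q z = 1 := by simp [nk, hz]
        rw [hn] at h2 ⊢
        have h6 : g z - (1 - 1 + ph q (fr q.W (fl L g)) z * fl L g z)
            = (g z - fl L g z) + (1 - ph q (fr q.W (fl L g)) z) * fl L g z := by ring
        rw [h6]
        refine (abs_add_le _ _).trans ?_
        have h7 : 0 ≤ (1 - ph q (fr q.W (fl L g)) z) * fl L g z := mul_nonneg (by linarith) h5
        rw [abs_of_nonneg h7]
        apply le_of_eq; ring
    refine key.trans ?_
    have e2 : ex (q :: L) g = fun x =>
      ((1 - nk q x) + 2 * (nk q x * q.c x)) * (1 - g x) + nk q x * ex L g x := rfl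
    have bex := ex_Bd hL hg
    rw [e2, fr_add (((Bd.const 1).sub bn).mul b1g) ((bn.mul bd).add
        ((bn.sub (Bd.of_UI hph)).mul (Bd.of_UI u))),
      fr_add (bn.mul bd) ((bn.sub (Bd.of_UI hph)).mul (Bd.of_UI u)), fr_mul i1,
      fr_mul (nk_inv hq), fr_mul i2, fr_add (bA.mul b1g) (bn.mul bex), fr_mul i3,
      fr_mul (nk_inv hq)]
    have hI := ih hL hlen' (W := q.W) (fun r hr => hab r hr) y
    have hI' := mul_le_mul_of_nonneg_left hI (nk_nonneg q y)
    have hal : fr q.W (fun y => al L y * (1 - g y)) y ≤ fr q.W (fun y => 1 - g y) y := by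
      refine fr_mono ((Bd.of_UI (al_UI hL)).mul b1g) b1g (fun z => ?_) y
      have h1 := (al_UI hL).le_one z
      have h2 := (al_UI hL).nonneg z
      have h3 := hg.le_one z
      nlinarith
    have h1g : 0 ≤ fr q.W (fun y => 1 - g y) y :=
      fr_nonneg (fun z => by linarith [hg.le_one z]) y
    by_cases hz : y ∈ q.Z
    · have hn : nk q y = 0 := by simp [nk, hz]
      have hp0 : ph q (fr q.W (fl L g)) y = 0 := by simp [ph, hz]
      rw [hn, hp0] at *
      linarith
    · have hn : nk q y = 1 := by simp [nk, hz]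
      have hp1 : ph q (fr q.W (fl L g)) y = phi (q.c y) (fr q.W (fl L g) y) := by simp [ph, hz]
      rw [hn] at hI' ⊢
      rw [hp1]
      have hcy := (hq.le y hz).trans hc
      have hF0 := hF.nonneg y
      have h1 := phi_mul (hq.nonneg y) hF0
      have h2 := sub_tr_le (hq.nonneg y) hcy hF0
      have hc' := hq.nonneg y
      have h3 : (1 - phi (q.c y) (fr q.W (fl L g) y)) * fr q.W (fl L g) y
          ≤ 2 * q.c y * fr q.W (fun y => 1 - g y) y := by
        rcases lt_or_ge (fr q.W (fl L g) y) (1 / 8) with h | h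
        · have h4 := half_le_alive hL hc0 hc hlen' hg (W := q.W) (fun r hr => hab r hr) h
          nlinarith
        · rw [phi_self hcy h, sub_self, zero_mul]
          positivity
      linarith

/-- integrated form: the excess charged level by level, relative to the alive mass of each label -/
lemma fr_ex_le_sum (hL : Good c0 L) (hg : UI g) (hW : ∀ p ∈ L, W ≤ p.W) (x : E) :
    fr W (ex L g) x ≤ (L.map fun q => fr W (fun y => ((1 - nk q y) + 2 * (nk q y * q.c y))
      * (1 - g y)) x).sum := by
  induction L with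
  | nil =>
    have e : ex ([] : List (Lev E)) g = fun _ => (0:ℝ) := rfl
    rw [e, fr_const]; simp
  | cons q L ih =>
    obtain ⟨hq, hab, hL⟩ := hL
    have bn := Bd.of_UI (nk_UI hq)
    have b1g : Bd fun y => 1 - g y := (Bd.const 1).sub (Bd.of_UI hg)
    have bA : Bd fun y => (1 - nk q y) + 2 * (nk q y * q.c y) :=
      ((Bd.const 1).sub bn).add ((nkc_Bd hq).const_mul _)
    have bex := ex_Bd hL hg
    have e2 : ex (q :: L) g = fun x =>
      ((1 - nk q x) + 2 * (nk q x * q.c x)) * (1 - g x) + nk q x * ex L g x := rfl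
    rw [List.map_cons, List.sum_cons, e2, fr_add (bA.mul b1g) (bn.mul bex)]
    have h1 : fr W (fun y => nk q y * ex L g y) x ≤ fr W (ex L g) x := by
      refine fr_mono (bn.mul bex) bex (fun y => ?_) x
      have h2 := nk_le_one q y
      have h3 := ex_nonneg hL hg y
      have h4 := nk_nonneg q y
      nlinarith
    have h2 := ih hL (fun p hp => hW p (List.mem_cons_of_mem _ hp))
    linarith

end Vale.Agent.P262.H654
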