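import Vale.Agent.P262.H654.ReP
import Vale.Agent.P262.M2.Price2

/-!
# Block REO at the price of the whole file

`Sys.reo` (H654/ReP) at 292's price `S.GG Gi` (M2/Price2, `REO_GG`): the price of a reopening is
the L1 price `S.L1f`, which is `S.reG` by definition.
-/

namespace Vale.Agent.P262.M2

open MeasureTheory ProbabilityTheory Set
open scoped ENNReal NNReal

variable {E : Type*} [NormedAddCommGroup E] [InnerProductSpace ℝ E] [FiniteDimensional ℝ E]
  [MeasurableSpace E] [BorelSpace E]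

namespace Sys

variable {S : Sys E}

/-- Block REO for the L1 price. -/
theorem reo_L1f (H : S.ConvH) (hk1 : 4 * S.kp 1 * (S.M + 1) ≤ 1) :
    S.REO S.L1f (2 * S.kV) (1 + 16 * S.cc) :=
  S.reo H hk1 fun _ _ _ _ _ => le_rfl

/-- Block REO for the price `GG Gi` (any inner price). -/
theorem reo_GG {Gi : List ℕ → ℕ → E → ℝ≥0∞} (H : S.ConvH) (hk1 : 4 * S.kp 1 * (S.M + 1) ≤ 1) :
    S.REO (S.GG Gi) (2 * S.kV) (1 + 16 * S.cc) :=
  REO_GG (reo_L1f H hk1)

end Sys

end Vale.Agent.P262.M2
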