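import Vale.Agent.P262.H654.CapS
import Vale.Agent.P262.M2.Blocks

/-!
# P262, milestone 2: the price of a reopening

`reG p m x`: mean change of the field below `p` at the label `x`.  At a reopening the change goes
down through the surviving counted labels (`reG_step`) to the labels whose child ends, where both
fields are compared with the payoff (`reG_end`).  `Pt_reG`: the sum over the levels.
-/

set_option linter.all false

open MeasureTheory ProbabilityTheory Set
open scoped ENNReal RealInnerProductSpace Classical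

namespace Vale.Agent.P262.M2.Sys

open Vale.Agent.P262.H118 (K2 paths mem_paths)
open Vale.Agent.P262.H395 (fib mix Inv measurable_fib fib_mono Fixes)
open Vale.Agent.P262.H44 (InvS)
open Vale.Agent.P262.H847 (UI)
open Vale.Agent.P262.H654 (fr Bd ofReal_fr Lev LevOK fr_mono fr_add fr_const)

variable {E : Type*} [NormedAddCommGroup E] [InnerProductSpace ℝ E] [FiniteDimensional ℝ E]
  [MeasurableSpace E] [BorelSpace E] (S : Sys E)

/-- the node survives the reopening `m` -/
def Sv (p : List ℕ) (m : ℕ) : Prop := S.mv.tm m + 1 ∉ S.K.nw p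

/-- price of a reopening: mean change of the field below `p` -/
noncomputable def reG (p : List ℕ) (m : ℕ) (x : E) : ℝ≥0∞ :=
  fib (S.W p m) (fun y => ENNReal.ofReal |S.fld p (m + 1) y - S.fld p m y|) x

/-- one level of the field -/
noncomputable def lv (q : List ℕ) (m : ℕ) : Lev E := ⟨S.W q m, S.cf m q, S.Z q m⟩

variable {S} {m : ℕ} {p q : List ℕ} {x y z : E} {c : ℕ}

lemma lv_ok (hm : m ≤ S.mT) (q : List ℕ) : LevOK S.cc (S.lv q m) := by
  have h := (S.labOK hm).ok q
  exact ⟨h.meas, h.inv, h.measZ, h.invZ, h.nonneg, h.le⟩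

/-- the field through the child, in the coordinates of the child -/
lemma fld_eq_one (hm : m ≤ S.mT) (hl : ¬ S.Leaf p m) (x : E) :
    S.fld p m x = H654.fl [S.lv (S.kl p m x :: p) m] (S.fld (S.kl p m x :: p) m)
      ((S.mv.Q m (S.kl p m x :: p)).symm x) := by
  rw [Sys.fld_node (S.labOK hm) hm hl]
  rfl

/-! ### surviving nodes -/

lemma Sv.of_cons (h : S.Sv (c :: p) m) : S.Sv p m := fun h' => h (S.K.nw_sub_nw p c h')

lemma Sv.suffix (h : S.Sv q m) (hs : p <:+ q) : S.Sv p m := fun h' => h (S.K.nw_mono hs h')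

section re

variable (hre : S.mv.IsRe m) (hm : m < S.mT)
include hre hm

lemma re_lt : S.mv.tm m + 1 < S.T := S.mv.tm_re_lt hre (by unfold mT at hm; omega)

lemma Sv.same (h : S.Sv p m) : S.Same (S.K.nw p) m (m + 1) :=
  Same.re (S.K.zero_mem_nw p) hre (re_lt hre hm) h

lemma re_tm_lt : S.mv.tm m < S.T := by have := re_lt hre hm; omega

lemma Sv.W (h : S.Sv p m) : S.W p (m + 1) = S.W p m :=
  (h.same hre hm).W subset_rfl (re_tm_lt hre hm)

lemma Sv.Z (h : S.Sv p m) : S.Z p (m + 1) = S.Z p m :=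
  (h.same hre hm).Z subset_rfl (re_tm_lt hre hm)

lemma Sv.A (h : S.Sv p m) : S.A p (m + 1) = S.A p m :=
  (h.same hre hm).A subset_rfl (re_tm_lt hre hm)

lemma Sv.leaf (h : S.Sv p m) : S.Leaf p (m + 1) ↔ S.Leaf p m :=
  (h.same hre hm).leaf subset_rfl (re_tm_lt hre hm)

lemma Sv.cf (h : S.Sv p m) : S.cf (m + 1) p = S.cf m p := by
  funext x
  unfold Sys.cf
  rw [h.A hre hm]

lemma Sv.lv (h : S.Sv p m) : S.lv p (m + 1) = S.lv p m := by
  unfold Sys.lv
  rw [h.W hre hm, h.cf hre hm, h.Z hre hm]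

lemma Sv.X (h : S.Sv p m) (hp : p ∈ paths S.cm (Module.finrank ℝ E)) :
    S.X p (m + 1) = S.X p m := S.X_re hre (re_lt hre hm) hp h

lemma Sv.pf (h : S.Sv p m) (hp : p ∈ paths S.cm (Module.finrank ℝ E)) :
    S.pf p (m + 1) = S.pf p m := by
  unfold Sys.pf
  rw [h.X hre hm hp]

lemma Sv.De (h : S.Sv p m) (hp : p ∈ paths S.cm (Module.finrank ℝ E)) :
    S.De p (m + 1) = S.De p m := by
  unfold Sys.De
  rw [h.W hre hm, h.X hre hm hp]

lemma Sv.Q (h : S.Sv q m) (hq : q ∈ paths S.cm (Module.finrank ℝ E)) (h0 : q ≠ []) :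
    S.mv.Q (m + 1) q = S.mv.Q m q := by
  have h1 := S.mv.reopen (S.mv.tm m) (re_lt hre hm) q hq h0 h
  have h2 : m + 1 = S.mv.n (S.mv.tm m + 1) := hre
  rw [← h2] at h1
  simpa using h1

/-- the class is constant if the child survives -/
lemma Sv.kl (h : S.Sv (S.kl p m x :: p) m) : S.kl p (m + 1) x = S.kl p m x := by
  refine kl_same (Same.re (zero_mem_BB p m x) hre (re_lt hre hm) ?_) (re_tm_lt hre hm)
  exact fun h' => h (S.K.B_sub_nw _ _ h')

/-- the same, seen from the state `m + 1` -/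
lemma Sv.kl' (h : S.Sv (S.kl p (m + 1) x :: p) m) : S.kl p m x = S.kl p (m + 1) x := by
  have h1 : S.Same (S.BB p (m + 1) x) m (m + 1) :=
    Same.re (zero_mem_BB p _ x) hre (re_lt hre hm) fun h' => h (S.K.B_sub_nw _ _ h')
  have h2 := h1.symm (zero_mem_BB p _ x) (re_tm_lt hre hm)
  exact kl_same h2 (by rw [S.mv.tm_succ_re hre]; exact re_lt hre hm)

omit hre hm in
lemma mem_paths_cons (ht : S.mv.tm m < S.T) (hp : p ∈ paths S.cm (Module.finrank ℝ E))
    (hl : ¬ S.Leaf p m) (hc : c ≤ S.cm) : c :: p ∈ paths S.cm (Module.finrank ℝ E) := by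
  rw [mem_paths] at hp ⊢
  have := length_le_of_not_leaf ht hl
  refine ⟨by rw [List.length_cons]; omega, fun c' hc' => ?_⟩
  rcases List.mem_cons.1 hc' with rfl | h
  · exact hc
  · exact hp.2 c' h

/-! ### visible labels are counted at both states -/

section vis

variable (hε : 2 * (Real.sqrt 2 * Real.exp (-(S.qq / 4))) ≤ 1 / 2) (hk : S.kp 1 ≤ 1 / 2)
  (hk1 : 4 * S.kp 1 * (S.M + 1) ≤ 1)
include hε hk hk1

omit hre hm in
/-- mean of the field: payoff plus killed mass -/
lemma fr_killed_one (hm : m ≤ S.mT) (hz : z ∉ S.Z q m) :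
    fr (S.W q m) (fun y => 1 - S.alr q m y) z ≤ 2 * S.kp 1 * S.cf m q z := by
  have ht := S.tm_lt_f hm
  by_cases hl : S.Leaf q m
  · have e : (fun y => 1 - S.alr q m y) = fun _ : E => (0:ℝ) := by
      funext y
      unfold Sys.alr
      rw [S.tC_eq hm, if_pos hl]
      simp
    rw [e, fr_const]
    exact mul_nonneg (mul_nonneg zero_le_two (kp_nonneg 1)) (S.cf_nonneg m q z)
  · refine (fr_killed hε hk hm hz).trans ?_
    exact mul_le_mul_of_nonneg_right (mul_le_mul_of_nonneg_left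
      (kp_anti (one_le_kdm _ ht hl)) zero_le_two) (S.cf_nonneg m q z)

omit hre hm hε hk hk1 in
lemma fld_le_killed (hm : m ≤ S.mT) (y : E) :
    S.fld q m y ≤ S.pf q m y + (1 - S.alr q m y) := by
  have hL := S.labOK hm
  exact CF2.fl_le_add_killed (hL.good_tC (p := q) (k := S.kl q m y)) S.cc_le'
    (fun _ => S.pf_UI q m) y

/-- **visible at one of the two states: counted at both** -/
theorem om_of_vis (hq : q ∈ paths S.cm (Module.finrank ℝ E)) (hs : S.Sv q m) (hz : z ∉ S.Z q m)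
    (hv : S.cf m q z < fr (S.W q m) (fun y => max (S.fld q m y) (S.fld q (m + 1) y)) z) :
    z ∈ S.om q m ∧ z ∈ S.om q (m + 1) := by
  have ht := re_tm_lt hre hm
  have ht1 : S.mv.tm (m + 1) < S.T := by rw [S.mv.tm_succ_re hre]; exact re_lt hre hm
  have hL := S.labOK hm.le
  have hL1 := S.labOK (m := m + 1) hm
  have b1 := Bd.of_UI (hL.alr_UI (p := q))
  have b2 := Bd.of_UI (hL1.alr_UI (p := q))
  have b3 := Bd.of_UI (S.pf_UI q m)
  have c1 : Bd fun y => 1 - S.alr q m y := (Bd.const 1).sub b1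
  have c2 : Bd fun y => 1 - S.alr q (m + 1) y := (Bd.const 1).sub b2
  have h1 : fr (S.W q m) (fun y => max (S.fld q m y) (S.fld q (m + 1) y)) z
      ≤ fr (S.W q m) (fun y => S.pf q m y + ((1 - S.alr q m y) + (1 - S.alr q (m + 1) y))) z := by
    refine fr_mono (Bd.of_UI (H654.UI.max hL.fld_UI hL1.fld_UI)) (b3.add (c1.add c2)) (fun y => ?_) z
    have k1 := fld_le_killed hm.le (q := q) y
    have k2 := fld_le_killed (m := m + 1) hm (q := q) y
    rw [hs.pf hre hm hq] at k2
    have k3 := (hL.alr_UI (p := q)).le_one y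
    have k4 := (hL1.alr_UI (p := q)).le_one y
    exact max_le (by linarith) (by linarith)
  rw [fr_add b3 (c1.add c2), fr_add c1 c2] at h1
  have h2 := fr_killed_one hε hk hk1 hm.le hz
  have h3 := fr_killed_one hε hk hk1 (m := m + 1) hm (by rw [hs.Z hre hm]; exact hz)
  rw [hs.W hre hm, hs.cf hre hm] at h3
  -- the deficit
  have h4 : S.cf m q z - 4 * S.kp 1 * S.cf m q z < fr (S.W q m) (S.pf q m) z := by linarith
  have hA := S.A_ne_top q m z
  have hA0 : 0 ≤ (S.A q m z).toReal := ENNReal.toReal_nonneg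
  have h5 : S.M * (S.A q m z).toReal ≤ fr (S.W q m) (S.pf q m) z := by
    refine le_trans ?_ h4.le
    unfold Sys.cf
    nlinarith [mul_le_mul_of_nonneg_right hk1 hA0]
  have h6 : ENNReal.ofReal S.M * S.A q m z ≤ S.De q m z := by
    have : S.De q m z = ENNReal.ofReal (fr (S.W q m) (S.pf q m) z) := (S.ofReal_fr_pf _ q m z).symm
    rw [this]
    calc ENNReal.ofReal S.M * S.A q m z
        = ENNReal.ofReal (S.M * (S.A q m z).toReal) := by
          rw [ENNReal.ofReal_mul (by have := S.hM; linarith), ENNReal.ofReal_toReal hA]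
      _ ≤ _ := ENNReal.ofReal_le_ofReal h5
  refine ⟨⟨hz, Or.inr (h6.trans (De_le_Db (Same.refl (zero_mem_BB q m z) ht)))⟩,
    ⟨by rw [hs.Z hre hm]; exact hz, Or.inr ?_⟩⟩
  rw [hs.A hre hm]
  refine h6.trans ?_
  rw [← hs.De hre hm hq]
  exact De_le_Db (Same.refl (zero_mem_BB q (m + 1) z) ht1)

/-! ### one level -/

/-- **the change goes through counted labels** -/
theorem reG_step (hp : p ∈ paths S.cm (Module.finrank ℝ E)) (hl : ¬ S.Leaf p m)
    (hs : S.Sv (S.kl p m x :: p) m) :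
    S.reG p m x ≤ fib (S.W p m) (fun y =>
      iw (S.om (S.kl p m x :: p) m ∩ S.om (S.kl p m x :: p) (m + 1)) y *
        (ENNReal.ofReal (1 + 16 * S.cc) * S.reG (S.kl p m x :: p) m y)) x := by
  have ht := re_tm_lt hre hm
  have hL := S.labOK hm.le
  have hL1 := S.labOK (m := m + 1) hm
  set q := S.kl p m x :: p with hq
  have hqG : q ∈ paths S.cm (Module.finrank ℝ E) := mem_paths_cons ht hp hl (kl_le_cm _ _ _)
  have hl1 : ¬ S.Leaf p (m + 1) := fun h => hl ((hs.of_cons.leaf hre hm).1 h)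
  set u : E → ℝ := S.fld q m with hu
  set u' : E → ℝ := S.fld q (m + 1) with hu'
  set L : Lev E := S.lv q m with hLdef
  have hLok : LevOK S.cc L := lv_ok hm.le q
  have f1 := H654.fl_one_UI hLok S.cc_le' (hL.fld_UI (p := q))
  have f2 := H654.fl_one_UI hLok S.cc_le' (hL1.fld_UI (p := q))
  set R := S.mv.Q m q with hR
  -- through the child
  have e1 : S.reG p m x = fib (S.W p m) (fun y => ENNReal.ofReal
      |H654.fl [L] u' (R.symm y) - H654.fl [L] u (R.symm y)|) x := by
    unfold reG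
    refine H713.fib_congr fun y hy => ?_
    have k1 : S.kl p m y = S.kl p m x := hL.kl_eq hy
    have k2 : S.kl p (m + 1) y = S.kl p m y := by
      refine Sv.kl hre hm ?_
      rw [k1]; exact hs
    have g1 := fld_eq_one hm.le hl y
    have g2 := fld_eq_one (m := m + 1) hm hl1 y
    rw [k2] at g2
    rw [k1] at g1 g2
    rw [← hq] at g1 g2
    rw [hs.lv hre hm, hs.Q hre hm hqG (by rw [hq]; exact List.cons_ne_nil _ _)] at g2
    rw [g1, g2]
  have hmeas : Measurable fun y => ENNReal.ofReal |H654.fl [L] u' y - H654.fl [L] u y| :=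
    ((Bd.of_UI f2).sub (Bd.of_UI f1)).abs.meas.ennreal_ofReal
  have e2 : S.reG p m x = fib (S.W p m) (fun y => ENNReal.ofReal
      |H654.fl [L] u' y - H654.fl [L] u y|) x := by
    rw [e1]
    exact H395.fib_fixes (CF2.fixes_symm (S.Q_fix _ p m)) hmeas x
  rw [e2, ← H395.fib_tower (S.W_le (S.kl p m x) p m) hmeas x]
  refine fib_mono (fun z => ?_) x
  have hb : Bd fun y => |H654.fl [L] u' y - H654.fl [L] u y| :=
    ((Bd.of_UI f2).sub (Bd.of_UI f1)).abs
  have hb' : Bd fun y => |u' y - u y| :=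
    ((Bd.of_UI hL1.fld_UI).sub (Bd.of_UI hL.fld_UI)).abs
  rw [← ofReal_fr hb (fun y => abs_nonneg _) z]
  have key := H654.one_step hLok S.cc_le' (hL.fld_UI (p := q)) (hL1.fld_UI (p := q)) z
  refine (ENNReal.ofReal_le_ofReal key).trans ?_
  have hG : S.reG q m z = ENNReal.ofReal (fr (S.W q m) (fun y => |u' y - u y|) z) :=
    (ofReal_fr hb' (fun y => abs_nonneg _) z).symm
  rw [hG, ENNReal.ofReal_mul (H654.slp_nonneg hLok S.cc_le' _ z)]
  by_cases hv : z ∉ L.Z ∧ L.c z < fr L.W (fun y => max (u y) (u' y)) z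
  · have hom := om_of_vis hre hm hε hk hk1 hqG hs hv.1 hv.2
    have hi : iw (S.om q m ∩ S.om q (m + 1)) z = 1 :=
      indicator_of_mem (show z ∈ S.om q m ∩ S.om q (m + 1) from hom) _
    rw [hi, one_mul]
    refine mul_le_mul' ?_ le_rfl
    apply ENNReal.ofReal_le_ofReal
    refine (H654.slp_le hLok S.cc_nonneg S.cc_le' _ z).trans ?_
    exact H654.sg_le_one_add S.cc_nonneg S.cc_le'
  · have h0 : H654.slp L (fr L.W fun z => max (u z) (u' z)) z = 0 := by
      unfold H654.slp; rw [if_neg hv]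
    rw [h0, ENNReal.ofReal_zero, zero_mul]
    exact zero_le

end vis

/-- the change at a leaf node vanishes -/
theorem reG_leaf (hp : p ∈ paths S.cm (Module.finrank ℝ E)) (hs : S.Sv p m) (hl : S.Leaf p m)
    (x : E) : S.reG p m x = 0 := by
  have hl1 : S.Leaf p (m + 1) := (hs.leaf hre hm).2 hl
  unfold reG
  have e : (fun y => ENNReal.ofReal |S.fld p (m + 1) y - S.fld p m y|) = fun _ : E => 0 := by
    funext y
    rw [Sys.fld_leaf (S.labOK hm) hm hl1, Sys.fld_leaf (S.labOK hm.le) hm.le hl, hs.pf hre hm hp,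
      sub_self, abs_zero, ENNReal.ofReal_zero]
  rw [e]
  exact H395.fib_const _ 0 x

/-- **the two fields are compared with the payoff** -/
theorem reG_end (hp : p ∈ paths S.cm (Module.finrank ℝ E)) (hs : S.Sv p m) (x : E) :
    S.reG p m x ≤ S.Cv p m x + S.Cv p (m + 1) x := by
  have hL := S.labOK hm.le
  have hL1 := S.labOK (m := m + 1) hm
  unfold reG Cv
  rw [hs.W hre hm, hs.pf hre hm hp]
  have hb : Bd fun y => |S.pf p m y - S.fld p m y| :=
    ((Bd.of_UI (S.pf_UI p m)).sub (Bd.of_UI hL.fld_UI)).abs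
  rw [← H395.fib_add hb.meas.ennreal_ofReal]
  refine fib_mono (fun y => ?_) x
  rw [← ENNReal.ofReal_add (abs_nonneg _) (abs_nonneg _)]
  apply ENNReal.ofReal_le_ofReal
  have e : S.fld p (m + 1) y - S.fld p m y
      = (S.pf p m y - S.fld p m y) - (S.pf p m y - S.fld p (m + 1) y) := by ring
  rw [e]
  exact abs_sub _ _

end re

end Vale.Agent.P262.M2.Sys
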