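import Vale.Agent.P262.H654.ReG
import Vale.Agent.P262.H493.ConvD

/-!
# P262, milestone 2: the price of a reopening, integrated over the counted labels

`Pt_re_le`: the price of the reopening `m` at the labels of level `l` is at most the sum over
`i ≥ l` of `b ^ (i - l)` times the distances between field and payoff at the counted labels of
level `i` whose child ends at `m` (`CL i m`), or begins at `m + 1` (`CF i (m + 1)`).
-/

set_option linter.all false

open MeasureTheory ProbabilityTheory Set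
open scoped ENNReal RealInnerProductSpace Classical

namespace Vale.Agent.P262.M2.Sys

open Vale.Agent.P262.H118 (K2 paths mem_paths)
open Vale.Agent.P262.H395 (fib mix Inv measurable_fib fib_mono Fixes)
open Vale.Agent.P262.H44 (InvS)
open Vale.Agent.P262.H847 (UI)
open Vale.Agent.P262.H654 (fr Bd ofReal_fr)

variable {E : Type*} [NormedAddCommGroup E] [InnerProductSpace ℝ E] [FiniteDimensional ℝ E]
  [MeasurableSpace E] [BorelSpace E] (S : Sys E)

/-- labels of the node `r` which are counted at the states `m` and `m + 1` -/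
def JS (m : ℕ) (r : List ℕ) : Set E :=
  {x | (¬ S.Leaf r m ∧ S.Sv r m) ∧ (∀ s, s <:+ r → x ∈ S.om s m) ∧ x ∈ S.om r (m + 1)}

variable {S} {m : ℕ} {p q : List ℕ} {x y z : E} {c : ℕ}

lemma mem_omS {j : ℕ} :
    x ∈ {x | x ∈ S.om (S.nd m x j) m} ↔ x ∈ S.om (S.nd m x j) m := by rw [mem_setOf_eq]

lemma mem_inn {j : ℕ} : x ∈ S.inn j m ↔ m < S.be (S.nd m x j) m x := by
  unfold inn
  rw [mem_setOf_eq]

lemma nd_of_suffix {i : ℕ} {s : List ℕ} (h : s <:+ S.nd m x i) :
    s.length ≤ i ∧ s = S.nd m x s.length := by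
  have h1 := h.length_le
  rw [length_nd] at h1
  refine ⟨h1, ?_⟩
  have h2 := nd_suffix_nd (S := S) m x h1
  have h3 := List.suffix_of_suffix_length_le h h2 (by rw [length_nd])
  exact h3.eq_of_length (by rw [length_nd])

lemma mem_JS_nd {i : ℕ} : x ∈ S.JS m (S.nd m x i) ↔
    x ∈ S.NL i m ∧ x ∈ S.OL (i + 1) m ∧ S.Sv (S.nd m x i) m ∧ x ∈ S.om (S.nd m x i) (m + 1) := by
  constructor
  · rintro ⟨⟨h1, h2⟩, h3, h4⟩
    exact ⟨h1, fun k hk => h3 _ (nd_suffix_nd m x (by omega)), h2, h4⟩
  · rintro ⟨h1, h2, h3, h4⟩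
    refine ⟨⟨h1, h3⟩, fun s hs => ?_, h4⟩
    obtain ⟨h5, h6⟩ := nd_of_suffix hs
    rw [h6]
    exact h2 _ (by omega)

lemma measurableSet_JS (m : ℕ) (r : List ℕ) : MeasurableSet (S.JS m r) := by
  by_cases h : ¬ S.Leaf r m ∧ S.Sv r m
  · have e : S.JS m r = (⋂ (s : List ℕ), ⋂ (_ : s <:+ r), S.om s m) ∩ S.om r (m + 1) := by
      ext x
      simp only [JS, mem_setOf_eq, mem_inter_iff, mem_iInter]
      tauto
    rw [e]
    exact (MeasurableSet.iInter fun s => MeasurableSet.iInter fun _ => measurableSet_om s m).inter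
      (measurableSet_om r (m + 1))
  · have e : S.JS m r = ∅ := by
      ext x
      simp only [JS, mem_setOf_eq, mem_empty_iff_false, iff_false]
      tauto
    rw [e]
    exact MeasurableSet.empty

lemma measurable_iw_654 {s : Set E} (hs : MeasurableSet s) : Measurable (iw s) :=
  measurable_one.indicator hs

lemma reG_meas (hm : m < S.mT) (p : List ℕ) : Measurable (S.reG p m) :=
  measurable_fib (((Bd.of_UI (S.labOK (m := m + 1) hm).fld_UI).sub
    (Bd.of_UI (S.labOK hm.le).fld_UI)).abs.meas.ennreal_ofReal)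

lemma Cv_meas (hm : m ≤ S.mT) (p : List ℕ) : Measurable (S.Cv p m) :=
  measurable_fib (((Bd.of_UI (S.pf_UI p m)).sub
    (Bd.of_UI (S.labOK hm).fld_UI)).abs.meas.ennreal_ofReal)

lemma slp_le_one_654 (p : List ℕ) (m : ℕ) (x : E) (s : ℝ≥0∞) : S.slp p m x s ≤ 1 := by
  unfold slp
  refine ENNReal.rpow_le_one ?_ S.hth.le
  exact ENNReal.div_le_of_le_mul (by rw [one_mul]; exact le_max_left _ _)

section re

variable (hre : S.mv.IsRe m) (hm : m < S.mT)
include hre hm

lemma JS_inv (r : List ℕ) : InvS (S.W r m) (S.JS m r) := by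
  have ht := re_tm_lt hre hm
  intro x w hw
  unfold JS
  simp only [mem_setOf_eq]
  by_cases h : ¬ S.Leaf r m ∧ S.Sv r m
  · have h1 : x + w ∈ S.om r (m + 1) ↔ x ∈ S.om r (m + 1) := by
      refine om_inv r (m := m + 1) (by rw [S.mv.tm_succ_re hre]; exact re_lt hre hm) x w ?_
      rw [h.2.W hre hm]; exact hw
    have h2 : (∀ s, s <:+ r → x + w ∈ S.om s m) ↔ (∀ s, s <:+ r → x ∈ S.om s m) := by
      refine forall_congr' fun s => forall_congr' fun hs => ?_
      exact om_inv s ht x w (Submodule.orthogonal_le (S.W_mono hs m) hw)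
    rw [h1, h2]
  · tauto

/-- integrand below the node `r` -/
private noncomputable def FJ (S : Sys E) (m : ℕ) (r : List ℕ) (y : E) : ℝ≥0∞ :=
  if S.Sv (S.kl r m y :: r) m then
    iw (S.om (S.kl r m y :: r) m ∩ S.om (S.kl r m y :: r) (m + 1)) y *
      (ENNReal.ofReal (1 + 16 * S.cc) * S.reG (S.kl r m y :: r) m y) else 0

omit hre in
private lemma FJ_meas (r : List ℕ) : Measurable (FJ S m r) := by
  refine measurable_of_kl (F := fun c y => if S.Sv (c :: r) m then
    iw (S.om (c :: r) m ∩ S.om (c :: r) (m + 1)) y *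
      (ENNReal.ofReal (1 + 16 * S.cc) * S.reG (c :: r) m y) else 0) fun c => ?_
  by_cases h : S.Sv (c :: r) m
  · simp only [h, if_true]
    exact (measurable_iw_654 ((measurableSet_om _ _).inter (measurableSet_om _ _))).mul
      ((reG_meas hm _).const_mul _)
  · simp only [h, if_false]
    exact measurable_const

variable (hε : 2 * (Real.sqrt 2 * Real.exp (-(S.qq / 4))) ≤ 1 / 2) (hk : S.kp 1 ≤ 1 / 2)
  (hk1 : 4 * S.kp 1 * (S.M + 1) ≤ 1)
include hε hk hk1

/-- one level, pointwise -/
lemma reG_le_add (hp : p ∈ paths S.cm (Module.finrank ℝ E)) (hl : ¬ S.Leaf p m) (hs : S.Sv p m)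
    (x : E) :
    S.reG p m x ≤ iw {x | ¬ S.Sv (S.kl p m x :: p) m} x * (S.Cv p m x + S.Cv p (m + 1) x)
      + fib (S.W p m) (FJ S m p) x := by
  by_cases h : S.Sv (S.kl p m x :: p) m
  · refine le_trans ?_ le_add_self
    refine (reG_step hre hm hε hk hk1 hp hl h).trans (le_of_eq ?_)
    refine H713.fib_congr fun y hy => ?_
    have e : S.kl p m y = S.kl p m x := (S.labOK hm.le).kl_eq hy
    unfold FJ
    rw [e, if_pos h]
  · refine le_trans ?_ le_self_add
    have hi : iw {x | ¬ S.Sv (S.kl p m x :: p) m} x = 1 := indicator_of_mem h _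
    rw [hi, one_mul]
    exact reG_end hre hm hp hs x

/-- one level, integrated -/
lemma JS_step (i : ℕ) (hi : i ≤ Module.finrank ℝ E) :
    ∫⁻ x, iw (S.JS m (S.nd m x i)) x * S.reG (S.nd m x i) m x ∂stdGaussian E ≤
      (S.CL i m + S.CF i (m + 1)) + ENNReal.ofReal (1 + 16 * S.cc) *
        ∫⁻ x, iw (S.JS m (S.nd m x (i + 1))) x * S.reG (S.nd m x (i + 1)) m x
          ∂stdGaussian E := by
  have ht := re_tm_lt hre hm
  have ht1 : S.mv.tm (m + 1) < S.T := by rw [S.mv.tm_succ_re hre]; exact re_lt hre hm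
  -- measurability
  have mE : ∀ r, MeasurableSet {x | ¬ S.Sv (S.kl r m x :: r) m} := by
    intro r
    have h1 := measurable_kl (S := S) r m
    have h2 : MeasurableSet {c : ℕ | ¬ S.Sv (c :: r) m} := MeasurableSet.of_discrete
    exact h1 h2
  have m1 : ∀ r, Measurable fun x => iw (S.JS m r ∩ {x | ¬ S.Sv (S.kl r m x :: r) m}) x *
      S.Cv r m x := fun r =>
    (measurable_iw_654 ((measurableSet_JS m r).inter (mE r))).mul (Cv_meas hm.le r)
  have m3 : ∀ r, Measurable fun x => iw (S.JS m r) x * fib (S.W r m) (FJ S m r) x := fun r =>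
    (measurable_iw_654 (measurableSet_JS m r)).mul (measurable_fib (FJ_meas hm r))
  -- pointwise
  have h1 : ∀ x, iw (S.JS m (S.nd m x i)) x * S.reG (S.nd m x i) m x ≤
      (iw (S.JS m (S.nd m x i)) x * fib (S.W (S.nd m x i) m) (FJ S m (S.nd m x i)) x
      + iw (S.JS m (S.nd m x i) ∩ {y | ¬ S.Sv (S.kl (S.nd m x i) m y :: S.nd m x i) m}) x *
        S.Cv (S.nd m x i) m x)
      + iw (S.JS m (S.nd m x i) ∩ {y | ¬ S.Sv (S.kl (S.nd m x i) m y :: S.nd m x i) m}) x *
        S.Cv (S.nd m x i) (m + 1) x := by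
    intro x
    by_cases hx : x ∈ S.JS m (S.nd m x i)
    · have e1 : iw (S.JS m (S.nd m x i)) x = 1 := indicator_of_mem hx _
      have e2 : iw (S.JS m (S.nd m x i) ∩ {y | ¬ S.Sv (S.kl (S.nd m x i) m y :: S.nd m x i) m}) x
          = iw {y | ¬ S.Sv (S.kl (S.nd m x i) m y :: S.nd m x i) m} x := by
        unfold iw
        rw [← indicator_indicator, indicator_of_mem hx]
      rw [e1, e2, one_mul, one_mul]
      refine (reG_le_add hre hm hε hk hk1 (nd_mem_G m x hi) hx.1.1 hx.1.2 x).trans (le_of_eq ?_)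
      ring
    · have e1 : iw (S.JS m (S.nd m x i)) x = 0 := indicator_of_notMem hx _
      rw [e1, zero_mul]
      exact zero_le
  refine (lintegral_mono h1).trans ?_
  have M3 := measurable_nd (S := S) m i m3
  have M1 := measurable_nd (S := S) m i m1
  have M31 : Measurable fun x => iw (S.JS m (S.nd m x i)) x *
      fib (S.W (S.nd m x i) m) (FJ S m (S.nd m x i)) x
      + iw (S.JS m (S.nd m x i) ∩ {y | ¬ S.Sv (S.kl (S.nd m x i) m y :: S.nd m x i) m}) x *
        S.Cv (S.nd m x i) m x := M3.add M1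
  rw [lintegral_add_left M31, lintegral_add_left M3, add_assoc, add_comm]
  refine add_le_add (add_le_add ?_ ?_) ?_
  · -- last states
    unfold CL CX
    refine lintegral_mono fun x => mul_le_mul' ?_ le_rfl
    by_cases hx : x ∈ S.JS m (S.nd m x i) ∩ {y | ¬ S.Sv (S.kl (S.nd m x i) m y :: S.nd m x i) m}
    · have hx' : x ∈ S.omj i m ∩ {x | S.mv.eS (S.K.nw (S.nd m x (i + 1))) m = m} := by
        obtain ⟨h2, h3, h4, h5⟩ := mem_JS_nd.1 hx.1
        refine ⟨⟨⟨h2, fun k hk => h3 k (by omega)⟩, mem_omS.2 (h3 i (by omega))⟩, ?_⟩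
        rw [mem_setOf_eq]
        have h6 : S.mv.tm m + 1 ∈ S.K.nw (S.nd m x (i + 1)) := not_not.1 hx.2
        exact (S.mv.re_end (S.K.zero_mem_nw _) hre (re_lt hre hm) h6).1
      unfold iw
      rw [indicator_of_mem hx]
      exact (indicator_of_mem hx' _).symm.le
    · unfold iw
      rw [indicator_of_notMem hx]
      exact zero_le
  · -- first states
    unfold CF CX
    refine lintegral_mono fun x => ?_
    by_cases hx : x ∈ S.JS m (S.nd m x i) ∩ {y | ¬ S.Sv (S.kl (S.nd m x i) m y :: S.nd m x i) m}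
    · obtain ⟨h2, h3, h4, h5⟩ := mem_JS_nd.1 hx.1
      have hsame := h4.same hre hm
      have e1 : S.nd (m + 1) x i = S.nd m x i := nd_same hsame ht i le_rfl
      have hx' : x ∈ S.omj i (m + 1) ∩
          {x | S.mv.sS (S.K.nw (S.nd (m + 1) x (i + 1))) (m + 1) = m + 1} := by
        refine ⟨⟨⟨(NL_same hsame ht).2 h2, (OL_same hsame ht).2 fun k hk => h3 k (by omega)⟩,
          mem_omS.2 ?_⟩, ?_⟩
        · rw [e1]; exact h5
        · rw [mem_setOf_eq]
          have h6 : S.mv.tm m + 1 ∈ S.K.nw (S.nd (m + 1) x (i + 1)) := by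
            by_contra hcon
            have h7 : S.Sv (S.kl (S.nd m x i) (m + 1) x :: S.nd m x i) m := by
              rw [nd_succ, e1] at hcon
              exact hcon
            have h8 := h7.kl' hre hm
            apply hx.2
            show S.Sv (S.kl (S.nd m x i) m x :: S.nd m x i) m
            rw [h8]
            exact h7
          exact (S.mv.re_end (S.K.zero_mem_nw _) hre (re_lt hre hm) h6).2
      have w1 : iw (S.JS m (S.nd m x i) ∩
          {y | ¬ S.Sv (S.kl (S.nd m x i) m y :: S.nd m x i) m}) x = 1 := indicator_of_mem hx _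
      have w2 : iw (S.NL i (m + 1) ∩ S.OL i (m + 1) ∩
          {x | x ∈ S.om (S.nd (m + 1) x i) (m + 1)} ∩
          {x | S.mv.sS (S.K.nw (S.kl (S.nd (m + 1) x i) (m + 1) x :: S.nd (m + 1) x i)) (m + 1)
            = m + 1}) x = 1 := indicator_of_mem hx' _
      simp only []
      rw [w1, w2, e1]
    · have w1 : iw (S.JS m (S.nd m x i) ∩
          {y | ¬ S.Sv (S.kl (S.nd m x i) m y :: S.nd m x i) m}) x = 0 := indicator_of_notMem hx _
      simp only []
      rw [w1, zero_mul]
      exact zero_le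
  · -- the next level
    have hg : ∀ r, Inv (S.W r m) (iw (S.JS m r)) := by
      intro r x w hw
      unfold iw
      by_cases h : x ∈ S.JS m r
      · rw [indicator_of_mem h, indicator_of_mem ((JS_inv hre hm r x w hw).2 h)]; rfl
      · rw [indicator_of_notMem h, indicator_of_notMem fun h' => h ((JS_inv hre hm r x w hw).1 h')]
    rw [int_mul_fib ht i (g := fun r => iw (S.JS m r)) (F := FJ S m) hg
      (fun r => measurable_iw_654 (measurableSet_JS m r)) (FJ_meas hm),
      ← lintegral_const_mul _ (measurable_nd (S := S) m (i + 1) (F := fun r x =>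
        iw (S.JS m r) x * S.reG r m x) fun r =>
        (measurable_iw_654 (measurableSet_JS m r)).mul (reG_meas hm r))]
    refine lintegral_mono fun x => ?_
    show iw (S.JS m (S.nd m x i)) x * FJ S m (S.nd m x i) x ≤ _
    by_cases hx : x ∈ S.JS m (S.nd m x i)
    · have e1 : iw (S.JS m (S.nd m x i)) x = 1 := indicator_of_mem hx _
      rw [e1, one_mul]
      unfold FJ
      rw [← nd_succ]
      split_ifs with hs
      · obtain ⟨h2, h3, h4, h5⟩ := mem_JS_nd.1 hx
        have hG := child_mem_G ht h2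
        by_cases hl : S.Leaf (S.nd m x (i + 1)) m
        · rw [reG_leaf hre hm hG hs hl, mul_zero, mul_zero]; exact zero_le
        by_cases ho : x ∈ S.om (S.nd m x (i + 1)) m ∩ S.om (S.nd m x (i + 1)) (m + 1)
        · have hx' : x ∈ S.JS m (S.nd m x (i + 1)) := by
            refine mem_JS_nd.2 ⟨hl, fun k hk => ?_, hs, ho.2⟩
            rcases Nat.lt_or_ge k (i + 1) with h | h
            · exact h3 k h
            · have : k = i + 1 := by omega
              rw [this]; exact ho.1
          have w1 : iw (S.om (S.nd m x (i + 1)) m ∩ S.om (S.nd m x (i + 1)) (m + 1)) x = 1 :=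
            indicator_of_mem ho _
          have w2 : iw (S.JS m (S.nd m x (i + 1))) x = 1 := indicator_of_mem hx' _
          rw [w1, w2, one_mul, one_mul]
        · have w1 : iw (S.om (S.nd m x (i + 1)) m ∩ S.om (S.nd m x (i + 1)) (m + 1)) x = 0 :=
            indicator_of_notMem ho _
          rw [w1, zero_mul]; exact zero_le
      · exact zero_le
    · have e1 : iw (S.JS m (S.nd m x i)) x = 0 := indicator_of_notMem hx _
      rw [e1, zero_mul]; exact zero_le

/-- all levels -/
lemma JS_sum (n : ℕ) : ∀ i, i + n = S.nl →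
    ∫⁻ x, iw (S.JS m (S.nd m x i)) x * S.reG (S.nd m x i) m x ∂stdGaussian E ≤
      ∑ k ∈ Finset.Ico i S.nl, ENNReal.ofReal ((1 + 16 * S.cc) ^ (k - i)) *
        (S.CL k m + S.CF k (m + 1)) := by
  have ht := re_tm_lt hre hm
  have hcc := S.cc_nonneg
  induction n with
  | zero =>
    intro i hi
    have e : ∀ x, iw (S.JS m (S.nd m x i)) x * S.reG (S.nd m x i) m x = 0 := by
      intro x
      have hx : x ∉ S.JS m (S.nd m x i) := by
        intro hx
        have h1 := le_of_mem_NL ht (mem_JS_nd.1 hx).1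
        unfold nl at hi
        omega
      have e1 : iw (S.JS m (S.nd m x i)) x = 0 := indicator_of_notMem hx _
      rw [e1, zero_mul]
    simp only [e, lintegral_zero]
    exact zero_le
  | succ n ih =>
    intro i hi
    refine (JS_step hre hm hε hk hk1 i (by unfold nl at hi; omega)).trans ?_
    rw [Finset.sum_eq_sum_Ico_succ_bot (by omega : i < S.nl)]
    refine add_le_add ?_ ?_
    · rw [Nat.sub_self, pow_zero, ENNReal.ofReal_one, one_mul]
    · refine (mul_le_mul' le_rfl (ih (i + 1) (by omega))).trans (le_of_eq ?_)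
      rw [Finset.mul_sum]
      refine Finset.sum_congr rfl fun k hk' => ?_
      rw [Finset.mem_Ico] at hk'
      rw [← mul_assoc, ← ENNReal.ofReal_mul (by linarith), ← pow_succ',
        show k - (i + 1) + 1 = k - i by omega]

/-- **the price of a reopening** -/
theorem Pt_re_le {G : List ℕ → ℕ → E → ℝ≥0∞} (hG : ∀ p x, G p m x ≤ S.reG p m x) {l : ℕ}
    (hl : l ≤ S.nl) :
    S.Pt G l m ≤ ∑ i ∈ Finset.Ico l S.nl, ENNReal.ofReal ((1 + 16 * S.cc) ^ (i - l)) *
      (S.CL i m + S.CF i (m + 1)) := by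
  have ht := re_tm_lt hre hm
  refine le_trans ?_ (JS_sum hre hm hε hk hk1 (S.nl - l) l (by omega))
  refine lintegral_mono fun x => ?_
  by_cases hx : x ∈ S.omj l m ∩ S.inn l m
  · have w1 : iw (S.omj l m ∩ S.inn l m) x = 1 := indicator_of_mem hx _
    obtain ⟨⟨⟨h1, h2⟩, h3⟩, h4⟩ := hx
    replace h3 := mem_omS.1 h3
    have h5 : S.mv.tm m + 1 ∉ S.BB (S.nd m x l) m x := by
      intro h6
      have h7 := (S.mv.re_end (zero_mem_BB _ _ _) hre (re_lt hre hm) h6).1
      have h8 : m < S.be (S.nd m x l) m x := mem_inn.1 h4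
      unfold be at h8
      omega
    have h6 : S.Same (S.BB (S.nd m x l) m x) m (m + 1) :=
      Same.re (zero_mem_BB _ _ _) hre (re_lt hre hm) h5
    have hx' : x ∈ S.JS m (S.nd m x l) := by
      refine mem_JS_nd.2 ⟨h1, fun k hk => ?_, fun h => h5 (nw_sub_BB _ _ _ h), ?_⟩
      · rcases Nat.lt_or_ge k l with h | h
        · exact h2 k h
        · have : k = l := by omega
          rw [this]; exact h3
      · exact (om_same h6 ht).2 h3
    have w2 : iw (S.JS m (S.nd m x l)) x = 1 := indicator_of_mem hx' _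
    simp only []
    rw [w1, w2, one_mul, one_mul]
    calc S.slm (S.nd m x l) m x * G (S.nd m x l) m x
        ≤ 1 * S.reG (S.nd m x l) m x := mul_le_mul' (slp_le_one_654 _ _ _ _) (hG _ _)
      _ = _ := one_mul _
  · have w1 : iw (S.omj l m ∩ S.inn l m) x = 0 := indicator_of_notMem hx _
    simp only []
    rw [w1, zero_mul]; exact zero_le

end re

/-- **block REO**: every price array which at the reopenings is at most the mean change of the
field -/
theorem reo (H : S.ConvH) (hk1 : 4 * S.kp 1 * (S.M + 1) ≤ 1) {G : List ℕ → ℕ → E → ℝ≥0∞}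
    (hG : ∀ m, m < S.mT → S.mv.IsRe m → ∀ p x, G p m x ≤ S.reG p m x) :
    S.REO G (2 * S.kV) (1 + 16 * S.cc) :=
  reo_of H fun m hm hre l hl => Pt_re_le hre hm (H.cons.qq.trans (by norm_num))
    (H.kp.trans (by norm_num)) hk1 (hG m hm hre) hl.le

end Vale.Agent.P262.M2.Sys
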