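import Vale.Agent.P262.H654.ReF
import Vale.Agent.P262.H924.Num

/-!
# Block REO with the numerical hypotheses discharged

`blk_reo`: block REO for the price `GG Gi` from 924's `Num`, the healthy root and `2 ≤ a`.
-/

namespace Vale.Agent.P262.M2

open MeasureTheory ProbabilityTheory Set
open scoped ENNReal NNReal

variable {E : Type*} [NormedAddCommGroup E] [InnerProductSpace ℝ E] [FiniteDimensional ℝ E]
  [MeasurableSpace E] [BorelSpace E]

namespace Sys

variable {S : Sys E} {KU Cr a CT w : ℝ}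

/-- Block REO for the price `GG Gi`, numbers from `Num`. -/
theorem blk_reo (N : S.Num KU Cr a CT w) (hH : ∀ k ≤ S.mT, S.Healthy k) (ha : 2 ≤ a)
    {Gi : List ℕ → ℕ → E → ℝ≥0∞} : S.REO (S.GG Gi) (2 * S.kV) a := by
  have hk0 : 0 ≤ S.kp 1 := S.kp_nonneg 1
  have hM0 : 0 ≤ S.M + 1 := by have := S.hM; linarith
  have hk1 : 4 * S.kp 1 * (S.M + 1) ≤ 1 := by
    have h1 := N.kpA
    have h2 : 0 ≤ S.kp 1 * (S.M + 1) := by positivity
    nlinarith
  have hcc : S.cc ≤ 1 / 32 := S.cc_le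
  have H : S.ConvH := ⟨N.consC, N.kr, N.kp8, fun m hm x => kl_root (S.tm_lt_f hm) hH x⟩
  refine REO.mono (reo_GG H hk1) le_rfl ?_ (by linarith)
  linarith [cc_pos (S := S)]

end Sys

end Vale.Agent.P262.M2
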